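import Vale.Agent.P014X.An.St
import Vale.Agent.P014X.Eu.Es

/-! # P014X, analytic block: representatives of the ray classes (row `RYE`) -/

set_option autoImplicit false
set_option linter.all false

open scoped Classical

noncomputable section

namespace Vale.Agent.P014X.An

open Vale.Agent.P022 (Qb GQ)
open Cd (Tv)

/-- an open subgroup has a finite system of representatives -/
theorem Rye.ex_tv (H : Subgroup GQ) {H' : Subgroup GQ} (o : IsOpen (H' : Set GQ)) :
    ∃ T, Tv H H' T := by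
  have := H'.quotient_finite_of_isOpen o
  have := Fintype.ofFinite (GQ ⧸ H')
  have k : ∀ q : GQ ⧸ H', ∃ r ∈ H, (∃ g ∈ H, (g : GQ ⧸ H') = q) → (r : GQ ⧸ H') = q := fun q =>
    (em _).elim (fun ⟨g, a, b⟩ => ⟨g, a, fun _ => b⟩) fun n => ⟨1, one_mem _, fun e => absurd e n⟩
  choose r m e using k
  refine ⟨(Finset.univ.filter fun q => ∃ g ∈ H, (g : GQ ⧸ H') = q).image r, fun s hs => ?_,
    fun g hg => ⟨r g, ⟨Finset.mem_image_of_mem _ (by simpa using ⟨g, hg, rfl⟩),
      QuotientGroup.eq.1 (e _ ⟨g, hg, rfl⟩)⟩, fun s hs => ?_⟩⟩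
  · obtain ⟨q, -, rfl⟩ := Finset.mem_image.1 hs
    exact m q
  · obtain ⟨q, a, rfl⟩ := Finset.mem_image.1 hs.1
    rw [← QuotientGroup.eq.2 hs.2, e q (Finset.mem_filter.1 a).2]

/-- **representatives exist** -/
theorem rye : RYE := fun A B D C p a m hp p2 ad => by
  obtain ⟨T, t⟩ := Rye.ex_tv D.G (Ev.hm_op C ad.ne)
  have k : ∀ g, ∃ β, g ∈ D.G → D.Ac m g β := fun g => (em (g ∈ D.G)).elim
    (fun h => (C.ac m ad.ne g h).imp fun _ k _ => k.2) fun n => ⟨0, fun h => absurd h n⟩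
  choose b e using k
  exact ⟨T, b, ad.ne, fun u => Ev.p_nu hp (isUnit_of_dvd_unit
    ((dvd_pow_self _ two_ne_zero).trans ad.dv) u), fun ζ u d =>
      Ev.sep C hp p2 u isUnit_one (ad.dv.trans d), t, fun g h => e g (t.1 g h)⟩

end Vale.Agent.P014X.An
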