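import Vale.Agent.P027M.S.Eul

/-!
# P014X: the zeta function of an abelian extension is a product of L-functions (helper92)
-/

set_option autoImplicit false
set_option linter.all false

open NumberField IsDedekindDomain Polynomial Finset
open scoped Pointwise Classical

noncomputable section

namespace Vale.Agent.P014X.Lf

open Vale.Agent.P027M.S (LI Pr)
open Vale.Agent.P027M.S.Eul (fv)
open Vale.Agent.P016Z.EP (Nv)

theorem prod_root {ω : ℂ} {f : ℕ} (h : IsPrimitiveRoot ω f) (f0 : 0 < f) (x : ℂ) :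
    ∏ k ∈ range f, (1 - ω ^ k * x) = 1 - x ^ f := by
  have a := congrArg (eval 1) (X_pow_sub_C_eq_prod h f0 (rfl : x ^ f = _))
  simpa only [eval_prod, eval_sub, eval_pow, eval_X, eval_C, one_pow] using a.symm

/-- the product over the characters which are trivial on a subgroup -/
theorem grp {G : Type} [Group G] [Finite G] (hc : ∀ a b : G, a * b = b * a) (I : Subgroup G) (φ : G)
    {f g : ℕ} (f0 : 0 < f) (hf : ∀ i, φ ^ i ∈ I ↔ f ∣ i) (hg : g * Nat.card I * f = Nat.card G)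
    (x : ℂ) [Fintype (G →* ℂˣ)] :
    ∏ χ : G →* ℂˣ, (1 - (if ∀ τ ∈ I, χ τ = 1 then (χ φ : ℂ) else 0) * x) = (1 - x ^ f) ^ g := by
  let _ : CommGroup G := { ‹Group G› with mul_comm := hc }
  have : NeZero (Monoid.exponent G : ℂ) := ⟨Nat.cast_ne_zero.2 Monoid.exponent_ne_zero_of_finite⟩
  set H : Subgroup (G →* ℂˣ) := (MonoidHom.domRestrictHom I ℂˣ).ker with hH
  have mH : ∀ χ, χ ∈ H ↔ ∀ τ ∈ I, χ τ = 1 := fun χ =>
    CommGroup.mem_subgroupOrderIsoSubgroupMonoidHom_iff ℂ I χ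
  have cH : Nat.card H = g * f := by
    rw [hH, CommGroup.card_domRestrictHom_ker]
    refine Nat.eq_of_mul_eq_mul_right (Nat.card_pos (α := I)) ?_
    rw [← Subgroup.card_eq_card_quotient_mul_card_subgroup, ← hg]
    ring
  let ev : H →* ℂˣ := ⟨⟨fun χ => χ.1 φ, rfl⟩, fun _ _ => rfl⟩
  have : Finite ev.range := Finite.of_surjective _ ev.rangeRestrict_surjective
  obtain ⟨r, hr⟩ := IsCyclic.exists_monoid_generator (α := ev.range)
  have p : IsPrimitiveRoot (r : ℂˣ) f := ⟨by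
    obtain ⟨χ, e⟩ := r.2
    rw [← e]
    exact (map_pow χ.1 φ f).symm.trans ((mH _).1 χ.2 _ ((hf f).2 dvd_rfl)), fun l hl => by
    refine (hf l).1 ((CommGroup.forall_monoidHom_apply_eq_one_iff ℂ I _).1 fun χ hχ => ?_)
    obtain ⟨n, e⟩ := hr ⟨ev ⟨χ, (mH χ).2 hχ⟩, _, rfl⟩
    have e' : (r : ℂˣ) ^ n = χ φ := congrArg Subtype.val e
    rw [map_pow, ← e', ← pow_mul, mul_comm, pow_mul, hl, one_pow]⟩
  have im : (univ : Finset H).image ev = (range f).image ((r : ℂˣ) ^ ·) := by
    ext y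
    simp only [mem_image, mem_univ, true_and, mem_range]
    constructor
    · rintro ⟨χ, rfl⟩
      obtain ⟨n, e⟩ := hr ⟨ev χ, _, rfl⟩
      exact ⟨n % f, Nat.mod_lt _ f0, (pow_eq_pow_mod n p.pow_eq_one).symm.trans
        (congrArg Subtype.val e)⟩
    · rintro ⟨n, -, rfl⟩
      exact (r ^ n).2
  have inj : Set.InjOn ((r : ℂˣ) ^ ·) (range f : Finset ℕ) := fun a ha b hb e =>
    p.pow_inj (mem_range.1 ha) (mem_range.1 hb) e
  have fb : ∀ y ∈ (univ : Finset H).image ev, #{χ | ev χ = y} = #{χ | ev χ = 1} := fun y hy => by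
    obtain ⟨χ, -, rfl⟩ := mem_image.1 hy
    exact MonoidHom.card_fiber_eq_of_mem_range ev ⟨χ, rfl⟩ ⟨1, map_one _⟩
  have cg : #{χ | ev χ = 1} = g := by
    have a := card_eq_sum_card_image ev (univ : Finset H)
    rw [sum_congr rfl fb, sum_const, im, card_image_of_injOn inj, card_range, card_univ,
      ← Nat.card_eq_fintype_card, cH, smul_eq_mul, mul_comm] at a
    exact (Nat.eq_of_mul_eq_mul_left f0 a).symm
  calc _ = ∏ χ : G →* ℂˣ with χ ∈ H, (1 - (χ φ : ℂ) * x) := by
        rw [prod_filter]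
        refine prod_congr rfl fun χ _ => ?_
        by_cases h : χ ∈ H
        · rw [if_pos h, if_pos ((mH χ).1 h)]
        · rw [if_neg h, if_neg (mt (mH χ).2 h), zero_mul, sub_zero]
    _ = ∏ χ : H, (1 - (ev χ : ℂ) * x) := prod_subtype _ (by simp) _
    _ = _ := by
        rw [prod_comp (fun y : ℂˣ => 1 - (y : ℂ) * x) ev, prod_congr rfl fun y hy => by
          rw [fb y hy, cg], prod_pow, im, prod_image inj, ← prod_root
          (IsPrimitiveRoot.coe_units_iff.2 p) f0]
        simp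

end Vale.Agent.P014X.Lf
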