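import Vale.Agent.P014X.An.St
import Vale.Agent.P014X.An.Lf0

/-! # P014X, analytic block: the smoothing factor (row SMO) -/

set_option autoImplicit false
set_option linter.all false

open Finset
open scoped Classical

noncomputable section

namespace Vale.Agent.P014X.An

open Vale.Agent.P022 (Qb GQ GK)

namespace Smo

/-- the characteristic polynomial of a translation -/
theorem chp {Γ : Type} [CommGroup Γ] [Finite Γ] [Fintype (Γ →* ℂˣ)] (γ : Γ) {T : ℂ} (hT : T ≠ 0) :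
    ∏ χ : Γ →* ℂˣ, (T - (χ γ : ℂ)⁻¹) = (T ^ orderOf γ - 1) ^ (Nat.card Γ / orderOf γ) := by
  have : NeZero (Monoid.exponent Γ : ℂ) := ⟨Nat.cast_ne_zero.2 Monoid.exponent_ne_zero_of_finite⟩
  have d := Nat.div_mul_cancel (orderOf_dvd_natCard γ)
  have h := Lf.grp mul_comm ⊥ γ⁻¹ (g := Nat.card Γ / orderOf γ) (orderOf_pos γ) (fun i => by
    rw [Subgroup.mem_bot, ← orderOf_dvd_iff_pow_eq_one, orderOf_inv]) (by simpa using d) T⁻¹
  have c : Fintype.card (Γ →* ℂˣ) = orderOf γ * (Nat.card Γ / orderOf γ) := by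
    rw [← Nat.card_eq_fintype_card, CommGroup.card_monoidHom_of_hasEnoughRootsOfUnity, mul_comm, d]
  calc _ = ∏ χ : Γ →* ℂˣ, T * (1 - (if ∀ τ ∈ (⊥ : Subgroup Γ), χ τ = 1 then (χ γ⁻¹ : ℂ) else 0) *
        T⁻¹) := prod_congr rfl fun χ _ => by
        rw [if_pos (fun τ k => by rw [Subgroup.mem_bot.1 k, map_one]), map_inv, Units.val_inv_eq_inv_val]
        field_simp
    _ = _ := by
        rw [prod_mul_distrib, h, prod_const, card_univ, c, pow_mul, ← mul_pow, mul_sub, mul_one,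
          ← mul_pow, mul_inv_cancel₀ hT, one_pow]

variable {G H : Subgroup GQ} {Γ : Type} [Group Γ] {π : G →* Γ}

theorem ker_eq (k : ∀ g, π g = 1 ↔ g.1 ∈ H) : H.subgroupOf G = π.ker :=
  Subgroup.ext fun g => (k g).symm

theorem idx (s : Function.Surjective π) (k : ∀ g, π g = 1 ↔ g.1 ∈ H) :
    H.relIndex G = Nat.card Γ := by
  rw [Subgroup.relIndex, ker_eq k, Subgroup.index_ker, MonoidHom.range_eq_top.2 s, Subgroup.card_top]

theorem ord (k : ∀ g, π g = 1 ↔ g.1 ∈ H) (g : G) :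
    H.relIndex (Subgroup.zpowers g.1) = orderOf (π g) := by
  have l : Subgroup.zpowers g.1 ≤ G := Subgroup.zpowers_le.2 g.2
  have e : (Subgroup.zpowers g.1).subgroupOf G = Subgroup.zpowers g := by
    rw [← G.subtype_apply g, ← MonoidHom.map_zpowers, Subgroup.subgroupOf,
      Subgroup.comap_map_eq_self_of_injective G.subtype_injective]
  rw [← Subgroup.relIndex_subgroupOf l, ker_eq k, e, Subgroup.relIndex_ker, MonoidHom.map_zpowers,
    Nat.card_zpowers]

/-- the characters which are trivial on the kernel -/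
theorem prod_eq {M N : Type} [CommGroup N] [CommMonoid M] [Fintype (Γ →* N)]
    (s : Function.Surjective π) (k : ∀ g, π g = 1 ↔ g.1 ∈ H) {X : Finset (G →* N)}
    (hX : ∀ φ, φ ∈ X ↔ ∀ g : G, g.1 ∈ H → φ g = 1) (f : (G →* N) → M) :
    ∏ φ ∈ X, f φ = ∏ χ : Γ →* N, f (χ.comp π) :=
  (prod_bij (fun χ _ => χ.comp π) (fun χ _ => (hX _).2 fun g h => by
    rw [MonoidHom.comp_apply, (k g).2 h, map_one]) (fun _ _ _ _ e => (MonoidHom.cancel_right s).1 e)
    (fun φ h => ⟨π.liftOfSurjective s ⟨φ, fun g m => (hX φ).1 h g ((k g).1 m)⟩, mem_univ _,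
      π.liftOfRightInverse_comp _ _ _⟩) fun _ _ => rfl).symm

end Smo

open Smo

/-- **row SMO** -/
theorem smo (gal : GAL) : SMO := fun A B D cf m m0 F _ _ jF X a g L a1 hg => by
  obtain ⟨-, -, -, -, -, Γ, _, _, π, -, s, k, -⟩ := gal A B D cf m m0 F jF L.G L.hm
  have : NeZero (Monoid.exponent Γ : ℂ) := ⟨Nat.cast_ne_zero.2 Monoid.exponent_ne_zero_of_finite⟩
  have : Finite (Γ →* ℂˣ) := Nat.finite_of_card_ne_zero (by
    rw [CommGroup.card_monoidHom_of_hasEnoughRootsOfUnity]; exact Nat.card_pos.ne')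
  let _ := Fintype.ofFinite (Γ →* ℂˣ)
  have o := orderOf_pos (π ⟨g, hg⟩)
  have l : 1 < a ^ (2 * orderOf (π ⟨g, hg⟩)) := Nat.one_lt_pow (by omega) a1
  rw [sm, idx s k, ord k ⟨g, hg⟩, ← norm_prod, prod_eq s k L.X]
  refine ⟨?_, pow_ne_zero _ (Nat.sub_ne_zero_of_lt l)⟩
  simp only [cq, dif_pos hg, MonoidHom.comp_apply]
  rw [chp _ (pow_ne_zero 2 (Nat.cast_ne_zero.2 (by omega))), ← pow_mul, ← Complex.norm_natCast]
  push_cast [Nat.cast_sub l.le]
  rfl

end Vale.Agent.P014X.An
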