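import Vale.Agent.P016Z.Pois.Hecke

/-! # P014X (analytic block): the leading term of the Dedekind zeta function at `s = 0` -/

set_option autoImplicit false
set_option linter.all false

namespace Vale.Agent.P014X.Zf0

open NumberField NumberField.Units Complex Finset Module MeasureTheory Filter Topology
open Vale.Agent.P016Z Vale.Agent.P016Z.TH Vale.Agent.P016Z.Pois
open scoped Real nonZeroDivisors

theorem diff_par {Y : Type} [MeasurableSpace Y] {μ : Measure Y} {u : Y → ℝ} {φ : Y → ℂ}
    (hu : Measurable u) (hφ : Measurable φ)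
    (h : ∀ σ : ℝ, -1 < σ → Integrable (fun y => Real.exp (σ * u y) * ‖φ y‖) μ) :
    DifferentiableOn ℂ (fun s : ℂ => ∫ y, cexp (s * u y) * φ y ∂μ) {s | -1 < s.re} := by
  have h1 := diff_param (μ := μ) (φ := fun y => cexp (-(u y : ℂ)) * φ y) hu (by fun_prop)
    fun σ hσ => (h (σ - 1) (by linarith)).congr (ae_of_all _ fun y => by
      simp only [norm_mul, norm_exp, neg_re, ofReal_re]
      rw [← mul_assoc, ← Real.exp_add]; congr 2; ring)
  refine (h1.comp (f := fun s : ℂ => s + 1) (by fun_prop) fun s (hs : -1 < s.re) => ?_).congr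
    fun s _ => ?_
  · show 0 < (s + 1).re
    simp only [add_re, one_re]; linarith
  · refine integral_congr_ae (ae_of_all _ fun y => ?_)
    simp only
    rw [← mul_assoc, ← Complex.exp_add]; congr 2; ring

variable {K ι : Type} [Field K] [NumberField K] [Fintype ι] (C : CM K ι)

theorem dP (A : FI K) : DifferentiableOn ℂ (Pp C A (fun _ => 1) 0) {s | -1 < s.re} := by
  have hw : ∀ n : ℕ, ‖(fun _ => 1 : ℕ → ℂ) n‖ ≤ 1 := by simp
  refine diff_par (by fun_prop) (measurable_th C A _) fun σ _ => ?_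
  have h1 := (unfold_th C (fd_F0 C) A hw (s := (max σ 2 : ℝ))
    (by simp only [ofReal_re]; linarith [le_max_right σ 2])).1.mono_set
      (Set.sdiff_subset (t := {y | ∑ j, y j ≤ 0}))
  have h2 := measurable_th C A fun _ => 1
  refine h1.norm.mono' (Measurable.aestronglyMeasurable (by fun_prop)) ?_
  filter_upwards [ae_restrict_mem (measurableSet_Sp C 0)] with y hy
  have h3 : 0 ≤ ∑ j, y j := (not_le.1 hy.2).le
  rw [Real.norm_of_nonneg (by positivity), norm_mul, norm_exp, re_mul_ofReal, ofReal_re]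
  refine mul_le_mul_of_nonneg_right (Real.exp_le_exp.2 ?_) (norm_nonneg _)
  nlinarith [le_max_left σ 2]

theorem dM (A : FI K) :
    DifferentiableOn ℂ (Mm C A (fun _ => 1) ((vol A)⁻¹ : ℝ) 0) {s | -1 < s.re} := by
  refine diff_par (by fun_prop) (measurable_rem C A _ _) fun σ hσ => ?_
  have hV := inv_pos.2 (vol_pos A)
  have h1 := (unfold_neg C (dl A) 0).1.mono_set (Set.inter_subset_left (t := {y | ∑ j, y j ≤ 0}))
  have h2 := measurable_rem C A (fun _ => 1) ((vol A)⁻¹ : ℝ)
  refine (h1.const_mul (vol A)⁻¹).mono' (Measurable.aestronglyMeasurable (by fun_prop)) ?_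
  filter_upwards [ae_restrict_mem (measurableSet_Sm C 0)] with y hy
  have h3 : ∑ j, y j ≤ 0 := hy.2
  rw [Real.norm_of_nonneg (by positivity)]
  refine (mul_le_mul_of_nonneg_left (rem_one_le C A y) (Real.exp_pos _).le).trans ?_
  have h4 : Real.exp (σ * ∑ j, y j) * Real.exp (-∑ j, y j) ≤
      Real.exp (2 * ∑ j, ((0 : ι → ℝ) - y) j) := by
    rw [← Real.exp_add]
    simp only [Pi.sub_apply, sum_sub_distrib, Pi.zero_apply, sum_const_zero]
    exact Real.exp_le_exp.2 (by nlinarith)
  have h5 := mul_le_mul_of_nonneg_left h4 (mul_nonneg hV.le (thr_nonneg C (dl A) (0 - y)))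
  linarith

/-- the continuation of `(s - 1) s ^ (1 - r)` times the class zeta function -/
noncomputable def HA (A : FI K) (s : ℂ) : ℂ :=
  (torsionOrder K : ℂ)⁻¹ * ((2 * π) ^ s * (Gamma (s + 1))⁻¹) ^ Fintype.card ι *
    cexp (s * Real.log (nrm A)) * (s * ((s - 1) * (Pp C A (fun _ => 1) 0 s +
      Mm C A (fun _ => 1) ((vol A)⁻¹ : ℝ) 0 s) + ((vol A)⁻¹ : ℝ) * kap C) - (s - 1) * kap C)

theorem dH (A : FI K) : DifferentiableOn ℂ (HA C A) {s | -1 < s.re} := by
  have h1 : Differentiable ℂ fun s : ℂ => (2 * π : ℂ) ^ s :=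
    differentiable_id.const_cpow (Or.inl two_pi_ne)
  have h2 : Differentiable ℂ fun s : ℂ => (Gamma (s + 1))⁻¹ :=
    differentiable_one_div_Gamma.comp (f := fun s : ℂ => s + 1) (by fun_prop)
  have h3 := dP C A
  have h4 := dM C A
  have h5 := h1.differentiableOn (s := {s : ℂ | -1 < s.re})
  have h6 := h2.differentiableOn (s := {s : ℂ | -1 < s.re})
  unfold HA
  fun_prop

theorem card_eq (C : CM K ι) : Fintype.card ι = rank K + 1 := by
  have := card_option C
  rw [Fintype.card_option, Fintype.card_fin, finrank_fintype_fun_eq_card] at this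
  exact this.symm

theorem HA_eq (A : FI K) {s : ℂ} (hs : 1 < s.re) :
    s ^ rank K * HA C A s = (s - 1) * zc A (fun _ => 1) s := by
  have hV := vol_pos A
  rw [← (FA_spec C A (dl A) (w := fun _ => 1) (B := 1) (by simp) ((vol A)⁻¹ : ℝ) 0
    (by positivity) (rem_one_le C A) 0).2 s hs]
  have h0 : s ≠ 0 := fun h => by rw [h] at hs; norm_num at hs
  unfold FA HA pre
  rw [one_div_Gamma_eq_self_mul_one_div_Gamma_add_one s, mul_left_comm _ s, mul_pow s, card_eq C,
    pow_succ s]
  simp only [ofReal_zero, mul_zero, Complex.exp_zero]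
  field_simp
  ring

theorem HA_zero (A : FI K) : HA C A 0 = kap C / torsionOrder K := by
  simp [HA, Gamma_one, div_eq_inv_mul]

theorem HA_one (A : FI K) :
    HA C A 1 = (((2 * π) ^ Fintype.card ι * kap C / (torsionOrder K * √|(discr K : ℝ)|) : ℝ) : ℂ) := by
  have h1 : cexp (Real.log (nrm A)) = (nrm A : ℝ) := by
    rw [← ofReal_exp, Real.exp_log (nrm_pos A)]
  have h2 : Gamma (1 + 1) = 1 := by rw [Gamma_add_one 1 one_ne_zero, Gamma_one, mul_one]
  have h3 : ((nrm A : ℝ) : ℂ) ≠ 0 := ofReal_ne_zero.2 (nrm_pos A).ne'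
  have h4 : ((√|(discr K : ℝ)| : ℝ) : ℂ) ≠ 0 :=
    ofReal_ne_zero.2 (Real.sqrt_pos.2 abs_discr_pos).ne'
  have h5 : (torsionOrder K : ℂ) ≠ 0 := by exact_mod_cast torsionOrder_ne_zero K
  simp only [HA, h2, one_mul, h1, sub_self, zero_mul, zero_add, sub_zero, cpow_one, inv_one,
    mul_one, vol]
  push_cast
  field_simp

end Vale.Agent.P014X.Zf0

namespace Vale.Agent.P014X

open NumberField NumberField.Units Complex Finset Filter Topology Zf0
open Vale.Agent.P016Z Vale.Agent.P016Z.TH Vale.Agent.P016Z.Pois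
open scoped Real nonZeroDivisors

/-- **the class number formula at `s = 0`** for a totally complex field -/
theorem zf0 (F : Type) [Field F] [NumberField F] [IsTotallyComplex F] :
    ∃ H : ℂ → ℂ, DifferentiableOn ℂ H {s | -1 < s.re} ∧
      (∀ s : ℂ, 1 < s.re → s ^ rank F * H s = (s - 1) * dedekindZeta F s) ∧
      H 0 = ((classNumber F * regulator F / torsionOrder F : ℝ) : ℂ) := by
  obtain ⟨C⟩ := exists_CM' F
  choose J hJ using ClassGroup.mk0_surjective (R := 𝓞 F)
  have hA : Function.Bijective fun c => ClassGroup.mk F (FractionalIdeal.mk0 F (J c)) := by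
    simp only [ClassGroup.mk_mk0, hJ]
    exact Function.bijective_id
  let H : ℂ → ℂ := fun s => ∑ c, HA C (FractionalIdeal.mk0 F (J c)) s
  have h1 : DifferentiableOn ℂ H {s | -1 < s.re} := DifferentiableOn.fun_sum fun c _ => dH C _
  have h2 : ∀ s : ℂ, 1 < s.re → s ^ rank F * H s = (s - 1) * dedekindZeta F s := fun s hs => by
    rw [← LK_one, ← sum_zc _ hA (B := 1) (by simp) hs, mul_sum, mul_sum]
    exact sum_congr rfl fun c _ => HA_eq C _ hs
  refine ⟨H, h1, h2, ?_⟩
  have h3 : ContinuousAt (fun s : ℝ => (s : ℂ) ^ rank F * H s) 1 := by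
    have h : ContinuousAt H ((1 : ℝ) : ℂ) := (h1.differentiableAt
      ((isOpen_lt continuous_const continuous_re).mem_nhds (by simp))).continuousAt
    exact (by fun_prop : ContinuousAt (fun s : ℝ => (s : ℂ) ^ rank F) 1).mul
      (h.comp continuous_ofReal.continuousAt)
  have h4 : Tendsto (fun s : ℝ => (s : ℂ) ^ rank F * H s) (𝓝[>] 1)
      (𝓝 (dedekindZeta_residue F)) := by
    refine (tendsto_sub_one_mul_dedekindZeta_nhdsGT F).congr' ?_
    filter_upwards [self_mem_nhdsWithin] with s hs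
    exact (h2 s (by simpa using hs)).symm
  have h5 := tendsto_nhds_unique (h3.tendsto.mono_left nhdsWithin_le_nhds) h4
  simp only [ofReal_one, one_pow, one_mul, H, HA_one, sum_const, card_univ, nsmul_eq_mul] at h5
  rw [← ofReal_natCast, ← ofReal_mul, ofReal_inj, dedekindZeta_residue_def,
    IsTotallyComplex.nrRealPlaces_eq_zero, InfinitePlace.card_eq_nrRealPlaces_add_nrComplexPlaces,
    IsTotallyComplex.nrRealPlaces_eq_zero, zero_add] at h5
  have h6 : (0 : ℝ) < classNumber F := Nat.cast_pos.2 (classNumber_pos F)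
  have h7 : (0 : ℝ) < torsionOrder F := Nat.cast_pos.2 (torsionOrder_pos F)
  have h8 : (0 : ℝ) < √|(discr F : ℝ)| := Real.sqrt_pos.2 abs_discr_pos
  have h9 : kap C = regulator F := by
    change (classNumber F : ℝ) * _ = _ at h5
    have := Real.pi_pos
    field_simp at h5
    simpa using h5
  simp only [H, HA_zero, sum_const, card_univ, nsmul_eq_mul, h9]
  change (classNumber F : ℂ) * _ = _
  push_cast
  ring

end Vale.Agent.P014X
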