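import Vale.Agent.P014X.An.St
import Vale.Agent.P014X.An.Zf0

/-! # P014X, analytic block: the class number formula at zero for a pair of fields -/

set_option autoImplicit false
set_option linter.all false

open NumberField NumberField.Units Filter Topology Complex
open scoped Classical

namespace Vale.Agent.P014X.An

open Vale.Agent.P022 (Qb GQ GK)
open P027M.M (io)

namespace Cnf0

theorem opn : IsOpen {s : ℂ | -1 < s.re} := isOpen_lt continuous_const continuous_re

theorem eul {n : ℕ} (hn : n ≠ 0) : ∃ e : ℂ → ℂ, DifferentiableOn ℂ e {s | -1 < s.re} ∧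
    (∀ s, 1 - (n : ℂ) ^ (-s) = s * e s) ∧ e 0 = Real.log n := by
  have h0 : (n : ℂ) ≠ 0 := Nat.cast_ne_zero.2 hn
  have h1 : ∀ s : ℂ, HasDerivAt (fun s : ℂ => 1 - (n : ℂ) ^ (-s)) (-((n : ℂ) ^ (-s) * log n * -1)) s :=
    fun s => ((hasDerivAt_neg s).const_cpow (Or.inl h0)).const_sub 1
  refine ⟨dslope (fun s : ℂ => 1 - (n : ℂ) ^ (-s)) 0, (differentiableOn_dslope
    (opn.mem_nhds (by simp))).2 fun s _ => (h1 s).differentiableAt.differentiableWithinAt,
    fun s => ?_, ?_⟩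
  · simpa using (sub_smul_dslope (fun s : ℂ => 1 - (n : ℂ) ^ (-s)) 0 s).symm
  · rw [dslope_same, (h1 0).deriv, ofReal_log (Nat.cast_nonneg n)]
    simp

theorem idn {f g : ℂ → ℂ} (hf : DifferentiableOn ℂ f {s | -1 < s.re})
    (hg : DifferentiableOn ℂ g {s | -1 < s.re}) (h : ∀ s : ℝ, 1 < s → f s = g s) : f 0 = g 0 := by
  refine (hf.analyticOnNhd opn).eqOn_of_preconnected_of_frequently_eq (hg.analyticOnNhd opn)
    (convex_halfSpace_re_gt (-1)).isPreconnected (z₀ := ((2 : ℝ) : ℂ)) (by simp; norm_num) ?_ (by simp)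
  have h1 : Tendsto (fun s : ℝ => (s : ℂ)) (𝓝[≠] 2) (𝓝[≠] ((2 : ℝ) : ℂ)) :=
    continuous_ofReal.continuousWithinAt.tendsto_nhdsWithin fun s hs e => hs (ofReal_injective e)
  refine h1.frequently (Eventually.frequently ?_)
  filter_upwards [mem_nhdsWithin_of_mem_nhds (lt_mem_nhds (show (1 : ℝ) < 2 by norm_num))] with s hs
  exact h s hs

variable {A B : ℤ} {D : Cd A B}

theorem J_ne {m : D.O} (h : m ≠ 0) : D.J m ≠ 0 := fun e => h (D.inj (RingOfIntegers.ext
  (io.injective (by rw [map_zero]; exact e.trans (map_zero _).symm))))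

theorem nl (cf : D.Cf) {m g β} (h0 : m ≠ 0) (h1 : ¬ IsUnit m) (ac : D.Ac m g β) (x : D.O) :
    D.J x ≠ D.J β / D.J m := fun e => by
  rw [eq_div_iff (J_ne h0)] at e
  have e1 : x * m = β := D.inj (RingOfIntegers.ext (io.injective (by
    rw [map_mul]; push_cast; rw [map_mul]; exact e)))
  have e2 : P004M.TE.ga g (D.tp m) = 0 := by
    rw [ac.2, cf.ker m h0, ← e1]; exact dvd_mul_left _ _
  have e3 : D.tp m = 0 := by
    rw [← P004M.TE.ga_one (D.tp m), ← inv_mul_cancel g, P004M.TE.ga_mul, e2, map_zero]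
  exact h1 (isUnit_of_dvd_one ((cf.ker m h0 1).1 (by rw [e3, map_zero])))

theorem nm_ne {m : D.O} (h : m ≠ 0) : D.nm m ≠ 0 := fun e => by
  have h1 : m.norm = 0 := Int.natAbs_eq_zero.1 e
  have h2 := D.neg
  rw [QuadraticAlgebra.norm_def] at h1
  simp only [Int.cast_id] at h1
  have h3 : m.im = 0 := by nlinarith [sq_nonneg (2 * m.re + D.b * m.im), sq_nonneg m.im]
  refine h (QuadraticAlgebra.ext ?_ h3)
  simpa [h3] using h1

end Cnf0

open Cnf0 in
theorem cnf0 (gal : GAL) (fe : FE0) (lfa : LFA) : CNF0 := by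
  intro A B D cf m T b ry F' F _ _ _ _ j' jF X' X S' S l' l s' s le hS
  obtain ⟨_, r1, -, -, ⟨Y, ly, c1⟩, -⟩ := gal A B D cf m ry.ne F jF l.G l.hm
  obtain ⟨_, r2, -, -, ⟨Y', ly', c2⟩, -⟩ := gal A B D cf m ry.ne F' j' l'.G l'.hm
  obtain rfl : Y = X := Finset.ext fun φ => (ly.X φ).trans (l.X φ).symm
  obtain rfl : Y' = X' := Finset.ext fun φ => (ly'.X φ).trans (l'.X φ).symm
  have sub : Y' ⊆ Y := fun φ h => (l.X φ).2 fun g hg => (l'.X φ).1 h g (le hg)
  have hr : rank F = rank F' + (Y \ Y').card := by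
    have := Finset.card_sdiff_add_card_eq_card sub
    omega
  obtain ⟨H, H1, H2, H3⟩ := zf0 F
  obtain ⟨H', H1', H2', H3'⟩ := zf0 F'
  choose e e1 e2 e3 using fun w : Pm F => eul (Ideal.absNorm_eq_zero_iff.not.2 w.ne_bot)
  choose e' e1' e2' e3' using fun w : Pm F' => eul (Ideal.absNorm_eq_zero_iff.not.2 w.ne_bot)
  choose! G G1 G2 G3 using fun g (hg : g ∈ T) =>
    fe A B D _ (nl cf ry.ne ry.nu (ry.ac g hg))
  have n0 : (D.nm m : ℂ) ≠ 0 := Nat.cast_ne_zero.2 (nm_ne ry.ne)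
  have d0 : DifferentiableOn ℂ (fun s : ℂ => (D.nm m : ℂ) ^ (-s)) {s | -1 < s.re} :=
    (differentiable_neg.const_cpow (Or.inl n0)).differentiableOn
  have key := idn (f := fun s => (s - 1) ^ (Y \ Y').card * (H s * ∏ w ∈ S, e w s))
    (g := fun s => H' s * (∏ w ∈ S', e' w s) *
      ∏ φ ∈ Y \ Y', (D.nm m : ℂ) ^ (-s) * ∑ g ∈ T, cq D φ g * G g s)
    (DifferentiableOn.mul (by fun_prop) (H1.mul (DifferentiableOn.fun_finsetProd fun w _ => e1 w)))
    ((H1'.mul (DifferentiableOn.fun_finsetProd fun w _ => e1' w)).mul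
      (DifferentiableOn.fun_finsetProd fun φ _ => d0.mul
        (DifferentiableOn.fun_sum fun g hg => (G1 g hg).const_mul _))) fun t ht => by
      have t0 : (t : ℂ) ≠ 0 := ofReal_ne_zero.2 (by linarith)
      have a1 := lfa A B D cf m T b ry F jF Y S l s t ht
      have a2 := lfa A B D cf m T b ry F' j' Y' S' l' s' t ht
      rw [← Finset.prod_sdiff sub, ← a2] at a1
      simp only [e2, e2', Finset.prod_mul_distrib (f := fun _ => (t : ℂ)), Finset.prod_const] at a1
      have a3 : (t : ℂ) ^ (Y \ Y').card * ∏ φ ∈ Y \ Y', (D.nm m : ℂ) ^ (-(t : ℂ)) *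
          ∑ g ∈ T, cq D φ g * G g t = (t - 1) ^ (Y \ Y').card * ∏ φ ∈ Y \ Y',
          (D.nm m : ℂ) ^ (-(t : ℂ)) * ∑ g ∈ T, cq D φ g * Zo D (D.J (b g) / D.J m) t := by
        rw [← Finset.prod_const, ← Finset.prod_const, ← Finset.prod_mul_distrib,
          ← Finset.prod_mul_distrib]
        refine Finset.prod_congr rfl fun φ _ => ?_
        rw [mul_left_comm, mul_left_comm (t - 1 : ℂ)]
        congr 1
        rw [Finset.mul_sum, Finset.mul_sum]
        refine Finset.sum_congr rfl fun g hg => ?_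
        rw [mul_left_comm, G2 g hg t ht, mul_left_comm]
      have a4 := H2 t (by simpa using ht)
      have a5 := H2' t (by simpa using ht)
      rw [hr, pow_add] at a4
      rw [hS] at a1
      refine mul_left_cancel₀ (mul_ne_zero (pow_ne_zero (rank F') t0) (mul_ne_zero
        (pow_ne_zero (Y \ Y').card t0) (pow_ne_zero S'.card t0))) ?_
      generalize (∏ φ ∈ Y \ Y', (D.nm m : ℂ) ^ (-(t : ℂ)) * ∑ g ∈ T, cq D φ g * G g t) = P at *
      generalize (∏ φ ∈ Y \ Y', (D.nm m : ℂ) ^ (-(t : ℂ)) *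
        ∑ g ∈ T, cq D φ g * Zo D (D.J (b g) / D.J m) t) = Q at *
      linear_combination ((t - 1) ^ (Y \ Y').card * t ^ S'.card * ∏ w ∈ S, e w t) * a4 +
        ((t - 1) ^ (Y \ Y').card * (t - 1)) * a1 -
        (t ^ rank F' * H' t * t ^ S'.card * ∏ w ∈ S', e' w t) * a3 -
        ((t - 1) ^ (Y \ Y').card * Q * t ^ S'.card * ∏ w ∈ S', e' w t) * a5
  have k := congrArg norm key
  have p : ∀ (K : Type) [Field K] [NumberField K], ‖((hR K : ℝ) : ℂ)‖ = hR K := fun K _ _ => by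
    have := regulator_pos K
    rw [norm_real, Real.norm_of_nonneg (by unfold hR; positivity)]
  have q : ∀ n : ℕ, ‖((Real.log n : ℝ) : ℂ)‖ = Real.log n := fun n => by
    rw [norm_real, Real.norm_of_nonneg (Real.log_natCast_nonneg n)]
  simp only [zero_sub, norm_mul, norm_pow, norm_neg, norm_one, one_pow, one_mul, norm_prod, e3, e3',
    q, neg_zero, cpow_zero] at k
  rw [H3, H3'] at k
  erw [p, p] at k
  rw [k]
  congr 1
  exact Finset.prod_congr rfl fun φ _ => congrArg norm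
    (Finset.sum_congr rfl fun g hg => by rw [G3 g hg])

end Vale.Agent.P014X.An
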