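import Vale.Agent.P014X.An.Klf
import Vale.Agent.P267.H775.Gauss

/-! # P014X: the second limit formula of Kronecker at `s = 0` (helper80) -/

set_option autoImplicit false
set_option linter.all false

open UpperHalfPlane hiding I
open Complex Filter Topology Set Asymptotics MeasureTheory
open scoped Real Nat

noncomputable section

namespace Vale.Agent.P014X.An

open Vale.Agent.P014T.Sg Vale.Agent.P267.H775

namespace Kl0

section ker

variable {ι : Type} {a : ι → ℂ} {p : ι → ℝ} {t : ℝ}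

/-- the terms -/
def tm (a : ι → ℂ) (p : ι → ℝ) (i : ι) (t : ℝ) : ℂ :=
  if p i = 0 then 0 else a i * Real.exp (-π * p i * t)

/-- the kernel -/
def kr (a : ι → ℂ) (p : ι → ℝ) (t : ℝ) : ℂ := ∑' i, tm a p i t

/-- the hypotheses -/
structure Ok (a : ι → ℂ) (p : ι → ℝ) : Prop where
  ha : ∀ i, ‖a i‖ = 1
  hp : ∀ i, 0 ≤ p i
  hs : ∀ σ : ℝ, 1 < σ → Summable fun i => 1 / p i ^ σ

theorem Ok.bd (h : Ok a p) (N : ℕ) {δ : ℝ} (d : 0 < δ) (ht : δ ≤ t) (i : ι) :
    ‖tm a p i t‖ ≤ N ! / (π * δ) ^ N * (1 / p i ^ (N : ℝ)) := by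
  have q := h.hp i
  rw [tm]
  split_ifs with e
  · rw [norm_zero]
    positivity
  · replace q := q.lt_of_ne' e
    have u : 0 < π * p i * δ := by positivity
    have k := Real.pow_div_factorial_le_exp _ u.le N
    rw [norm_mul, h.ha, one_mul, norm_real, Real.norm_of_nonneg (Real.exp_pos _).le,
      Real.rpow_natCast, div_mul_div_comm, mul_one, ← mul_pow, mul_right_comm π δ, ← inv_div]
    refine le_trans ?_ (inv_anti₀ (by positivity) k)
    rw [← Real.exp_neg]
    refine Real.exp_le_exp.2 ?_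
    have : π * p i * δ ≤ π * p i * t := by gcongr
    linarith

theorem Ok.sm (h : Ok a p) (N : ℕ) (c : ℝ) :
    Summable fun i => c * (1 / p i ^ ((N + 2 : ℕ) : ℝ)) :=
  (h.hs _ (by exact_mod_cast (by omega))).mul_left c

theorem Ok.has (h : Ok a p) (ht : 0 < t) : HasSum (fun i => tm a p i t) (kr a p t) :=
  ((h.sm 0 _).of_norm_bounded (h.bd _ ht le_rfl)).hasSum

theorem Ok.li (h : Ok a p) : LocallyIntegrableOn (kr a p) (Ioi 0) := by
  refine ContinuousOn.locallyIntegrableOn (fun t (ht : 0 < t) => ?_) measurableSet_Ioi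
  refine ((continuousOn_tsum (s := Ioi (t / 2)) (fun i => ?_) (h.sm 0 _) fun i x hx =>
    h.bd _ (half_pos ht) (le_of_lt hx) i).continuousAt
      (Ioi_mem_nhds (half_lt_self ht))).continuousWithinAt
  unfold tm
  split_ifs <;> fun_prop

theorem Ok.top (h : Ok a p) (r : ℝ) : kr a p =O[atTop] (· ^ r) := by
  obtain ⟨N, hN⟩ := exists_nat_ge (-r)
  refine .of_bound ((N + 2)! / π ^ (N + 2) * ∑' i, 1 / p i ^ ((N + 2 : ℕ) : ℝ))
    ((eventually_ge_atTop 1).mono fun t ht => ?_)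
  have t0 : 0 < t := one_pos.trans_le ht
  refine (tsum_of_norm_bounded (h.sm N _).hasSum (h.bd _ t0 le_rfl)).trans ?_
  have : 0 ≤ ∑' i, 1 / p i ^ ((N + 2 : ℕ) : ℝ) := tsum_nonneg fun i => by
    have := h.hp i
    positivity
  rw [tsum_mul_left, mul_pow, ← div_div, div_eq_mul_inv _ (t ^ _), mul_right_comm,
    Real.norm_of_nonneg (by positivity), ← Real.rpow_natCast t, ← Real.rpow_neg t0.le]
  gcongr
  push_cast
  linarith

theorem Ok.mel [Countable ι] (h : Ok a p) {s : ℂ} (hs : 1 < s.re) :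
    HasSum (fun i => π ^ (-s) * Gamma s * a i / p i ^ s) (mellin (kr a p) s) :=
  hasSum_mellin_pi_mul₀ h.hp (one_pos.trans hs) (fun _ ht => h.has ht)
    (by simpa only [h.ha] using h.hs _ hs)

end ker

variable {τ : ℍ} {a b t : ℝ}

/-- the quadratic form -/
def pq (τ : ℍ) (z : ℂ) (x : ℤ × ℤ) : ℝ := ‖z + x.1 * τ + x.2‖ ^ 2 / τ.im

theorem ok (τ : ℍ) (z : ℂ) {c : ℤ × ℤ → ℂ} (hc : ∀ x, ‖c x‖ = 1) : Ok c (pq τ z) := by
  have y := τ.im_pos
  refine ⟨hc, fun x => by unfold pq; positivity, fun σ hσ => ?_⟩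
  let L : PeriodPair := ⟨τ, 1, by
    rw [LinearIndependent.pair_iff]
    intro s t e
    have a := congrArg Complex.im e
    have b := congrArg Complex.re e
    simp [y.ne'] at a
    simpa [a] using b⟩
  have := (L.latticeEquivProd.symm.toEquiv.summable_iff.2 (ZLattice.summable_norm_sub_rpow
    L.lattice (-(2 * σ)) (by simp; linarith) (-z))).mul_left (τ.im ^ σ)
  refine this.congr fun x => ?_
  have e := L.latticeEquiv_symm_apply x
  simp only [Function.comp, LinearEquiv.coe_toEquiv, e, L, pq]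
  rw [Real.div_rpow (by positivity) y.le, one_div_div, Real.rpow_neg (norm_nonneg _),
    Real.rpow_mul (norm_nonneg _), Real.rpow_two, div_eq_mul_inv]
  congr 5
  ring

theorem pq0 {x : ℤ × ℤ} : pq τ 0 x = 0 ↔ x = 0 := by
  refine ⟨fun e => ?_, fun e => by simp [pq, e]⟩
  simp only [pq, div_eq_zero_iff, τ.im_pos.ne', or_false, zero_add, pow_eq_zero_iff two_ne_zero,
    norm_eq_zero] at e
  have a := congrArg Complex.im e
  simp [τ.im_pos.ne'] at a
  simp [a] at e
  exact Prod.ext a e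

theorem pq1 {z : ℂ} (k : Nl τ z) (x : ℤ × ℤ) : pq τ z x ≠ 0 := fun e => by
  simp only [pq, div_eq_zero_iff, τ.im_pos.ne', or_false, pow_eq_zero_iff two_ne_zero,
    norm_eq_zero] at e
  exact k ⟨-x.1, -x.2, by push_cast; linear_combination -e⟩

/-- the matrix of the lattice -/
def mt (τ : ℍ) : Matrix (Fin 2) (Fin 2) ℝ := (√τ.im)⁻¹ • !![τ.re, 1; τ.im, 0]

/-- the dual matrix -/
def md (τ : ℍ) : Matrix (Fin 2) (Fin 2) ℝ := (√τ.im)⁻¹ • !![0, τ.im; 1, -τ.re]

theorem sq_c (τ : ℍ) : (√τ.im)⁻¹ ^ 2 = τ.im⁻¹ := by rw [inv_pow, Real.sq_sqrt τ.im_pos.le]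

theorem det_mt (τ : ℍ) : (mt τ).det = -1 := by
  have := τ.im_pos.ne'
  rw [mt, Matrix.det_smul, Fintype.card_fin, sq_c, Matrix.det_fin_two_of]
  field_simp
  ring

theorem inv_mt (τ : ℍ) : (mt τ)⁻¹.transpose = md τ := by
  have := τ.im_pos.ne'
  rw [Matrix.inv_eq_left_inv (B := (md τ).transpose), Matrix.transpose_transpose]
  rw [md, mt, Matrix.transpose_smul, Matrix.smul_mul, Matrix.mul_smul, smul_smul, ← sq, sq_c]
  ext i j
  fin_cases i <;> fin_cases j <;> simp [Matrix.mul_apply, Fin.sum_univ_two, this, mul_comm]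

theorem qf_mt (τ : ℍ) (x : Fin 2 → ℝ) : qf (mt τ) x = ‖(x 0 * τ + x 1 : ℂ)‖ ^ 2 / τ.im := by
  rw [qf, mt, ← normSq_eq_norm_sq, normSq_apply, div_eq_mul_inv, ← sq_c]
  simp [Matrix.mulVec, dotProduct, Fin.sum_univ_two]
  ring

theorem qf_md (τ : ℍ) (x : Fin 2 → ℝ) : qf (md τ) x = ‖(x 1 * τ + -x 0 : ℂ)‖ ^ 2 / τ.im := by
  rw [qf, md, ← normSq_eq_norm_sq, normSq_apply, div_eq_mul_inv, ← sq_c]
  simp [Matrix.mulVec, dotProduct, Fin.sum_univ_two]
  ring

/-- the rotation -/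
def rot : ℤ × ℤ ≃ (Fin 2 → ℤ) :=
  ((Equiv.prodComm ℤ ℤ).trans ((Equiv.neg ℤ).prodCongr (Equiv.refl ℤ))).trans
    (finTwoArrowEquiv ℤ).symm

theorem full (τ : ℍ) (a b : ℝ) (ht : 0 < t) :
    HasSum (fun x => ch a b x * Real.exp (-π * pq τ 0 x * t)) (kr (ch a b) (pq τ 0) t + 1) := by
  refine (((ok τ 0 (ch_nrm a b)).has ht).add (hasSum_ite_eq (0 : ℤ × ℤ) (1 : ℂ))).congr_fun
    fun x => ?_
  by_cases e : x = 0
  · simp [tm, e, pq0.2, ch, ee_zero]
  · simp [tm, e, pq0]

/-- Poisson summation -/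
theorem feq (k : Nl τ (a * τ + b)) (ht : 0 < t) :
    kr 1 (pq τ (a * τ + b)) (1 / t) = t * (kr (ch a b) (pq τ 0) t + 1) := by
  have d : (mt τ).det ≠ 0 := by simp [det_mt]
  have w : 0 < (I / t : ℂ).im := by simpa [div_ofReal_im] using ht
  have t0 : (t : ℂ) ≠ 0 := ofReal_ne_zero.2 ht.ne'
  have c : ∀ x, fc (gau (mt τ) (I / t)) (rot x) = t * Real.exp (-π * pq τ 0 x * t) := fun x => by
    rw [fc_gau _ d w, det_mt, inv_mt, qf_md, pq, ofReal_exp, zero_add]
    have e : toR (rot x) 1 = x.1 ∧ toR (rot x) 0 = -x.2 := by simp [rot]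
    rw [e.1, e.2, div_div_cancel₀ I_ne_zero, show (π * I * (-1 / (I / t)) : ℂ) = -π * t by
      field_simp]
    simp only [abs_neg, abs_one, inv_one, ofReal_one, one_mul, Fintype.card_fin, Nat.cast_ofNat,
      div_self (two_ne_zero' ℂ), cpow_one]
    push_cast
    simp only [neg_neg]
    ring_nf
  have s := (full τ 0 0 ht).summable.mul_left (t : ℂ)
  have P := rot.hasSum_iff.2 (poisson _ (locSum_gau _ d w) (integrable_gau _ d w)
    (rot.summable_iff.1 (s.congr fun x => by simp [c, ch, ee_zero])) ![a, b])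
  rw [((full τ a b ht).mul_left (t : ℂ)).unique (P.congr_fun fun x => ?_), kr,
    ← (finTwoArrowEquiv ℤ).tsum_eq]
  · refine tsum_congr fun n => ?_
    rw [show finTwoArrowEquiv ℤ n = (n 0, n 1) from rfl, tm, if_neg (pq1 k _), gau_apply, qf_mt, pq,
      Pi.one_apply, one_mul, ofReal_exp]
    simp only [Pi.add_apply, toR_apply, Matrix.cons_val_zero,
      Matrix.cons_val_one, ofReal_add, ofReal_intCast]
    rw [show (a + n 0) * (τ : ℂ) + (b + n 1) = a * τ + b + n 0 * τ + n 1 by ring]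
    congr 1
    push_cast
    linear_combination -π * (‖(a * τ + b + n 0 * τ + n 1 : ℂ)‖ ^ 2 / τ.im) / t * I_mul_I
  · rw [Function.comp, c, chr, ch, ee, mul_left_comm, mul_comm]
    congr 2
    simp [rot, Fin.sum_univ_two]
    ring

/-- the pair of theta functions -/
def fe (k : Nl τ (a * τ + b)) : WeakFEPair ℂ where
  f := kr 1 (pq τ (a * τ + b))
  g t := kr (ch a b) (pq τ 0) t + 1
  k := 1
  ε := 1
  f₀ := 0
  g₀ := 1
  hf_int := (ok τ _ fun _ => norm_one).li
  hg_int := (ok τ _ (ch_nrm a b)).li.add (locallyIntegrableOn_const _)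
  hk := one_pos
  hε := one_ne_zero
  h_feq x hx := by rw [feq k hx, Real.rpow_one, one_mul, smul_eq_mul]
  hf_top r := by simpa only [sub_zero] using! (ok τ _ (c := 1) fun _ => norm_one).top r
  hg_top r := by simpa only [add_sub_cancel_right] using (ok τ _ (ch_nrm a b)).top r

theorem val0 (k : Nl τ (a * τ + b)) : (fe k).Λ₀ 0 - 1 = -2 * lg τ (a * τ + b) := by
  have e := (fe k).functional_equation 1
  have d := ((fe k).symm.differentiableAt_Λ (s := 1) (.inl one_ne_zero) (.inr rfl)).continuousAt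
  have l := (d.tendsto.comp (continuous_ofReal.tendsto 1)).mono_left
    (nhdsWithin_le_nhds (s := Ioi 1))
  have g : ContinuousAt (fun s : ℝ => (π : ℂ) ^ (-s : ℂ) * Gamma s) 1 :=
    (((differentiable_neg.const_cpow (.inl (ofReal_ne_zero.2 Real.pi_ne_zero))).differentiableAt.mul
      (differentiableAt_Gamma 1 fun m e => by
        have := congrArg Complex.re e
        simp at this
        linarith [m.cast_nonneg (α := ℝ)])).continuousAt.comp_of_eq
          continuous_ofReal.continuousAt ofReal_one :)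
  have := tendsto_nhds_unique l (((g.tendsto.mono_left nhdsWithin_le_nhds).mul (klf2 k)).congr'
    (eventually_nhdsWithin_of_forall fun s (hs : 1 < s) => ?_))
  · rw [this] at e
    have p : (π : ℂ) ≠ 0 := by simp
    simp [fe, WeakFEPair.Λ, cpow_neg_one] at e ⊢
    rw [e]
    field_simp
  · have m := ((fe k).symm.hasMellin (s := s) hs).2
    simp only [fe, WeakFEPair.symm, add_sub_cancel_right] at m
    refine .trans ?_ m
    refine ((sum_Z2 τ a b hs).mul_left _).unique (((ok τ 0 (ch_nrm a b)).mel hs).congr_fun fun x => ?_)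
    rw [pq, ← ofReal_cpow (by have := τ.im_pos; positivity), Real.div_rpow (by positivity) τ.im_pos.le,
      Real.rpow_mul (norm_nonneg _), Real.rpow_two, zero_add, mul_div_assoc, mul_assoc _ _ (_ / _),
      div_eq_mul_inv (ch a b x), ← ofReal_inv, inv_div]
    ring

end Kl0

open Kl0

/-- the Epstein zeta function of a translate of the lattice -/
def Ze (τ z s : ℂ) : ℂ := ∑' x : ℤ × ℤ, ((‖z + x.1 * τ + x.2‖ : ℝ) : ℂ) ^ (-2 * s)

/-- **the second limit formula at `s = 0`** -/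
theorem kl0 {τ z : ℂ} (h : 0 < τ.im) (k : Nl τ z) : ∃ H : ℂ → ℂ, Differentiable ℂ H ∧
    (∀ s : ℂ, 1 < s.re → s * H s = (s - 1) * Ze τ z s) ∧ H 0 = 2 * lg τ z := by
  lift τ to ℍ using h
  obtain ⟨a, b, rfl⟩ := ex_ab τ z
  have p : (π : ℂ) ≠ 0 := by simp
  have y : (τ.im : ℂ) ≠ 0 := ofReal_ne_zero.2 τ.im_pos.ne'
  have d := (fe k).differentiable_Λ₀
  refine ⟨fun s => π ^ s * τ.im ^ (-s) * (Gamma (s + 1))⁻¹ * ((s - 1) * (fe k).Λ₀ s + 1),
    (((differentiable_id.const_cpow (.inl p)).mul (differentiable_neg.const_cpow (.inl y))).mul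
      (differentiable_one_div_Gamma.comp (differentiable_id.add_const 1))).mul (by fun_prop),
    fun s hs => ?_, ?_⟩
  · have m := ((fe k).hasMellin (s := s) hs).2
    have s1 : 1 - s ≠ 0 := fun e => by simp [← sub_eq_zero.1 e] at hs
    have g := Gamma_ne_zero_of_re_pos (one_pos.trans hs)
    have q := (cpow_ne_zero_iff (y := s)).2 (.inl p)
    have e : (s - 1) * (fe k).Λ₀ s + 1 = (s - 1) * mellin (kr 1 (pq τ (a * τ + b))) s := by
      simp only [fe, sub_zero, WeakFEPair.Λ, smul_zero, smul_eq_mul, ofReal_one, mul_one] at m ⊢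
      rw [m]
      field_simp
      ring
    beta_reduce
    rw [e, ← ((ok τ _ (c := 1) fun _ => norm_one).mel hs).tsum_eq, Ze,
      show ∀ A B C D E : ℂ, s * (A * B * C * (D * E)) = D * (A * B * (s * C) * E) by intros; ring,
      ← one_div_Gamma_eq_self_mul_one_div_Gamma_add_one, ← tsum_mul_left]
    congr 2
    ext x
    have n : 0 < ‖(a * τ + b + x.1 * τ + x.2 : ℂ)‖ := norm_pos_iff.2 fun e => pq1 k x (by simp [pq, e])
    rw [pq, div_eq_mul_inv _ τ.im, ofReal_mul, mul_cpow_ofReal_nonneg (by positivity)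
      (inv_nonneg.2 τ.im_pos.le), ofReal_inv, inv_cpow _ _ (by
        rw [arg_ofReal_of_nonneg τ.im_pos.le]; exact Real.pi_pos.ne), neg_mul, cpow_neg, cpow_neg,
      cpow_neg, ofReal_pow, ← cpow_nat_mul' (by rw [arg_ofReal_of_nonneg n.le]; simp [Real.pi_pos])
        (by rw [arg_ofReal_of_nonneg n.le]; simp [Real.pi_pos.le])]
    have := (cpow_ne_zero_iff (y := s)).2 (.inl y)
    simp only [Pi.one_apply, Nat.cast_ofNat]
    field_simp
  · simp only [neg_zero, cpow_zero, zero_add, Gamma_one, inv_one, one_mul]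
    linear_combination -val0 k

end Vale.Agent.P014X.An
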