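import Vale.Agent.P014X.An.St
import Vale.Agent.P014X.An.Kl0

/-! # P014X: the row `FE0` (helper80) -/

set_option autoImplicit false
set_option linter.all false

open QuadraticAlgebra

noncomputable section

namespace Vale.Agent.P014X.An

namespace Fe0

variable {A B : ℤ} (D : Cd A B)

theorem J_mk (m n : ℤ) : D.J ⟨n, m⟩ = m * D.J ω + n := by
  rw [show (⟨n, m⟩ : D.O) = (m : D.O) * (ω : D.O) + n from QuadraticAlgebra.ext (by simp) (by simp)]
  simp [Cd.J]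

theorem nl {z : ℂ} (k : ∀ x, D.J x ≠ z) : Nl (D.J ω) z := fun ⟨m, n, e⟩ =>
  k ⟨n, m⟩ ((J_mk D m n).trans e)

/-- coordinates -/
def co : ℤ × ℤ ≃ D.O := ⟨fun x => ⟨x.2, x.1⟩, fun x => (x.im, x.re), fun _ => rfl, fun _ => rfl⟩

theorem Zo_eq (z s : ℂ) : Zo D z s = Ze (D.J ω) z s := by
  rw [Zo, Ze, ← (co D).tsum_eq]
  refine tsum_congr fun x => ?_
  rw [add_assoc, ← J_mk]
  rfl

/-- the entire form -/
theorem ent {z : ℂ} (k : ∀ x, D.J x ≠ z) : ∃ H : ℂ → ℂ, Differentiable ℂ H ∧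
    (∀ s : ℂ, 1 < s.re → s * H s = (s - 1) * Zo D z s) ∧ H 0 = 2 * lg (D.J ω) z := by
  simpa only [Zo_eq] using kl0 (τ := D.J ω) D.im (nl D k)

end Fe0

theorem fe0 : FE0 := fun _ _ D _ k =>
  have ⟨H, a, b, c⟩ := Fe0.ent D k
  ⟨H, a.differentiableOn, fun s hs => b s hs, by rw [c]; simp⟩

end Vale.Agent.P014X.An
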