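import Vale.Agent.P014X.An.St
import Vale.Agent.P004R.Ki

/-!
# P014X: finite abelian layers over an imaginary quadratic field
-/

set_option autoImplicit false
set_option linter.all false

open NumberField

noncomputable section

namespace Vale.Agent.P014X.An

open Vale.Agent.P022 (Qb GQ GK)
open P027M.M
open P004M.TE (ga ga_mul ga_one)

namespace Ga

variable {G : Subgroup GQ} {c : GQ} {F F' Γ : Type} [Field F] [NumberField F] [Field F']
  [NumberField F'] {ι : F →+* Qb}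

/-- `Γ` is the group of `F` over the fixed field of `G` -/
structure Gd (G : Subgroup GQ) (ι : F →+* Qb) [CommGroup Γ] (π : G →* Γ)
    (a : Γ →* (F ≃ₐ[ℚ] F)) : Prop where
  sur : Function.Surjective π
  ker : ∀ g, π g = 1 ↔ g.1 ∈ GK ι
  act : ∀ g x, ι (a (π g) x) = g.1 (ι x)

theorem ex_gd (cm : ∀ g ∈ G, ∀ h ∈ G, g * h * g⁻¹ * h⁻¹ ∈ GK ι) (le : GK ι ≤ G) :
    ∃ (Γ : Type) (_ : CommGroup Γ) (_ : Fintype Γ) (π : G →* Γ) (a : Γ →* (F ≃ₐ[ℚ] F)),
      Gd G ι π a := by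
  have e (g : G) (x : F) : ∃ y, ι y = g.1 (ι x) := P004R.Ki.fixed fun h hh => by
    have := mul_mem (cm _ (inv_mem g.2) h (le hh)) hh x
    simp only [inv_inv, inv_mul_cancel_right, AlgEquiv.mul_apply] at this
    exact (g.1.symm_apply_eq.1 this).symm ▸ rfl
  choose f hf using e
  let f' (g : G) : F →ₐ[ℚ] F := RingHom.toRatAlgHom
    ⟨⟨⟨f g, ι.injective (by simp [hf])⟩, fun x y => ι.injective (by simp [hf])⟩,
      ι.injective (by simp [hf]), fun x y => ι.injective (by simp [hf])⟩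
  let ρ : G →* (F ≃ₐ[ℚ] F) := MonoidHom.mk' (fun g => AlgEquiv.ofBijective (f' g)
    (Algebra.IsAlgebraic.algHom_bijective _)) fun g h => AlgEquiv.ext fun x => ι.injective (by
      show ι (f (g * h) x) = ι (f g (f h x))
      simp [hf])
  have hρ (g : G) (x : F) : ι (ρ g x) = g.1 (ι x) := hf g x
  have k (g : G) : ρ g = 1 ↔ g.1 ∈ GK ι :=
    ⟨fun h x => by rw [← hρ, h]; rfl, fun h => AlgEquiv.ext fun x => ι.injective (by rw [hρ, h x]; rfl)⟩
  let _ : CommGroup ρ.range := { (inferInstance : Group ρ.range) with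
    mul_comm := by
      rintro ⟨_, g, rfl⟩ ⟨_, h, rfl⟩
      refine Subtype.ext (show ρ g * ρ h = ρ h * ρ g from ?_)
      rw [← mul_inv_eq_one, mul_inv_rev, ← mul_assoc, ← map_inv, ← map_inv, ← map_mul, ← map_mul,
        ← map_mul, k]
      exact cm _ g.2 _ h.2 }
  exact ⟨ρ.range, _, Fintype.ofFinite _, ρ.rangeRestrict, ρ.range.subtype,
    ρ.rangeRestrict_surjective, fun g => Subtype.ext_iff.trans (k g), hρ⟩

/-- all the complex embeddings are conjugate -/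
theorem ex_emb (ι : F →+* Qb) (φ : F →+* ℂ) : ∃ g : GQ, ∀ x, φ x = io (g (ι x)) := by
  have := P004R.Ki.gal
  let _ := ι.toAlgebra
  let _ := (io : Qb →+* ℂ).toAlgebra
  have : IsScalarTower ℚ Qb ℂ := .of_algebraMap_eq fun x => (io.commutes x).symm
  have : Algebra.IsAlgebraic F Qb := .tower_top (K := ℚ) F
  obtain ⟨ψ, e⟩ := IsAlgClosed.surjective_restrictDomain_of_isAlgebraic (K := ℚ) (L := F) (M := ℂ)
    (E := Qb) φ.toRatAlgHom
  obtain ⟨g, rfl⟩ := (Normal.algHomEquivAut ℚ ℂ Qb).symm.surjective ψ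
  exact ⟨g, fun x => (DFunLike.congr_fun e x).symm⟩

/-- the place of the fixed embedding -/
def pl (ι : F →+* Qb) : InfinitePlace F := InfinitePlace.mk ((io : Qb →+* ℂ).comp ι)

theorem pl_ap (ι : F →+* Qb) (x : F) : pl ι x = ‖io (ι x)‖ := rfl

section

variable (cc : ∀ x, io (c x) = starRingEnd ℂ (io x)) (cG : ∀ g, g ∉ G ↔ g * c ∈ G)
  (nG : G.Normal) (le : GK ι ≤ G)
include cc cG nG le

theorem cx : IsTotallyComplex F := ⟨fun w => InfinitePlace.not_isReal_iff_isComplex.1 fun h => by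
  obtain ⟨g, e⟩ := ex_emb ι w.embedding
  have k : g⁻¹ * c * g ∈ G := le fun x => by
    have := DFunLike.congr_fun (InfinitePlace.isReal_iff.1 h) x
    rw [ComplexEmbedding.conjugate_coe_eq, e, ← cc] at this
    exact g.symm_apply_eq.2 (io.injective this)
  exact (cG 1).2 (by simpa [mul_assoc] using nG.conj_mem _ k g) (one_mem G)⟩

variable [CommGroup Γ] {π : G →* Γ} {a : Γ →* (F ≃ₐ[ℚ] F)} (d : Gd G ι π a)
include d

omit nG in
theorem Gd.bij : Function.Bijective fun γ => (pl ι).comap (a γ : F →+* F) := by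
  have c1 : c ∉ G := fun h => (cG 1).2 (by simpa using h) (one_mem G)
  refine ⟨fun γ γ' h => ?_, fun w => ?_⟩
  · obtain ⟨g, rfl⟩ := d.sur γ
    obtain ⟨g', rfl⟩ := d.sur γ'
    simp only [pl, InfinitePlace.comap_mk, InfinitePlace.mk_eq_iff] at h
    rcases h with k | k
    · rw [← mul_inv_eq_one, mul_comm, ← map_inv, ← map_mul, d.ker]
      exact fun x => g'.1.symm_apply_eq.2 ((d.act g x).symm.trans
        ((io.injective (DFunLike.congr_fun k x)).trans (d.act g' x)))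
    · have : g'.1⁻¹ * c * g.1 ∈ G := le fun x => g'.1.symm_apply_eq.2 ((congrArg c (d.act g x)).symm.trans
        ((io.injective ((cc _).trans (DFunLike.congr_fun k x))).trans (d.act g' x)))
      exact absurd ((G.mul_mem_cancel_left (inv_mem g'.2)).1
        ((G.mul_mem_cancel_right g.2).1 this)) c1
  · obtain ⟨g, e⟩ := ex_emb ι w.embedding
    by_cases h : g ∈ G
    · refine ⟨π ⟨g, h⟩, InfinitePlace.ext _ _ fun x => ?_⟩
      rw [← w.norm_embedding_eq, e]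
      exact congrArg (fun y => ‖io y‖) (d.act _ x)
    · have h' : c * g ∈ G := by
        simpa [mul_assoc] using mul_mem ((cG c).1 c1) (inv_mem ((cG g⁻¹).1 (mt inv_mem_iff.1 h)))
      refine ⟨π ⟨c * g, h'⟩, InfinitePlace.ext _ _ fun x => ?_⟩
      rw [← w.norm_embedding_eq, e, ← Complex.norm_conj, ← cc]
      exact congrArg (fun y => ‖io y‖) (d.act _ x)

omit nG in
theorem Gd.rank [Fintype Γ] [IsTotallyComplex F] : Module.finrank ℚ F = 2 * Fintype.card Γ := by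
  rw [Fintype.card_of_bijective (d.bij cc cG le), IsTotallyComplex.finrank,
    InfinitePlace.card_eq_nrRealPlaces_add_nrComplexPlaces, IsTotallyComplex.nrRealPlaces_eq_zero,
    zero_add]

end

section

variable [CommGroup Γ] {π : G →* Γ} {a : Γ →* (F ≃ₐ[ℚ] F)} (d : Gd G ι π a)
include d

theorem Gd.eq_iff (g h : G) : π g = π h ↔ g.1⁻¹ * h.1 ∈ GK ι := by
  rw [eq_comm, ← inv_mul_eq_one, eq_comm, ← inv_inj, ← map_inv, ← map_mul, inv_one, ← map_inv, eq_comm,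
    d.ker]
  simp

theorem Gd.card : Nat.card Γ = (GK ι).relIndex G := by
  rw [Subgroup.relIndex, show (GK ι).subgroupOf G = π.ker from Subgroup.ext fun g => (d.ker g).symm,
    Subgroup.index_ker, MonoidHom.range_eq_top.2 d.sur, Subgroup.card_top]

/-- the subgroup of a subfield -/
theorem Gd.fix [Algebra F' F] (le : GK (ι.comp (algebraMap F' F)) ≤ G) (x : F) :
    (∀ δ ∈ ((GK (ι.comp (algebraMap F' F))).subgroupOf G).map π, a δ x = x) ↔
      x ∈ Set.range (algebraMap F' F) := by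
  refine ⟨fun h => ?_, ?_⟩
  · obtain ⟨y, e⟩ := P004R.Ki.fixed (j := ι.comp (algebraMap F' F)) (y := ι x) fun g hg =>
      (d.act ⟨g, le hg⟩ x).symm.trans (congrArg ι (h _ ⟨⟨g, le hg⟩, hg, rfl⟩))
    exact ⟨y, ι.injective e⟩
  · rintro ⟨y, rfl⟩ _ ⟨g, hg, rfl⟩
    exact ι.injective ((d.act g _).trans (hg y))

/-- products over representatives -/
theorem Gd.prod {M : Type} [CommMonoid M] {H : Subgroup GQ} (le : H ≤ G) {T : Finset GQ}
    (t : Cd.Tv H (GK ι) T) {f : Γ → M} {f' : GQ → M} (e : ∀ g : G, f (π g) = f' g) {Δ : Finset Γ}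
    (hΔ : ∀ γ, γ ∈ Δ ↔ ∃ g : G, g.1 ∈ H ∧ π g = γ) : ∏ γ ∈ Δ, f γ = ∏ g ∈ T, f' g := by
  refine (Finset.prod_bij (fun g hg => π ⟨g, le (t.1 g hg)⟩) (fun g hg => ?_) (fun g hg h hh k => ?_)
    (fun γ hγ => ?_) fun g hg => (e ⟨g, _⟩).symm).symm
  · exact (hΔ _).2 ⟨_, t.1 g hg, rfl⟩
  · have k' : g⁻¹ * h ∈ GK ι := (d.eq_iff ⟨g, _⟩ ⟨h, _⟩).1 k
    exact (t.2 h (t.1 h hh)).unique ⟨hg, k'⟩ ⟨hh, by simp⟩
  · obtain ⟨g, hg, rfl⟩ := (hΔ _).1 hγ
    obtain ⟨s, hs, -⟩ := t.2 g hg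
    exact ⟨s, hs.1, (d.eq_iff ⟨s, _⟩ g).2 hs.2⟩

theorem Gd.prod_top [Fintype Γ] {M : Type} [CommMonoid M] {T : Finset GQ} (t : Cd.Tv G (GK ι) T)
    {f : Γ → M} {f' : GQ → M} (e : ∀ g : G, f (π g) = f' g) : ∏ γ, f γ = ∏ g ∈ T, f' g :=
  d.prod le_rfl t e fun γ => iff_of_true (Finset.mem_univ _) ((d.sur γ).imp fun g h => ⟨g.2, h⟩)

theorem Gd.sum_top [Fintype Γ] {M : Type} [AddCommMonoid M] {T : Finset GQ} (t : Cd.Tv G (GK ι) T)
    {f : Γ → M} {f' : GQ → M} (e : ∀ g : G, f (π g) = f' g) : ∑ γ, f γ = ∑ g ∈ T, f' g :=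
  d.prod_top (M := Multiplicative M) t e

/-- characters -/
theorem Gd.chr {M : Type} [Group M] (φ : G →* M) :
    (∀ g : G, g.1 ∈ GK ι → φ g = 1) ↔ ∃ ψ : Γ →* M, ψ.comp π = φ :=
  ⟨fun h => ⟨π.liftOfRightInverse _ (Function.rightInverse_surjInv d.sur)
      ⟨φ, fun g hg => h g ((d.ker g).1 hg)⟩, π.liftOfRightInverse_comp _ _ _⟩,
    fun ⟨ψ, e⟩ g hg => by rw [← e, MonoidHom.comp_apply, (d.ker g).2 hg, map_one]⟩

theorem Gd.chr_inj {M : Type} [Group M] : Function.Injective fun ψ : Γ →* M => ψ.comp π :=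
  fun _ _ => (MonoidHom.cancel_right d.sur).1

theorem Gd.ly [Fintype Γ] : ∃ X : Finset (G →* ℂˣ), (∀ φ, φ ∈ X ↔ ∀ g : G, g.1 ∈ GK ι → φ g = 1) ∧
    X.card = (GK ι).relIndex G := by
  have : NeZero (Monoid.exponent Γ : ℂ) := ⟨Nat.cast_ne_zero.2 Monoid.exponent_ne_zero_of_finite⟩
  have k := CommGroup.card_monoidHom_of_hasEnoughRootsOfUnity Γ ℂ
  have := Nat.finite_of_card_ne_zero (k.trans_ne Nat.card_pos.ne')
  have := Fintype.ofFinite (Γ →* ℂˣ)
  refine ⟨Finset.univ.map ⟨_, d.chr_inj⟩, fun φ => ?_, ?_⟩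
  · rw [d.chr]
    simp
  · rw [Finset.card_map, Finset.card_univ, ← Nat.card_eq_fintype_card, k, d.card]

omit d in
/-- forget the scalars -/
def rg (a : Γ →* (F ≃ₐ[ℚ] F)) : Γ →* (F ≃+* F) :=
  MonoidHom.mk' (fun γ => (a γ).toRingEquiv) fun γ δ => by rw [map_mul]; rfl

end

variable {A B : ℤ} {D : Cd A B} {m : D.O}

/-- the ray class fields are abelian -/
theorem cm (cf : D.Cf) (m0 : m ≠ 0) : ∀ g ∈ D.G, ∀ h ∈ D.G, g * h * g⁻¹ * h⁻¹ ∈ D.Hm m := by
  intro g hg h hh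
  obtain ⟨β, -, k, e⟩ := cf.ac m m0 _ (inv_mem hg)
  obtain ⟨β', -, k', e'⟩ := cf.ac m m0 _ (inv_mem hh)
  have q : ga (g⁻¹ * h⁻¹) (D.tp m) = ga (h⁻¹ * g⁻¹) (D.tp m) := by
    rw [ga_mul, ga_mul, e, e', cf.lin _ k, cf.lin _ k', e, e']
    exact DFunLike.congr_fun ((map_mul D.act β' β).symm.trans (mul_comm β β' ▸ map_mul D.act β β')) _
  refine Subgroup.subset_closure ⟨1, isUnit_one, mul_mem (mul_mem (mul_mem hg hh) k) k', ?_⟩
  rw [mul_assoc, ga_mul, q, ← ga_mul, D.act.map_one]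
  simpa [mul_assoc] using ga_one (D.tp m)

theorem sp (m0 : m ≠ 0) (ι : F →+* Qb) : ∃ S, Sp D m ι S := by
  by_cases h : ∃ y : 𝓞 F, ι (y : F) = D.j m
  · obtain ⟨y, e⟩ := h
    have y0 : Ideal.span {y} ≠ 0 := mt Ideal.span_singleton_eq_bot.1 fun k => m0 (D.inj (by
      rw [map_zero]
      exact RingOfIntegers.ext (by simpa [k] using e.symm)))
    refine ⟨(Ideal.finite_factors y0).toFinset, fun w => ?_⟩
    rw [Set.Finite.mem_toFinset, Set.mem_setOf_eq, Ideal.dvd_span_singleton]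
    exact ⟨fun k => ⟨y, k, e⟩, fun ⟨z, k, e'⟩ =>
      RingOfIntegers.ext (ι.injective (e'.trans e.symm)) ▸ k⟩
  · exact ⟨∅, fun w => ⟨fun k => absurd k (Finset.notMem_empty w), fun ⟨z, _, e⟩ => (h ⟨z, e⟩).elim⟩⟩

/-- the group of a subfield of the ray class field -/
theorem gd (cf : D.Cf) (m0 : m ≠ 0) (le : GK ι ≤ D.G) (hm : D.Hm m ≤ GK ι) :
    ∃ (Γ : Type) (_ : CommGroup Γ) (_ : Fintype Γ) (π : D.G →* Γ) (a : Γ →* (F ≃ₐ[ℚ] F)),
      Gd D.G ι π a := ex_gd (fun g hg h hh => hm (cm cf m0 g hg h hh)) le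

end Ga

open Ga

/-- **the Galois group** -/
theorem gal : GAL := fun A B D cf m m0 F _ _ ι le hm => by
  obtain ⟨Γ, _, _, π, a, d⟩ := gd cf m0 le hm
  have := cx D.cc cf.cG cf.nrm le
  have b := d.bij D.cc cf.cG le
  obtain ⟨X, h, k⟩ := d.ly
  refine ⟨this, ?_, sp m0 ι, fun x => P004R.Ki.fixed, ⟨X, ⟨le, hm, h⟩, k⟩, Γ, ‹_›, ‹_›, π, rg a,
    d.sur, d.ker, d.act, ?_⟩
  · rw [← d.card, Nat.card_eq_of_bijective _ b, Nat.card_eq_fintype_card, Units.rank,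
      Nat.sub_add_cancel Fintype.card_pos]
  · simp only [pl, InfinitePlace.comap_mk] at b
    convert b using 3 <;> rfl

end Vale.Agent.P014X.An
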