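import Vale.Agent.P014X.An.Mod

/-! # P014X: the Artin symbol of an ideal (helper92) -/

set_option autoImplicit false
set_option linter.all false

open NumberField
open scoped Classical

noncomputable section

namespace Vale.Agent.P014X.Md

open Vale.Agent.P022 P027M.M
open P004M.TE (Pt ga ga_mul)

variable {A B : ℤ} {D : Cd A B} {m β γ x y ζ ζ' : D.O} {g h : GQ}

theorem ac_mul (C : D.Cf) (a : D.Ac m g β) (b : D.Ac m h γ) : D.Ac m (g * h) (β * γ) :=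
  ⟨mul_mem a.1 b.1, by
    rw [ga_mul, b.2, C.lin g a.1, a.2, mul_comm β, map_mul]
    rfl⟩

theorem ac_dvd (C : D.Cf) (m0 : m ≠ 0) (a : D.Ac m g β) : D.Ac m g γ ↔ m ∣ β - γ := by
  rw [← C.ker m m0, map_sub, Cd.Ac, and_iff_right a.1, a.2]
  exact sub_eq_zero.symm

theorem ac_cop (C : D.Cf) (m0 : m ≠ 0) (a : D.Ac m g β) : IsCoprime β m := by
  obtain ⟨γ, c, b⟩ := C.ac m m0 g a.1
  obtain ⟨k, e⟩ := (ac_dvd C m0 a).1 b
  rw [sub_eq_iff_eq_add'.1 e]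
  exact c.add_mul_left_left k

theorem ac_same (C : D.Cf) (m0 : m ≠ 0) (u : IsUnit ζ) (a : D.Ac m g x) (b : D.Ac m h (ζ * x)) :
    D.Ac m (g⁻¹ * h) ζ := by
  obtain ⟨γ, -, c⟩ := C.ac m m0 _ (mul_mem (inv_mem a.1) b.1)
  have d := ac_mul C a c
  rw [mul_inv_cancel_left, ac_dvd C m0 b, mul_comm ζ, ← mul_sub] at d
  exact (ac_dvd C m0 c).2 (dvd_sub_comm.1 ((ac_cop C m0 a).symm.dvd_of_dvd_mul_left d))

theorem hm_le (C : D.Cf) (m0 : m ≠ 0) : D.Hm m ≤ D.G := fun g hg => by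
  obtain ⟨ζ, -, a⟩ := (C.hm m m0 g).1 hg
  exact a.1

theorem comm (C : D.Cf) (m0 : m ≠ 0) (a : g ∈ D.G) (b : h ∈ D.G) : (g * h)⁻¹ * (h * g) ∈ D.Hm m := by
  obtain ⟨β, -, c⟩ := C.ac m m0 g a
  obtain ⟨γ, -, d⟩ := C.ac m m0 h b
  exact (C.hm m m0 _).2 ⟨1, isUnit_one, ac_same C m0 isUnit_one (ac_mul C c d)
    (by rw [one_mul, mul_comm β]; exact ac_mul C d c)⟩

theorem conj (C : D.Cf) (m0 : m ≠ 0) {H : Subgroup GQ} (h1 : D.Hm m ≤ H) (h2 : H ≤ D.G) :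
    ∀ g ∈ D.G, ∀ u ∈ H, g * u * g⁻¹ ∈ H := fun g hg u hu => by
  have := mul_mem hu (h1 (comm C m0 (inv_mem hg) (mul_mem hg (h2 hu))))
  simpa only [inv_mul_cancel_left, mul_inv_cancel_left] using this

/-- a character extended by zero -/
def ch (D : Cd A B) (φ : D.G →* ℂˣ) (g : GQ) : ℂ := if h : g ∈ D.G then φ ⟨g, h⟩ else 0

theorem ch_eq (φ : D.G →* ℂˣ) (a : g ∈ D.G) : ch D φ g = φ ⟨g, a⟩ := dif_pos a

theorem ch_mul (φ : D.G →* ℂˣ) (a : g ∈ D.G) (b : h ∈ D.G) :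
    ch D φ (g * h) = ch D φ g * ch D φ h := by
  rw [ch_eq φ a, ch_eq φ b, ch_eq φ (mul_mem a b), ← Units.val_mul, ← map_mul]
  rfl

variable {K : Type} [Field K] [NumberField K] (e : D.O ≃+* 𝓞 K) {I I' : Ideal (𝓞 K)}

/-- `g` is a symbol of `I` -/
def Sy (m : D.O) (g : GQ) (I : Ideal (𝓞 K)) : Prop := ∃ x, I = Ideal.span {e x} ∧ D.Ac m g x

variable {e}

theorem asc (h : Ideal.span {e x} = Ideal.span {e y}) : ∃ ζ, IsUnit ζ ∧ y = ζ * x := by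
  obtain ⟨u, hu⟩ := Ideal.span_singleton_eq_span_singleton.1 h
  exact ⟨e.symm u, u.isUnit.map _, e.injective (by
    rw [map_mul, e.apply_symm_apply, ← hu, mul_comm])⟩

theorem sp_unit (u : IsUnit ζ) (x : D.O) : Ideal.span {e (ζ * x)} = Ideal.span {e x} := by
  rw [map_mul, Ideal.span_singleton_mul_left_unit (u.map e)]

theorem Sy.same (C : D.Cf) (m0 : m ≠ 0) (a : Sy e m g I) (b : Sy e m h I) : g⁻¹ * h ∈ D.Hm m := by
  obtain ⟨x, rfl, a⟩ := a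
  obtain ⟨y, k, b⟩ := b
  obtain ⟨ζ, u, rfl⟩ := asc k
  exact (C.hm m m0 _).2 ⟨ζ, u, ac_same C m0 u a b⟩

theorem Sy.mul (C : D.Cf) (a : Sy e m g I) (b : Sy e m h I') : Sy e m (g * h) (I * I') := by
  obtain ⟨x, rfl, a⟩ := a
  obtain ⟨y, rfl, b⟩ := b
  exact ⟨x * y, by rw [map_mul, Ideal.span_singleton_mul_span_singleton], ac_mul C a b⟩

theorem ex_gen (e : D.O ≃+* 𝓞 K) (I : Ideal (𝓞 K)) : ∃ x, I = Ideal.span {e x} := by
  have := D.pid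
  have := IsPrincipalIdealRing.of_surjective e.toRingHom e.surjective
  obtain ⟨z, hz⟩ := (IsPrincipalIdealRing.principal I).principal
  exact ⟨e.symm z, by rw [e.apply_symm_apply, hz]⟩

theorem sy_iff (C : D.Cf) (m0 : m ≠ 0) : (∃ g, Sy e m g (Ideal.span {e x})) ↔ IsCoprime x m := by
  constructor
  · rintro ⟨g, y, k, a⟩
    obtain ⟨ζ, u, rfl⟩ := asc k
    exact (ac_cop C m0 a).of_mul_left_right
  · intro c
    obtain ⟨g, ζ, u, a⟩ := C.onto m m0 x c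
    exact ⟨g, _, (sp_unit u x).symm, a⟩

/-- the character on ideals -/
theorem ex_th (C : D.Cf) (m0 : m ≠ 0) (e : D.O ≃+* 𝓞 K) {φ : D.G →* ℂˣ}
    (h1 : ∀ g : D.G, g.1 ∈ D.Hm m → φ g = 1) : ∃ θ : Ideal (𝓞 K) →* ℂ,
      (∀ g I, Sy e m g I → θ I = ch D φ g) ∧ ∀ I, (¬ ∃ g, Sy e m g I) → θ I = 0 := by
  let t : Ideal (𝓞 K) → ℂ := fun I => if h : ∃ g, Sy e m g I then ch D φ h.choose else 0
  have t0 : ∀ I, (¬ ∃ g, Sy e m g I) → t I = 0 := fun I h => dif_neg h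
  have t1 : ∀ g I, Sy e m g I → t I = ch D φ g := fun g I a => by
    have x : ∃ g, Sy e m g I := ⟨g, a⟩
    have y := a.same C m0 x.choose_spec
    have z := ch_mul φ a.choose_spec.2.1 (hm_le C m0 y)
    rw [mul_inv_cancel_left, ch_eq φ (hm_le C m0 y), h1 _ y, Units.val_one, mul_one] at z
    exact (dif_pos x).trans z
  refine ⟨⟨⟨t, ?_⟩, fun I I' => ?_⟩, t1, t0⟩
  · rw [t1 1 1 ⟨1, by simp, one_mem _, by rw [P004M.TE.ga_one, map_one]; rfl⟩, ch_eq φ (one_mem _)]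
    exact congrArg Units.val (map_one φ)
  · show t (I * I') = t I * t I'
    obtain ⟨x, rfl⟩ := ex_gen e I
    obtain ⟨y, rfl⟩ := ex_gen e I'
    by_cases c : IsCoprime (x * y) m
    · obtain ⟨g, a⟩ := (sy_iff (e := e) C m0).2 c.of_mul_left_left
      obtain ⟨h, b⟩ := (sy_iff (e := e) C m0).2 c.of_mul_left_right
      rw [t1 _ _ (a.mul C b), t1 _ _ a, t1 _ _ b, ch_mul φ a.choose_spec.2.1 b.choose_spec.2.1]
    · rw [Ideal.span_singleton_mul_span_singleton, ← map_mul, t0 _ (mt (sy_iff C m0).1 c)]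
      rcases not_and_or.1 (mt IsCoprime.mul_left_iff.2 c) with c | c
      · rw [t0 _ (mt (sy_iff C m0).1 c), zero_mul]
      · rw [t0 _ (mt (sy_iff C m0).1 c), mul_zero]

end Vale.Agent.P014X.Md
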