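import Vale.Agent.P014X.An.St
import Vale.Agent.P014X.An.Sy
import Vale.Agent.P014X.An.Lf0
import Vale.Agent.P004R.Lfa

/-! # P014X: the factorisation of the zeta function (helper92) -/

set_option autoImplicit false
set_option linter.all false

open NumberField IsDedekindDomain Finset
open scoped Classical

noncomputable section

namespace Vale.Agent.P014X.An

open Vale.Agent.P022 Vale.Agent.P022.H916 P004R.Gl P027M.M Md
open Vale.Agent.P027M.S (LI)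
open Vale.Agent.P027M.S.Eul (fv)
open Vale.Agent.P016Z.EP (Nv)
open P004R.La (Lo lo zeta euler)

namespace Lfa

variable {A B : ℤ} {D : Cd A B} {m : D.O} {T : Finset GQ} {b : GQ → D.O}
  {K : Type} [Field K] [NumberField K] {j : K →+* Qb} {e : D.O ≃+* 𝓞 K}

theorem term (C : D.Cf) (m0 : m ≠ 0) (β y : D.O) (s : ℝ) :
    (D.nm (β + m * y) : ℂ) ^ (-(s : ℂ)) =
      (D.nm m : ℂ) ^ (-(s : ℂ)) * ((‖D.J β / D.J m + D.J y‖ : ℝ) : ℂ) ^ (-2 * (s : ℂ)) := by
  have a : (D.nm (β + m * y) : ℝ) = D.nm m * ‖D.J β / D.J m + D.J y‖ ^ 2 := by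
    rw [← norm_J C, ← norm_J C, ← mul_pow, ← norm_mul, mul_add, mul_div_cancel₀ _ (J_ne m0),
      ← JH_eq, map_add, map_mul]
    rfl
  rw [← Complex.ofReal_natCast, a, Complex.ofReal_mul,
    Complex.mul_cpow_ofReal_nonneg (Nat.cast_nonneg _) (sq_nonneg _), Complex.ofReal_natCast,
    show -2 * (s : ℂ) = ((2 * -s : ℝ) : ℂ) by push_cast; ring, ← Complex.ofReal_neg,
    ← Complex.ofReal_cpow (sq_nonneg _), ← Complex.ofReal_cpow (norm_nonneg _),
    Real.rpow_mul (norm_nonneg _), Real.rpow_two]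

theorem smm {θ : Ideal (𝓞 K) →* ℂ} (hθ : ∀ I, ‖θ I‖ ≤ 1) {s : ℝ} (hs : 1 < s) :
    Summable fun I : {I : Ideal (𝓞 K) // I ≠ ⊥} =>
      θ I.1 * (Ideal.absNorm I.1 : ℂ) ^ (-(s : ℂ)) := by
  rw [← (P016Z.EP.idealEquiv K).summable_iff]
  refine (P027M.S.Eul.summable_gw_fv hθ hs).of_norm.congr fun m => ?_
  rw [P027M.S.Eul.gw_fv, Function.comp_apply, P016Z.EP.absNorm_idealEquiv]
  rfl

/-- the L-series as a sum over the ray classes -/
theorem li (C : D.Cf) (R : Ry D m T b) (M : Mo D j e) {φ : D.G →* ℂˣ} {θ : Ideal (𝓞 K) →* ℂ}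
    (hθ : ∀ I, ‖θ I‖ ≤ 1) (t1 : ∀ g I, Sy e m g I → θ I = ch D φ g)
    (t0 : ∀ I, (¬ ∃ g, Sy e m g I) → θ I = 0) {s : ℝ} (hs : 1 < s) :
    LI θ s = (D.nm m : ℂ) ^ (-(s : ℂ)) * ∑ g ∈ T, cq D φ g * Zo D (D.J (b g) / D.J m) s := by
  have := dom D
  have m0 := R.ne
  have ac : ∀ p : T × D.O, D.Ac m p.1 (b p.1 + m * p.2) := fun p =>
    (ac_dvd C m0 (R.ac _ p.1.2)).2 ⟨-p.2, by ring⟩
  let i : T × D.O → {I : Ideal (𝓞 K) // I ≠ ⊥} := fun p =>
    ⟨Ideal.span {e (b p.1 + m * p.2)}, fun h => R.nu (by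
      have := ac_cop C m0 (ac p)
      rwa [(map_eq_zero_iff e e.injective).1 (Ideal.span_singleton_eq_bot.1 h),
        isCoprime_zero_left] at this)⟩
  have sy : ∀ p, Sy e m p.1 (i p).1 := fun p => ⟨_, rfl, ac p⟩
  have inj : Function.Injective i := fun p q h => by
    have h' : (i p).1 = (i q).1 := congrArg Subtype.val h
    have a : p.1 = q.1 := Subtype.ext ((R.tv.2 _ (R.ac _ q.1.2).1).unique
      ⟨p.1.2, (sy p).same C m0 (h' ▸ sy q)⟩ ⟨q.1.2, by rw [inv_mul_cancel]; exact one_mem _⟩)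
    obtain ⟨ζ, u, z⟩ := asc h'
    have c : m ∣ b q.1 + m * q.2 - (b p.1 + m * p.2) := (ac_dvd C m0 (ac q)).1 (by
      rw [← a]; exact ac p)
    rw [z, ← sub_one_mul] at c
    rw [R.sep ζ u ((ac_cop C m0 (ac p)).symm.dvd_of_dvd_mul_right c), one_mul, a,
      add_right_inj] at z
    exact Prod.ext a (mul_left_cancel₀ m0 z).symm
  have sup : (Function.support fun I : {I : Ideal (𝓞 K) // I ≠ ⊥} =>
      θ I.1 * (Ideal.absNorm I.1 : ℂ) ^ (-(s : ℂ))) ⊆ Set.range i := fun I hI => by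
    obtain ⟨g, x, k, a⟩ : ∃ g, Sy e m g I.1 := by
      by_contra n
      exact hI (by simp only [t0 _ n, zero_mul])
    obtain ⟨t, ⟨ht, d⟩, -⟩ := R.tv.2 g a.1
    obtain ⟨ζ, ⟨u, rfl⟩, c⟩ := (C.hm m m0 _).1 d
    have f := ac_mul C (R.ac t ht) c
    rw [mul_inv_cancel_left, ac_dvd C m0 a] at f
    obtain ⟨y, hy⟩ := f
    refine ⟨(⟨t, ht⟩, (u⁻¹ : D.Oˣ) * y), Subtype.ext ?_⟩
    rw [k, ← sp_unit (e := e) u⁻¹.isUnit x, sub_eq_iff_eq_add'.1 hy]
    refine congrArg (fun z => Ideal.span {e z}) ?_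
    linear_combination (-b t) * u.inv_mul
  rw [LI, ← inj.tsum_eq sup]
  refine ((smm hθ hs).comp_injective inj).tsum_prod.trans ?_
  rw [tsum_fintype, ← sum_coe_sort T, mul_sum]
  refine sum_congr rfl fun g _ => ?_
  rw [Zo, ← tsum_mul_left, ← tsum_mul_left]
  refine tsum_congr fun y => ?_
  show θ (i (g, y)).1 * (Ideal.absNorm (Ideal.span {e (b g + m * y)}) : ℂ) ^ _ = _
  rw [t1 _ _ (sy _), M.nm, term C m0, mul_left_comm]
  rfl

theorem dual {G Γ : Type} [Group G] [Group Γ] [Fintype (Γ →* ℂˣ)] (r : G →* Γ)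
    (hr : Function.Surjective r) {X : Finset (G →* ℂˣ)} (hX : ∀ φ, φ ∈ X ↔ ∀ g, r g = 1 → φ g = 1)
    (f : (G →* ℂˣ) → ℂ) : ∏ χ : Γ →* ℂˣ, f (χ.comp r) = ∏ φ ∈ X, f φ :=
  prod_bij (fun χ _ => χ.comp r) (fun χ _ => (hX _).2 fun g h => by
    rw [MonoidHom.comp_apply, h, map_one])
    (fun χ _ χ' _ h => (MonoidHom.cancel_right hr).1 h)
    (fun φ h => ⟨r.liftOfSurjective hr ⟨φ, (hX φ).1 h⟩, mem_univ _,
      r.liftOfRightInverse_comp _ _ _⟩) fun _ _ => rfl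

/-- inertia and Frobenius elements away from `m` -/
theorem fr (C : D.Cf) (m0 : m ≠ 0) (M : Mo D j e) {P : Ideal (𝓞 Qb)} (hP : P.IsPrime)
    (h0 : below j P ≠ ⊥) (hm : e m ∉ below j P) {g : GQ} (hg : g ∈ GK j) (k : ℕ)
    (h : ∀ x : 𝓞 Qb, g • x - x ^ Ideal.absNorm (below j P) ^ k ∈ P) :
    Sy e m g (below j P ^ k) := by
  have := dom D
  have := D.pid
  obtain ⟨π, hπ⟩ := ex_gen e (below j P)
  have p := below_pr j hP
  have x := Ideal.mem_span_singleton_self (e π)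
  rw [hπ] at h0 hm p h
  have pr : Prime π := (MulEquiv.prime_iff e).1
    ((Ideal.span_singleton_prime (mt Ideal.span_singleton_eq_bot.2 h0)).1 p)
  rw [← hπ] at x
  rw [M.nm] at h
  obtain ⟨ζ, u, a⟩ := C.mt π P k g ⟨pr, hP, M.je π ▸ x, M.G ▸ hg, h⟩
  exact ⟨_, by rw [sp_unit u, hπ, map_pow, Ideal.span_singleton_pow], a m m0
    (pr.irreducible.coprime_iff_not_dvd.2 fun d =>
      hm (Ideal.mem_span_singleton.2 (map_dvd e d))).symm⟩

end Lfa

open Lfa in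
/-- **LFA** -/
theorem lfa : LFA := by
  intro A B D C m T b R F _ _ jF X S L hS s hs
  have m0 := R.ne
  obtain ⟨K, _, _, j, e, M⟩ := ex_mo C
  obtain ⟨ι, hι⟩ := ex_hom (j := j) (jL := jF) (M.G ▸ L.G)
  let _ := ι.toAlgebra
  obtain ⟨_, ρ, Dc⟩ := ex_dict (j := j) (jL := jF) hι (M.G ▸ conj C m0 L.hm L.G)
  let r : D.G →* (F ≃ₐ[K] F) := ρ.comp (Subgroup.inclusion M.G.ge)
  have rs : Function.Surjective r := fun τ => by
    obtain ⟨g, rfl⟩ := Dc.surj τ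
    exact ⟨⟨g, M.G.le g.2⟩, rfl⟩
  have rk : ∀ g, r g = 1 ↔ g.1 ∈ GK jF := fun g => Dc.ker _
  have hc : ∀ x y : F ≃ₐ[K] F, x * y = y * x := fun x y => by
    obtain ⟨x, rfl⟩ := rs x
    obtain ⟨y, rfl⟩ := rs y
    rw [← inv_mul_eq_one, ← map_mul, ← map_mul, ← map_inv, ← map_mul, rk]
    exact L.hm (comm C m0 x.2 y.2)
  have := Fintype.ofFinite ((F ≃ₐ[K] F) →* ℂˣ)
  choose θ t1 t0 using fun χ : (F ≃ₐ[K] F) →* ℂˣ => ex_th C m0 e (φ := χ.comp r) fun g hg => by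
    rw [MonoidHom.comp_apply, (rk g).2 (L.hm hg), map_one]
  have t2 : ∀ χ I, ‖θ χ I‖ ≤ 1 := fun χ I => by
    by_cases h : ∃ g, Sy e m g I
    · obtain ⟨g, a⟩ := h
      rw [t1 χ g I a, ch_eq _ a.choose_spec.2.1]
      exact (Complex.norm_eq_one_of_pow_eq_one (by
        rw [MonoidHom.comp_apply, ← Units.val_pow_eq_pow_val, ← map_pow, pow_card_eq_one', map_one,
          Units.val_one]) Nat.card_pos.ne').le
    · rw [t0 χ I h, norm_zero]
      exact zero_le_one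
  have mS : ∀ w, w ∈ S ↔ e m ∈ (w.under (𝓞 K)).asIdeal := fun w => by
    have a : jF (algebraMap (𝓞 K) (𝓞 F) (e m) : F) = D.j m :=
      (hι _).trans (congrArg (fun x : 𝓞 Qb => (x : Qb)) (M.je m))
    refine (hS w).trans ⟨fun ⟨y, h1, h2⟩ => ?_, fun h => ⟨_, h, a⟩⟩
    rwa [RingOfIntegers.ext (jF.injective (h2.trans a.symm))] at h1
  let f : Pm F → ℂ := fun w => if w ∈ S then 1 - fv 1 s w else 1
  have key : ∀ v : Pm K, ∃ c, HasProd (fun w : {w : Pm F // w.under (𝓞 K) = v} => f w.1) c ∧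
      Lo F s v (c * ∏ χ, (1 - fv (θ χ) s v)) := fun v => by
    obtain ⟨P, hP, hv⟩ := exists_above j v.asIdeal v.isPrime
    obtain ⟨g, a, c⟩ := lo Dc hP hv s
    by_cases x : e m ∈ v.asIdeal
    · refine ⟨_, c.congr_fun fun w => if_pos ((mS _).2 (by rwa [w.2])), ?_⟩
      rwa [prod_eq_one fun χ _ => ?_, mul_one]
      obtain ⟨π, hπ⟩ := ex_gen e v.asIdeal
      rw [fv, t0 χ _ fun z => v.isPrime.ne_top ?_, zero_mul, sub_zero]
      rw [hπ, sy_iff C m0] at z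
      obtain ⟨u, w, k⟩ := z
      rw [Ideal.eq_top_iff_one, ← map_one e, ← k, map_add, map_mul, map_mul]
      exact add_mem (Ideal.mul_mem_left _ _ (hπ ▸ Ideal.mem_span_singleton_self _))
        (Ideal.mul_mem_left _ _ x)
    · refine ⟨1, hasProd_one.congr_fun fun w => if_neg (mt (mS _).1 (by rwa [w.2])), ?_⟩
      have l0 := (P016Z.EP.rc_prime v).ne_zero
      have lm := (mem_below (j := j) (P := P) _).1 (hv ▸ P016Z.EP.rc_mem v)
      have h0 : below j P ≠ ⊥ := hv ▸ v.ne_bot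
      have hm : e m ∉ below j P := hv ▸ x
      obtain ⟨ψ, hψ⟩ := exists_frob j hP (P016Z.EP.rc_prime v) lm
      have hI : ∀ g ∈ GK j, (∀ x : 𝓞 Qb, g • x - x ∈ P) → g ∈ GK jF := fun g hg i => by
        have a := fr C m0 M hP h0 hm hg 0 (by simpa using i)
        have := Sy.same C m0 (g := 1) ⟨1, by simp, one_mem _, by
          rw [P004M.TE.ga_one, map_one]; rfl⟩ a
        exact L.hm (by simpa using this)
      have sy := fr C m0 M hP h0 hm ψ.2 1 (by simpa using hψ)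
      rw [pow_one, hv] at sy
      have i : (below jF P).inertia (F ≃ₐ[K] F) = ⊥ := eq_bot_iff.2 fun τ hτ =>
        Dc.inertia_eq_bot hP (fun g hg => (Dc.ker g).2 (hI g g.2 hg)) hτ
      rw [i] at a
      rw [← ord Dc hP l0 lm hI hψ] at a c
      rw [← Lf.grp hc ⊥ (ρ ψ) (orderOf_pos _) (fun i => orderOf_dvd_iff_pow_eq_one.symm) a] at c
      rw [one_mul, prod_congr rfl fun χ _ => ?_]
      · exact c
      · rw [fv, t1 χ _ _ sy, ch_eq _ (M.G.le ψ.2), if_pos fun τ h => by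
          rw [Subgroup.mem_bot.1 h, map_one]]
        rfl
  choose c c1 c2 using key
  have hf : HasProd f (∏ w ∈ S, (1 - (Ideal.absNorm w.asIdeal : ℂ) ^ (-(s : ℂ)))) := by
    rw [← prod_congr rfl (f := f) fun w hw => by
      rw [show f w = _ from if_pos hw, fv, MonoidHom.one_apply, one_mul, Nv]]
    exact hasProd_prod_of_ne_finset_one fun w hw => if_neg hw
  have z := (zeta hs c2).unique
    ((((Equiv.sigmaFiberEquiv fun w : Pm F => w.under (𝓞 K)).hasProd_iff.2 hf).sigma c1).mul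
      (hasProd_prod fun χ (_ : χ ∈ univ) => euler (t2 χ) hs))
  have z0 : dedekindZeta F s ≠ 0 := by
    rw [← P027M.S.Eul.LI_one hs]
    exact (P027M.S.Eul.main (fun _ => by simp) hs).1
  rw [prod_inv_distrib, eq_mul_inv_iff_mul_eq₀
    (prod_ne_zero_iff.2 fun χ _ => (P027M.S.Eul.main (t2 χ) hs).1)] at z
  rw [← z, mul_inv_cancel_left₀ z0, ← dual r rs fun φ => by simp only [L.X, rk]]
  exact prod_congr rfl fun χ _ => li C R M (t2 χ) (t1 χ) (t0 χ) hs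

end Vale.Agent.P014X.An
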