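import Vale.Agent.P014X.An.St
import Vale.Agent.P014X.Cm.Cf0

/-! # P014X, analytic block: invariance of the logarithm of the Siegel function (row `LGI`) -/

set_option autoImplicit false
set_option linter.all false

open Filter Topology Set QuadraticAlgebra

noncomputable section

namespace Vale.Agent.P014X.An

namespace Lgi

open Cf0

/-- two functions on the half plane which agree on a real half line -/
theorem ident {G G' : ℂ → ℂ} (h : DifferentiableOn ℂ G {s | -1 < s.re})
    (h' : DifferentiableOn ℂ G' {s | -1 < s.re}) (e : ∀ s : ℝ, 1 < s → G s = G' s) :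
    EqOn G G' {s | -1 < s.re} := by
  have o : IsOpen {s : ℂ | -1 < s.re} := isOpen_lt continuous_const Complex.continuous_re
  refine AnalyticOnNhd.eqOn_of_preconnected_of_frequently_eq (𝕜 := ℂ) (h.analyticOnNhd o)
    (h'.analyticOnNhd o) (convex_halfSpace_re_gt _).isPreconnected (z₀ := ((2 : ℝ) : ℂ))
    (show (-1 : ℝ) < 2 by norm_num) ?_
  have t : Tendsto (fun s : ℝ => (s : ℂ)) (𝓝[>] 2) (𝓝[≠] ((2 : ℝ) : ℂ)) :=
    tendsto_nhdsWithin_iff.2 ⟨Complex.continuous_ofReal.continuousWithinAt,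
      eventually_mem_nhdsWithin.mono fun s k c => (mem_Ioi.1 k).ne' (Complex.ofReal_injective c)⟩
  exact t.frequently (eventually_mem_nhdsWithin.mono fun s k => e s (by
    linarith [mem_Ioi.1 k])).frequently

variable {A B : ℤ} (D : Cd A B)

theorem nrm1 {ζ : D.O} (u : IsUnit ζ) : ‖D.J ζ‖ = 1 :=
  Complex.norm_eq_one_of_pow_eq_one (n := 12)
    (by rw [← JH_eq, ← map_pow, Cf0.un D ζ u, map_one]) (by norm_num)

theorem out {z : ℂ} (h : ∀ x, D.J x ≠ z) (ζ : D.Oˣ) (y x : D.O) : D.J x ≠ D.J ζ * z + D.J y :=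
  fun e => h (ζ⁻¹ * (x - y)) (by
    simp only [← JH_eq] at e ⊢
    rw [map_mul, map_sub, e, add_sub_cancel_right, ← mul_assoc, ← map_mul, Units.inv_mul, map_one,
      one_mul])

theorem Zo_eq (z s : ℂ) (ζ : D.Oˣ) (y : D.O) : Zo D (D.J ζ * z + D.J y) s = Zo D z s := by
  rw [Zo, Zo, ← (ζ.mulLeft.trans (Equiv.subRight y)).tsum_eq]
  refine tsum_congr fun x => ?_
  have : D.J ζ * z + D.J y + D.J (ζ * x - y) = D.J ζ * (z + D.J x) := by
    simp only [← JH_eq, map_sub, map_mul]
    ring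
  simp only [Equiv.trans_apply, Units.mulLeft_apply, Equiv.subRight_apply, this, norm_mul,
    nrm1 D ζ.isUnit, one_mul]

end Lgi

open Lgi

/-- **invariance** -/
theorem lgi (fe : FE0) : LGI := fun A B D z ζ y h u => by
  obtain ⟨ζ, rfl⟩ := u
  obtain ⟨G, d, e, v⟩ := fe A B D z h
  obtain ⟨G', d', e', v'⟩ := fe A B D _ (out D h ζ y)
  have := ident d' d (fun s k => mul_left_cancel₀ (a := (s : ℂ))
    (Complex.ofReal_ne_zero.2 (by linarith)) (by rw [e s k, e' s k, Zo_eq])) (x := 0) (by simp)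
  rw [v, v', Complex.ofReal_inj] at this
  linarith

end Vale.Agent.P014X.An
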