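import Vale.Agent.P014X.An.St

/-! # P014X: the row `LOC` (helper80) -/

set_option autoImplicit false
set_option linter.all false

open NumberField RingOfIntegers
open scoped Classical

noncomputable section

namespace Vale.Agent.P014X.An

open Vale.Agent.P022 (Qb GQ GK)

namespace Loc

variable {A B : ℤ} {D : Cd A B} {p : ℕ} {m : D.O} {F' F : Type} [Field F'] [NumberField F']
  [Field F] [NumberField F] [Algebra F' F] {jF : F →+* Qb} {σ : GQ}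

theorem above (j : F →+* Qb) (v : Pm F) : ∃ P : Ideal (𝓞 Qb), P.IsPrime ∧
    ∀ x, x ∈ v.asIdeal ↔ mapRingHom j x ∈ P := by
  letI : Algebra (𝓞 F) (𝓞 Qb) := (mapRingHom j).toAlgebra
  haveI : Algebra.IsIntegral (𝓞 F) (𝓞 Qb) := ⟨fun x => IsIntegral.tower_top (R := ℤ)
    (RingOfIntegers.isIntegral x)⟩
  have := v.isPrime
  obtain ⟨P, hP, h⟩ := Ideal.exists_ideal_over_prime_of_isIntegral_of_isDomain (S := 𝓞 Qb)
    v.asIdeal (by
      rw [(RingHom.injective_iff_ker_eq_bot _).1 fun a b e => RingOfIntegers.ext (j.injective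
        (congrArg (fun z : 𝓞 Qb => (z : Qb)) e))]
      exact bot_le)
  exact ⟨P, hP, fun x => h ▸ Iff.rfl⟩

theorem le : GK jF ≤ GK (jF.comp (algebraMap F' F)) := fun _ h _ => h _

theorem gen {Γ : Type} [Group Γ] {s a b : Γ} (hp : p.Prime) (s1 : s ≠ 1) (sp : s ^ p = 1)
    (ha : a ∈ Subgroup.zpowers s) (hb : b ∈ Subgroup.zpowers s) (a1 : a ≠ 1) : ∃ k : ℕ, a ^ k = b := by
  have := Fact.mk hp
  obtain ⟨k, hk⟩ := mem_powers_of_prime_card ((Nat.card_zpowers _).trans (orderOf_eq_prime sp s1))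
    (g := ⟨a, ha⟩) (g' := ⟨b, hb⟩) fun e => a1 (congrArg Subtype.val e)
  exact ⟨k, congrArg Subtype.val hk⟩

/-- the group of the layer fixes the primes of `m` -/
theorem fixw (gal : GAL) (C : D.Cf) (hp : p.Prime) (m0 : m ≠ 0) (h : Pair D p m F' jF σ) (w : Pm F)
    {y : 𝓞 F} (hy : y ∈ w.asIdeal) (ey : jF y = D.j m) {g : GQ}
    (hg : g ∈ GK (jF.comp (algebraMap F' F))) {x x' : 𝓞 F} (e : jF x' = g (jF x)) :
    x' ∈ w.asIdeal ↔ x ∈ w.asIdeal := by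
  obtain ⟨-, -, -, -, -, Γ, _, _, π, ρ, -, ker, act, -⟩ := gal A B D C m m0 F jF (le.trans h.G) h.hm
  obtain ⟨P, hP, b⟩ := above jF w
  have ey' : mapRingHom jF y = D.j m := RingOfIntegers.ext ey
  obtain ⟨g₀, d, a, n⟩ := h.ns P hP (by rw [← ey']; exact (b y).1 hy)
  have z : ∀ g (hg : g ∈ GK (jF.comp (algebraMap F' F))),
      π ⟨g, h.G hg⟩ ∈ Subgroup.zpowers (π ⟨σ, h.G h.s0⟩) := fun g hg => by
    obtain ⟨i, k⟩ := h.gen g hg
    have := (ker ((⟨σ, h.G h.s0⟩ ^ i)⁻¹ * ⟨g, h.G hg⟩)).2 (by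
      rwa [Subgroup.coe_mul, Subgroup.coe_inv, Subgroup.coe_pow])
    rw [map_mul, map_inv, map_pow, inv_mul_eq_one] at this
    exact this ▸ Subgroup.npow_mem_zpowers _ i
  obtain ⟨k, hk⟩ := gen (s := π ⟨σ, h.G h.s0⟩) hp (fun e => h.s1 ((ker _).1 e))
    (by rw [← map_pow, ker, Subgroup.coe_pow]; exact h.sp)
    (z g₀ a) (z g hg) fun e => n ((ker _).1 e)
  have r := act (⟨g₀, h.G a⟩ ^ k) x
  rw [map_pow, hk, act, ← e, Subgroup.coe_pow] at r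
  have q : mapRingHom jF x' = g₀ ^ k • mapRingHom jF x := RingOfIntegers.ext r
  have d' : ∀ x : 𝓞 Qb, g₀ ^ k • x ∈ P ↔ x ∈ P := pow_mem d k
  rw [b, b, q, d']

theorem down (gal : GAL) (C : D.Cf) (m0 : m ≠ 0) (h : Pair D p m F' jF σ) {x : 𝓞 Qb}
    (k : ∀ g ∈ GK (jF.comp (algebraMap F' F)), g x = x) :
    ∃ y : 𝓞 F', jF (algebraMap (𝓞 F') (𝓞 F) y) = x := by
  obtain ⟨y, e⟩ := (gal A B D C m m0 F' _ h.G (h.hm.trans le)).2.2.2.1 x k
  exact ⟨⟨y, (isIntegral_algHom_iff (jF.comp (algebraMap F' F)).toIntAlgHom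
    (RingHom.injective _)).1 (e.symm ▸ x.2 : IsIntegral ℤ (jF.comp (algebraMap F' F) y))⟩, e⟩

theorem mem_iff (gal : GAL) (C : D.Cf) (m0 : m ≠ 0) (h : Pair D p m F' jF σ) {S' S}
    (s' : Sp D m (jF.comp (algebraMap F' F)) S') (s : Sp D m jF S) (w : Pm F) :
    w ∈ S ↔ w.under (𝓞 F') ∈ S' := by
  rw [s, s']
  refine ⟨fun ⟨y, a, e⟩ => ?_, fun ⟨y, a, e⟩ => ⟨_, a, e⟩⟩
  obtain ⟨y', e'⟩ := down gal C m0 h (x := D.j m) fun g k =>
    congrArg (fun z : 𝓞 Qb => (z : Qb)) (C.fix g (h.G k) m)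
  obtain rfl : algebraMap (𝓞 F') (𝓞 F) y' = y := RingOfIntegers.ext (jF.injective (e'.trans e.symm))
  exact ⟨y', a, e'⟩

theorem inj (gal : GAL) (C : D.Cf) (hp : p.Prime) (m0 : m ≠ 0) (h : Pair D p m F' jF σ)
    {v w : Pm F} {y : 𝓞 F} (hy : y ∈ w.asIdeal) (ey : jF y = D.j m)
    (e : v.under (𝓞 F') = w.under (𝓞 F')) : v = w := by
  obtain ⟨-, -, -, -, -, Γ, _, _, π, ρ, -, -, act, -⟩ := gal A B D C m m0 F jF (le.trans h.G) h.hm
  refine IsDedekindDomain.HeightOneSpectrum.ext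
    (v.isMaximal.eq_of_le w.isPrime.ne_top fun x hx => ?_)
  let Δ := ((GK (jF.comp (algebraMap F' F))).subgroupOf D.G).map π
  let r : Δ → 𝓞 F := fun γ => mapRingEquiv (ρ γ) x
  obtain ⟨N, hN⟩ := down gal C m0 h (x := mapRingHom jF (∏ γ, r γ)) fun g k => by
    refine (act ⟨g, h.G k⟩ _).symm.trans (congrArg jF ?_)
    simp only [map_prod]
    refine Fintype.prod_equiv (Equiv.mulLeft (⟨_, ⟨g, h.G k⟩, k, rfl⟩ : Δ)) _ _ fun γ => ?_
    simp [r]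
  have n : algebraMap (𝓞 F') (𝓞 F) N = ∏ γ, r γ := RingOfIntegers.ext (jF.injective hN)
  have a : N ∈ (v.under (𝓞 F')).asIdeal := by
    change algebraMap (𝓞 F') (𝓞 F) N ∈ v.asIdeal
    rw [n]
    refine Ideal.prod_mem _ (Finset.mem_univ 1) ?_
    rwa [show r 1 = x from RingOfIntegers.ext (by simp [r])]
  rw [e] at a
  change algebraMap (𝓞 F') (𝓞 F) N ∈ w.asIdeal at a
  have := w.isPrime
  rw [n, Ideal.IsPrime.prod_mem_iff] at a
  obtain ⟨⟨_, g, k, rfl⟩, -, a⟩ := a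
  exact (fixw gal C hp m0 h w hy ey k (act g x)).1 a

end Loc

open Loc

theorem loc (gal : GAL) : LOC := by
  intro A B D C p m hp m0 F' F _ _ _ _ _ jF σ S' S h s' s
  have i : ∀ v ∈ S, ∀ w ∈ S, v.under (𝓞 F') = w.under (𝓞 F') → v = w := fun v _ w hw =>
    have ⟨_, a, e⟩ := (s w).1 hw
    inj gal C hp m0 h a e
  have u : ∀ v ∈ S', ∃ w, ∃ _ : w ∈ S, w.under (𝓞 F') = v := fun v hv => by
    have := v.isPrime
    obtain ⟨⟨P, hP, o⟩⟩ := Ideal.nonempty_primesOver (S := 𝓞 F) v.asIdeal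
    have e : IsDedekindDomain.HeightOneSpectrum.under (𝓞 F')
        (⟨P, hP, Ideal.ne_bot_of_liesOver_of_ne_bot v.ne_bot P⟩ : Pm F) = v :=
      IsDedekindDomain.HeightOneSpectrum.ext o.over.symm
    exact ⟨_, (mem_iff gal C m0 h s' s _).2 (e.symm ▸ hv), e⟩
  have t : ∀ w ∈ S, w.under (𝓞 F') ∈ S' := fun w => (mem_iff gal C m0 h s' s w).1
  refine ⟨Finset.card_bij _ t i u, ?_⟩
  rw [← Finset.prod_bij _ t i u fun _ _ => rfl, Nat.cast_prod, ← Finset.prod_mul_distrib]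
  refine Finset.prod_congr rfl fun w _ => ?_
  have := w.isPrime
  rw [← Ideal.absNorm_pow_inertiaDeg (w.asIdeal.under (𝓞 F')) w.asIdeal, Nat.cast_pow, Real.log_pow]
  rfl

end Vale.Agent.P014X.An
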