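import Vale.Agent.P014X.An.Cov0
import Mathlib.Algebra.Group.Subgroup.Finsupp
import Mathlib.NumberTheory.NumberField.Norm
import Mathlib.NumberTheory.NumberField.InfinitePlace.Ramification
import Mathlib.NumberTheory.NumberField.InfinitePlace.TotallyRealComplex

/-! # P014X: the index of a cyclic module of units in the units of norm one -/

set_option autoImplicit false
set_option linter.all false

open NumberField NumberField.InfinitePlace Module Matrix Set
open NumberField.Units (regulator torsion torsionOrder fundSystem rank)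
open scoped Classical

noncomputable section

namespace Vale.Agent.P014X.An

namespace Cv

theorem key (K : Type) [Field K] [NumberField K] [IsTotallyComplex K] {ι : Type} [Fintype ι]
    [DecidableEq ι] (p : ι ≃ InfinitePlace K) (i₀ : ι) (U : ι → (𝓞 K)ˣ) (h : U i₀ = 1) :
    finrank ℚ K * (((Subgroup.closure (range U) ⊔ torsion K).index : ℝ) * regulator K) =
      |(of fun i j => if i = i₀ then (2 : ℝ) else 2 * (p j (U i)).log).det| := by
  have e : {w // w ≠ p i₀} ≃ Fin (rank K) := Fintype.equivOfCardEq <| by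
    rw [Fintype.card_subtype_compl, Fintype.card_subtype_eq, Fintype.card_fin, Units.rank]
  have c : Subgroup.closure (range fun k => U (p.symm (e.symm k))) = Subgroup.closure (range U) :=
    le_antisymm (Subgroup.closure_mono (range_subset_iff.2 fun _ => mem_range_self _))
      ((Subgroup.closure_le _).2 (range_subset_iff.2 fun i => by
        rcases eq_or_ne i i₀ with rfl | hi
        · exact h ▸ one_mem _
        · exact Subgroup.subset_closure ⟨e ⟨p i, p.injective.ne hi⟩, by simp⟩))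
  rw [← c, ← Units.regOfFamily_div_regulator, div_mul_cancel₀ _ (Units.regulator_ne_zero K),
    Units.finrank_mul_regOfFamily_eq_det _ (p i₀) e, ← det_submatrix_equiv_self p]
  congr 2
  ext i j
  simp [IsTotallyComplex.mult_eq]

theorem ex_fund (K : Type) [Field K] [NumberField K] {ι : Type} (p : ι ≃ InfinitePlace K) (i₀ : ι) :
    ∃ U : ι → (𝓞 K)ˣ, U i₀ = 1 ∧ Subgroup.closure (range U) ⊔ torsion K = ⊤ := by
  have e : {w // w ≠ p i₀} ≃ Fin (rank K) := Fintype.equivOfCardEq <| by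
    rw [Fintype.card_subtype_compl, Fintype.card_subtype_eq, Fintype.card_fin, Units.rank]
  refine ⟨fun i => if h : p i = p i₀ then 1 else fundSystem K (e ⟨p i, h⟩), dif_pos rfl, ?_⟩
  rw [eq_top_iff, ← Units.closure_fundSystem_sup_torsion_eq_top]
  refine sup_le_sup_right (Subgroup.closure_mono ?_) _
  rintro _ ⟨k, rfl⟩
  exact ⟨p.symm (e.symm k), by simp [(e.symm k).2]⟩

theorem mp_sup {A B ι : Type} [CommGroup A] [CommGroup B] (f : A →* B) {U : ι → A}
    (h : Subgroup.closure (range U) ⊔ CommGroup.torsion A = ⊤) :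
    Subgroup.closure (range fun i => f (U i)) ⊔ CommGroup.torsion B =
      f.range ⊔ CommGroup.torsion B := by
  refine le_antisymm (sup_le_sup_right ((Subgroup.closure_le _).2 (range_subset_iff.2 fun i =>
    MonoidHom.mem_range.2 ⟨_, rfl⟩)) _) (sup_le ?_ le_sup_right)
  rw [MonoidHom.range_eq_map, ← h, Subgroup.map_sup, MonoidHom.map_closure, ← range_comp]
  refine sup_le_sup_left ?_ _
  rintro _ ⟨v, hv, rfl⟩
  exact MonoidHom.isOfFinOrder _ hv

end Cv

open Cv

/-- the norm of the units -/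
abbrev Nu (F' F : Type) [Field F'] [Field F] [Algebra F' F] : (𝓞 F)ˣ →* (𝓞 F')ˣ :=
  Units.map (RingOfIntegers.norm F')

variable {F : Type} [Field F] [NumberField F] {Γ : Type} [CommGroup Γ] [Fintype Γ]

/-- `Γ` acts simply transitively on the places of `F`, and `F'` is the field fixed by `Δ` -/
structure Pa (F' : Type) [Field F'] [Algebra F' F] (a : Γ →* (F ≃+* F)) (Δ : Subgroup Γ)
    (w : InfinitePlace F) : Prop where
  bij : Function.Bijective fun γ => w.comap (a γ : F →+* F)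
  fix : ∀ x, (∀ δ ∈ Δ, a δ x = x) ↔ x ∈ range (algebraMap F' F)

variable {F' : Type} [Field F'] [NumberField F'] [Algebra F' F] {a : Γ →* (F ≃+* F)}
  {Δ : Subgroup Γ} {w : InfinitePlace F}

namespace Cv

theorem a_mul (a : Γ →* (F ≃+* F)) (g h : Γ) (x : F) : a (g * h) x = a g (a h x) := by
  rw [map_mul]; rfl

theorem ex_a (a : Γ →* (F ≃+* F)) (g : Γ) (v : (𝓞 F)ˣ) : ∃ v' : (𝓞 F)ˣ,
    ((v' : 𝓞 F) : F) = a g (v : 𝓞 F) :=
  ⟨Units.map (RingOfIntegers.mapRingHom (a g : F →+* F) : 𝓞 F →* 𝓞 F) v, rfl⟩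

theorem u_inj {v v' : (𝓞 F)ˣ} {x : F} (h0 : x ≠ 0)
    (h : ((v : 𝓞 F) : F) * x = ((v' : 𝓞 F) : F) * x) : v = v' :=
  Units.ext (RingOfIntegers.ext (mul_right_cancel₀ h0 h))

end Cv

namespace Pa

variable (h : Pa F' a Δ w)
include h

/-- the group of `F / F'` -/
def gb : Δ →* (F ≃ₐ[F'] F) where
  toFun δ := { a δ with commutes' := fun y => (h.fix _).2 ⟨y, rfl⟩ δ δ.2 }
  map_one' := AlgEquiv.ext fun x => show a 1 x = x by rw [map_one]; rfl
  map_mul' δ δ' := AlgEquiv.ext fun x => a_mul a δ δ' x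

theorem fixed : IntermediateField.fixedField h.gb.range = ⊥ :=
  eq_bot_iff.2 fun x hx => IntermediateField.mem_bot.2 ((h.fix x).1 fun δ hδ =>
    (IntermediateField.mem_fixedField_iff _ x).1 hx _ ⟨⟨δ, hδ⟩, rfl⟩)

theorem gal : IsGalois F' F := IsGalois.of_fixedField_eq_bot _ _ (eq_bot_iff.2
  (h.fixed ▸ fun x hx => (IntermediateField.mem_fixedField_iff _ x).2 fun f _ =>
    (IntermediateField.mem_fixedField_iff _ x).1 hx f trivial))

theorem gb_bij : Function.Bijective h.gb := by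
  refine ⟨fun δ δ' e => Subtype.ext (h.bij.1 (InfinitePlace.ext _ _ fun x =>
    congrArg w (DFunLike.congr_fun e x))), MonoidHom.range_eq_top.1 ?_⟩
  rw [← IntermediateField.fixingSubgroup_fixedField h.gb.range, h.fixed,
    IntermediateField.fixingSubgroup_bot]

theorem rank : finrank F' F = Fintype.card Δ := by
  have := h.gal
  rw [← IsGalois.card_aut_eq_finrank, ← Nat.card_eq_of_bijective _ h.gb_bij, Nat.card_eq_fintype_card]

theorem norm (x : F) : algebraMap F' F (Algebra.norm F' x) = ∏ δ : Δ, a δ x := by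
  have := h.gal
  rw [Algebra.norm_eq_prod_automorphisms, ← (Equiv.ofBijective _ h.gb_bij).prod_comp]
  rfl

theorem bij' : Function.Bijective fun c : Γ ⧸ Δ =>
    (w.comap (a (rp Δ c) : F →+* F)).comap (algebraMap F' F) := by
  have := h.gal
  refine ⟨fun c c' e => ?_, fun v => ?_⟩
  · obtain ⟨σ, hσ⟩ := exists_smul_eq_of_comap_eq e
    obtain ⟨δ, hδ⟩ := h.gb_bij.2 σ.symm
    have : rp Δ c * δ = rp Δ c' := h.bij.1 (by
      show _ = w.comap _
      rw [← hσ, smul_eq_comap, ← hδ]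
      exact InfinitePlace.ext _ _ fun x => congrArg w (a_mul a _ _ x))
    rw [← cl_rp Δ c', ← this, cl, QuotientGroup.mk_mul_of_mem _ δ.2]
    exact (cl_rp Δ c).symm
  · obtain ⟨v, rfl⟩ := comap_surjective (K := F) v
    obtain ⟨γ, rfl⟩ := h.bij.2 v
    obtain ⟨δ, hδ⟩ := QuotientGroup.mk_out_eq_mul Δ γ
    refine ⟨γ, InfinitePlace.ext _ _ fun y => congrArg w ?_⟩
    show a (Quotient.out _) (algebraMap F' F y) = a γ (algebraMap F' F y)
    rw [hδ, a_mul, (h.fix _).2 ⟨y, rfl⟩ _ δ.2]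

theorem sum_log (y : (𝓞 F)ˣ) (c : Γ ⧸ Δ) :
    ∑ δ with cl Δ δ = c, 2 * (w (a δ (y : 𝓞 F))).log =
      2 * (Equiv.ofBijective _ h.bij' c (Nu F' F y : 𝓞 F')).log := by
  conv_lhs => rw [← cl_rp Δ c, sum_cl, ← Finset.mul_sum]
  rw [← Real.log_prod fun δ _ => by simp]
  congr 2
  show _ = w (a (rp Δ c) (algebraMap F' F (Algebra.norm F' ((y : 𝓞 F) : F))))
  rw [h.norm, map_prod, map_prod]
  exact Finset.prod_congr rfl fun δ _ => by rw [a_mul]

theorem ker {u : F} (u0 : u ≠ 0) {v : (𝓞 F)ˣ} {γ δ : Γ} (hδ : δ ∈ Δ)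
    (e : ((v : 𝓞 F) : F) * a γ u = a (γ * δ) u) : v ∈ (Nu F' F).ker := by
  have b : Algebra.norm F' (a (γ * δ) u) = Algebra.norm F' (a γ u) :=
    (algebraMap F' F).injective (by
      rw [h.norm, h.norm, ← Equiv.prod_comp (Equiv.mulRight (⟨δ, hδ⟩ : Δ)) fun t : Δ => a t (a γ u)]
      refine Finset.prod_congr rfl fun t _ => ?_
      rw [← a_mul, ← a_mul, mul_comm γ, ← mul_assoc]; rfl)
  rw [← e, map_mul, mul_eq_right₀ (by simpa using u0)] at b
  exact Units.ext (RingOfIntegers.ext b)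

end Pa

/-- **the index of the module generated by the `δ u / u`** -/
theorem cov [IsTotallyComplex F'] (h : Pa F' a Δ w) {u : F} (u0 : u ≠ 0)
    (hu : ∀ δ ∈ Δ, ∃ v : (𝓞 F)ˣ, ((v : 𝓞 F) : F) * u = a δ u) (C : Subgroup (𝓞 F)ˣ)
    (hC : C = Subgroup.closure {v : (𝓞 F)ˣ | ∃ γ, ∃ δ ∈ Δ, ((v : 𝓞 F) : F) * a γ u = a (γ * δ) u})
    (X : Finset (Γ →* ℂˣ)) (hX : ∀ φ, φ ∈ X ↔ ¬ Δ ≤ φ.ker)
    (P0 : ∀ φ ∈ X, ∑ γ, (φ γ : ℂ) * (2 * (w (a γ u)).log : ℝ) ≠ 0) :
    C ≤ (Nu F' F).ker ∧ C ⊓ torsion F = ⊥ ∧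
      (C.relIndex (Nu F' F).ker : ℝ) * regulator F * torsionOrder F' =
        torsionOrder F * regulator F' * (Nu F' F).range.index *
          ∏ φ ∈ X, ‖∑ γ, (φ γ : ℂ) * (2 * (w (a γ u)).log : ℝ)‖ := by
  have := isTotallyComplex_of_algebra F' F
  have a0 : ∀ γ, a γ u ≠ 0 := fun γ => by simpa using u0
  have ck : C ≤ (Nu F' F).ker := hC ▸ (Subgroup.closure_le _).2 fun v ⟨γ, δ, hδ, e⟩ => h.ker u0 hδ e
  have m : ∀ γ, (rp Δ (cl Δ γ))⁻¹ * γ ∈ Δ := fun γ => QuotientGroup.eq.1 (cl_rp Δ _)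
  have ev : ∀ γ, ∃ v : (𝓞 F)ˣ, ((v : 𝓞 F) : F) * a (rp Δ (cl Δ γ)) u = a γ u := fun γ => by
    obtain ⟨v, hv⟩ := hu _ (m γ)
    obtain ⟨v', e⟩ := ex_a a (rp Δ (cl Δ γ)) v
    exact ⟨v', by rw [e, ← map_mul, hv, ← a_mul, mul_inv_cancel_left]⟩
  choose v hv using ev
  have vC : ∀ γ, v γ ∈ C := fun γ => hC ▸ Subgroup.subset_closure
    ⟨_, _, m γ, by rw [mul_inv_cancel_left, hv]⟩
  have cv : C = Subgroup.closure (range fun j : Jn (cl Δ) (rp Δ) => v j) := by
    refine le_antisymm ?_ ((Subgroup.closure_le _).2 (range_subset_iff.2 fun j => vC j))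
    have b : ∀ γ, v γ ∈ Subgroup.closure (range fun j : Jn (cl Δ) (rp Δ) => v j) := fun γ => by
      by_cases k : rp Δ (cl Δ γ) = γ
      · rw [u_inj (a0 γ) (v := v γ) (v' := 1) (by simpa [k] using hv γ)]
        exact one_mem _
      · exact Subgroup.subset_closure ⟨⟨γ, k⟩, rfl⟩
    rw [hC, Subgroup.closure_le]
    rintro t ⟨γ, δ, hδ, e⟩
    have k : t * v γ = v (γ * δ) := u_inj (a0 (rp Δ (cl Δ γ))) (by
      have := hv (γ * δ)
      rw [cl, QuotientGroup.mk_mul_of_mem _ hδ] at this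
      rw [this, ← e, ← hv γ]
      simp [mul_assoc])
    exact (Subgroup.mul_mem_cancel_right _ (b γ)).1 (k ▸ b _)
  set x : Γ → ℝ := fun γ => 2 * (w (a γ u)).log with hx
  have xv : ∀ γ δ, 2 * (w (a δ (v γ : 𝓞 F))).log = x (δ * γ) - x (δ * rp Δ (cl Δ γ)) := fun γ δ => by
    simp only [hx, a_mul]
    rw [← hv γ, map_mul, map_mul, Real.log_mul (by simp) (by simpa using u0)]
    ring
  have g := gd Δ X hX x
  set P := ∏ φ ∈ X, ‖∑ γ, (φ γ : ℂ) * x γ‖
  have p0 : P ≠ 0 := Finset.prod_ne_zero_iff.2 fun φ k => norm_ne_zero_iff.2 (P0 φ k)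
  have ct : C ⊓ torsion F = ⊥ := eq_bot_iff.2 fun t ⟨h1, h2⟩ => by
    obtain ⟨n, rfl⟩ := Subgroup.mem_closure_range_iff_of_fintype.1 (cv ▸ h1)
    have z : (fun j => (n j : ℝ)) = 0 := eq_zero_of_vecMul_eq_zero
      (abs_ne_zero.1 (g ▸ p0)) (funext fun j => by
        have k := congrArg Real.log ((Units.mem_torsion F).1 h2 (w.comap (a j.1 : F →+* F)))
        simp only [vecMul, dotProduct, of_apply, ← xv, Pi.zero_apply]
        rw [Real.log_one] at k
        refine Eq.trans ?_ ((congrArg (2 * ·) k).trans (mul_zero 2))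
        have : ∀ y : (𝓞 F)ˣ, (w.comap (a j.1 : F →+* F)) y = w (a j.1 (y : 𝓞 F)) := fun _ => rfl
        simp only [Units.coe_prod, map_prod, Units.coe_zpow, map_zpow₀]
        rw [Real.log_prod fun i _ => by simp [zpow_ne_zero], Finset.mul_sum]
        exact Finset.sum_congr rfl fun i _ => by rw [Real.log_zpow, this]; ring)
    exact Finset.prod_eq_one fun j _ => by
      rw [show n j = 0 from Int.cast_eq_zero.1 (congrFun z j), zpow_zero]
  refine ⟨ck, ct, ?_⟩
  set d := Fintype.card Δ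
  have d0 : d ≠ 0 := Fintype.card_ne_zero
  set i : (𝓞 F')ˣ →* (𝓞 F)ˣ := Units.map (algebraMap (𝓞 F') (𝓞 F) : 𝓞 F' →* 𝓞 F)
  have ni : ∀ y, Nu F' F (i y) = y ^ d := fun y => Units.ext (by
    rw [Units.val_pow_eq_pow_val, show d = _ from h.rank.symm]
    exact RingOfIntegers.norm_algebraMap F' _)
  obtain ⟨ε, ε0, hε⟩ := ex_fund F' (Equiv.ofBijective _ h.bij') 1
  have k' := key F' (Equiv.ofBijective _ h.bij') 1 (fun c => powMonoidHom d (ε c)) (by simp [ε0])
  have k := key F ((eJ _ _ (cl_rp Δ)).trans (Equiv.ofBijective _ h.bij)) (.inr 1)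
    (Sum.elim (fun j => v j) fun c => i (ε c)) (by simp [ε0])
  have b := blk (cl_rp Δ) (of fun t δ => if t = .inr 1 then (2 : ℝ) else
    2 * (w (a δ (Sum.elim (fun j : Jn (cl Δ) (rp Δ) => v j) (fun c => i (ε c)) t : (𝓞 F)ˣ))).log)
    fun j c => by
      simp only [of_apply, reduceCtorEq, if_false, Sum.elim_inl]
      rw [h.sum_log, MonoidHom.mem_ker.1 (ck (vC j))]
      simp
  have b2 : (of fun c c' : Γ ⧸ Δ => ∑ δ with cl Δ δ = c', (of fun t δ => if t = .inr 1 then (2 : ℝ) else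
      2 * (w (a δ (Sum.elim (fun j : Jn (cl Δ) (rp Δ) => v j) (fun c => i (ε c)) t : (𝓞 F)ˣ))).log)
      (.inr c) δ) = of fun c c' => (if c = 1 then (d : ℝ) else 1) * (of fun c c' => if c = 1 then (2 : ℝ)
        else 2 * (Equiv.ofBijective _ h.bij' c' (powMonoidHom d (ε c) : (𝓞 F')ˣ)).log) c c' := by
    ext c c'
    simp only [of_apply, Sum.inr.injEq, Sum.elim_inr]
    split_ifs
    · rw [← cl_rp Δ c', sum_cl]; simp [d]
    · rw [h.sum_log, ni, one_mul]; rfl
  rw [b2, det_mul_column, Finset.prod_ite_eq'] at b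
  simp only [of_apply, reduceCtorEq, if_false, Sum.elim_inl, xv, Finset.mem_univ, if_true] at b
  replace k := k.trans (congrArg abs b)
  rw [abs_mul, abs_mul, g, ← k', Nat.abs_cast, Set.Sum.elim_range, Subgroup.closure_union, ← cv,
    sup_assoc, torsion, mp_sup i hε, torsion, mp_sup _ hε, ← sup_assoc,
    ← finrank_mul_finrank ℚ F' F, h.rank] at k
  have e := idx (Nu F' F) i d0 ni C ck ct
  have : Group.FG (𝓞 F')ˣ := Group.fg_iff_monoid_fg.2 inferInstance
  have := Subgroup.finiteIndex_range_powMonoidHom_of_fg (𝓞 F')ˣ d0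
  have i0 := (Subgroup.finiteIndex_of_le (le_sup_left : (powMonoidHom d).range ≤
    _ ⊔ CommGroup.torsion (𝓞 F')ˣ)).index_ne_zero
  have f0 : (finrank ℚ F' : ℝ) ≠ 0 := Nat.cast_ne_zero.2 finrank_pos.ne'
  have e' := congrArg (Nat.cast : ℕ → ℝ) e
  refine mul_left_cancel₀ (mul_ne_zero (mul_ne_zero f0 (Nat.cast_ne_zero.2 d0 : (d : ℝ) ≠ 0))
    (Nat.cast_ne_zero.2 i0)) ?_
  simp only [torsionOrder, torsion]
  push_cast at k e'
  linear_combination (Nat.card (CommGroup.torsion (𝓞 F)ˣ) * (Nu F' F).range.index : ℝ) * k -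
    (finrank ℚ F' * d * regulator F : ℝ) * e'

end Vale.Agent.P014X.An
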