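import Vale.Agent.P014X.An.Idx
import Vale.Agent.P014X.An.Cov

/-! # P014X, analytic block: the index and the regulators -/

set_option autoImplicit false
set_option linter.all false

open NumberField NumberField.Units Function
open scoped Classical

noncomputable section

namespace Vale.Agent.P014X.An

variable {p : ℕ} {F' F Γ : Type} [Field F'] [NumberField F'] [Field F] [NumberField F]
  [Algebra F' F] [CommGroup Γ] [Fintype Γ] {ρ : Γ →* (F ≃+* F)} {φ : F →+* ℂ} {σ : Γ} {u : F}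
  {X : Finset (Γ →* ℂˣ)}

namespace Cv

theorem pa (h : Cy p F' ρ φ σ u X) : Pa F' ρ (Subgroup.zpowers σ) (InfinitePlace.mk φ) where
  bij := h.bij
  fix x := by
    refine Iff.trans ⟨fun k => k σ (Subgroup.mem_zpowers σ), fun k δ hδ => ?_⟩ (h.fix x)
    obtain ⟨n, rfl⟩ := mem_powers_iff_mem_zpowers.2 hδ
    induction n with
    | zero => simp
    | succ n ih => simp only [pow_succ, a_mul, k] at ih ⊢; exact ih ⟨n, by simp⟩

theorem ex_v (h : Cy p F' ρ φ σ u X) (γ : Γ) (n : ℕ) :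
    ∃ v ∈ Cr ρ (ρ σ u / u), vU v * ρ γ u = ρ (γ * σ ^ n) u := by
  induction n with
  | zero => exact ⟨1, one_mem _, by simp [vU]⟩
  | succ n ih =>
    obtain ⟨v, hv, e⟩ := ih
    obtain ⟨c, hc⟩ := h.un (γ * σ ^ n)
    refine ⟨c * v, mul_mem (Subgroup.subset_closure ⟨_, hc⟩) hv, ?_⟩
    have : vU (c * v) = vU c * vU v := by simp [vU]
    rw [this, mul_assoc, e, hc, ← map_mul, div_mul_cancel₀ _ h.ne, ← a_mul, pow_succ, mul_assoc]

theorem cr_eq (h : Cy p F' ρ φ σ u X) : Cr ρ (ρ σ u / u) = Subgroup.closure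
    {v : (𝓞 F)ˣ | ∃ γ, ∃ δ ∈ Subgroup.zpowers σ, ((v : 𝓞 F) : F) * ρ γ u = ρ (γ * δ) u} := by
  refine le_antisymm (Subgroup.closure_mono ?_) ((Subgroup.closure_le _).2 ?_)
  · rintro v ⟨γ, e⟩
    refine ⟨γ, σ, Subgroup.mem_zpowers σ, ?_⟩
    show vU v * _ = _
    rw [e, ← map_mul, div_mul_cancel₀ _ h.ne, a_mul]
  · rintro v ⟨γ, δ, hδ, e⟩
    obtain ⟨n, rfl⟩ := mem_powers_iff_mem_zpowers.2 hδ
    obtain ⟨v', hv, e'⟩ := ex_v h γ n
    rwa [u_inj (x := ρ γ u) (by simpa using h.ne) (e.trans e'.symm)]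

theorem nU_idx {d : ℕ} (d0 : d ≠ 0) (h : Module.finrank F' F = d) : (nU F' F).range.index ≠ 0 := by
  have : Group.FG (𝓞 F')ˣ := Group.fg_iff_monoid_fg.2 inferInstance
  have := Subgroup.finiteIndex_range_powMonoidHom_of_fg (𝓞 F')ˣ d0
  refine (Subgroup.finiteIndex_of_le (H := (powMonoidHom d).range) ?_).index_ne_zero
  rintro _ ⟨y, rfl⟩
  refine ⟨iU F' F y, Units.ext ?_⟩
  rw [powMonoidHom_apply, Units.val_pow_eq_pow_val, ← h]
  exact RingOfIntegers.norm_algebraMap F' _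

end Cv

open Cv

/-- **the index of the module of units** -/
theorem rg (h : Cy p F' ρ φ σ u X) (h0 : ∀ χ ∈ X, xs ρ φ u χ ≠ 0) :
    Cr ρ (ρ σ u / u) ≤ (nU F' F).ker ∧ (∀ c ∈ Cr ρ (ρ σ u / u), c ∈ torsion F → c = 1) ∧
      (nU F' F).range.index ≠ 0 ∧
      ((Cr ρ (ρ σ u / u)).relIndex (nU F' F).ker : ℝ) * (regulator F / torsionOrder F) =
        (nU F' F).range.index * (regulator F' / torsionOrder F') * ∏ χ ∈ X, ‖2 * xs ρ φ u χ‖ := by
  have := h.cx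
  have e : ∀ χ : Γ →* ℂˣ, ∑ γ, (χ γ : ℂ) * (2 * (InfinitePlace.mk φ (ρ γ u)).log : ℝ) =
      2 * xs ρ φ u χ := fun χ => by
    rw [xs, Finset.mul_sum]
    exact Finset.sum_congr rfl fun γ _ => by rw [InfinitePlace.apply]; push_cast; ring
  obtain ⟨a, b, c⟩ := cov (pa h) h.ne (fun δ hδ => by
      obtain ⟨n, rfl⟩ := mem_powers_iff_mem_zpowers.2 hδ
      obtain ⟨v, -, k⟩ := ex_v h 1 n
      exact ⟨v, by simpa [vU] using k⟩) _ (cr_eq h) X
    (fun χ => by rw [h.X, Subgroup.zpowers_le, MonoidHom.mem_ker])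
    fun χ k => e χ ▸ mul_ne_zero two_ne_zero (h0 χ k)
  refine ⟨a, fun x k t => Subgroup.mem_bot.1 (b ▸ Subgroup.mem_inf.2 ⟨k, t⟩),
    nU_idx Fintype.card_ne_zero (pa h).rank, ?_⟩
  simp only [e] at c
  have t : (torsionOrder F : ℝ) ≠ 0 := Nat.cast_ne_zero.2 (torsionOrder_ne_zero F)
  have t' : (torsionOrder F' : ℝ) ≠ 0 := Nat.cast_ne_zero.2 (torsionOrder_ne_zero F')
  field_simp
  rw [show Nu F' F = nU F' F from rfl] at c
  linear_combination c

/-- the degree -/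
theorem Cy.rank (h : Cy p F' ρ φ σ u X) : Module.finrank F' F = p := by
  rw [(pa h).rank, ← h.ord, Fintype.card_zpowers]

theorem rg0 : RG0 := fun _ _ _ _ _ _ _ _ _ _ _ _ _ _ _ _ h h0 => ⟨h.rank, (rg h h0).1, (rg h h0).2.1⟩

theorem cov0 : COV := fun _ _ _ _ _ _ _ _ _ _ _ _ _ _ _ _ h h0 => rg h h0

end Vale.Agent.P014X.An
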