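import Vale.Agent.P014X.An.St

/-! # P014X, analytic block: the character sum of the elliptic unit -/

set_option autoImplicit false
set_option linter.all false

open NumberField QuadraticAlgebra
open scoped Classical

noncomputable section

namespace Vale.Agent.P014X.An

open Vale.Agent.P022 (Qb GQ)
open P027M.M (io)
open P004K (Un)
open P004M.TE (Pt ga ga_mul)
open Cd (Tv)

namespace Sm

/-- a family of representatives -/
def Tf (G K : Subgroup GQ) {J : Type} (s : J → GQ) : Prop :=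
  (∀ j, s j ∈ G) ∧ ∀ g ∈ G, ∃! j, (s j)⁻¹ * g ∈ K

variable {G H K : Subgroup GQ} {J J' : Type} {s : J → GQ} {s' : J' → GQ}

theorem tf {T : Finset GQ} (h : Tv G K T) : Tf G K fun i : T => i.1 :=
  ⟨fun j => h.1 _ j.2, fun g k => let ⟨x, a, b⟩ := h.2 g k
    ⟨⟨x, a.1⟩, a.2, fun y e => Subtype.ext (b _ ⟨y.2, e⟩)⟩⟩

theorem Tf.left (h : Tf G K s) {x : GQ} (k : x ∈ G) : Tf G K fun j => x * s j :=
  ⟨fun j => mul_mem k (h.1 j), fun g e => by
    simpa only [mul_inv_rev, mul_assoc] using h.2 _ (mul_mem (inv_mem k) e)⟩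

theorem Tf.prod (h : Tf G H s) (h' : Tf H K s') (a : H ≤ G) (b : K ≤ H) :
    Tf G K fun j : J × J' => s j.1 * s' j.2 :=
  ⟨fun j => mul_mem (h.1 _) (a (h'.1 _)), fun g e => by
    obtain ⟨i, u, v⟩ := h.2 g e
    obtain ⟨j, u', v'⟩ := h'.2 _ u
    refine ⟨(i, j), by simpa only [mul_inv_rev, mul_assoc] using u', fun y k => ?_⟩
    simp only [mul_inv_rev, mul_assoc] at k
    have e1 : y.1 = i := v _ (by simpa using mul_mem (h'.1 y.2) (b k))
    exact Prod.ext e1 (v' _ (by rwa [e1] at k))⟩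

theorem Tf.sum [Fintype J] [Fintype J'] (h : Tf G K s) (h' : Tf G K s') {f : GQ → ℂ}
    (i : ∀ g ∈ G, ∀ k ∈ K, f (g * k) = f g) : ∑ j, f (s j) = ∑ j, f (s' j) := by
  choose e e1 e2 using fun j => h'.2 _ (h.1 j)
  refine Fintype.sum_bijective e ⟨fun x y q => ?_, fun y => ?_⟩ _ _ fun j => ?_
  · refine (h.2 _ (h'.1 (e x))).unique (by simpa using inv_mem (e1 x)) ?_
    rw [q]
    simpa using inv_mem (e1 y)
  · obtain ⟨x, u, -⟩ := h.2 _ (h'.1 y)
    exact ⟨x, (e2 x y (by simpa using inv_mem u)).symm⟩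
  · rw [← i _ (h'.1 (e j)) _ (e1 j), mul_inv_cancel_left]

variable {A B : ℤ} {D : Cd A B} {m β γ ζ : D.O} {g g' : GQ}

/-- the complex embedding as a homomorphism -/
def JH (D : Cd A B) : D.O →+* ℂ := ((io : Qb →+* ℂ).comp (algebraMap (𝓞 Qb) Qb)).comp D.j

theorem J_inj (D : Cd A B) : Function.Injective (JH D) :=
  ((io : Qb →+* ℂ).injective.comp RingOfIntegers.coe_injective).comp D.inj

theorem J_mul (x y : D.O) : D.J (x * y) = D.J x * D.J y := map_mul (JH D) x y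

theorem J_add (x y : D.O) : D.J (x + y) = D.J x + D.J y := map_add (JH D) x y

theorem J_nat (n : ℕ) : D.J n = n := map_natCast (JH D) n

theorem J_ne (h : m ≠ 0) : D.J m ≠ 0 := (map_ne_zero_iff (JH D) (J_inj D)).2 h

theorem am (x y : D.O) (T : Pt A B) : D.act x (D.act y T) = D.act (x * y) T := by
  rw [map_mul]; rfl

theorem cq_mul (φ : D.G →* ℂˣ) (h : g ∈ D.G) (h' : g' ∈ D.G) :
    cq D φ (g * g') = cq D φ g * cq D φ g' := by
  rw [cq, cq, cq, dif_pos h, dif_pos h', dif_pos (mul_mem h h'), ← Units.val_mul, ← map_mul]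
  rfl

theorem cq_ne (φ : D.G →* ℂˣ) (h : g ∈ D.G) : cq D φ g ≠ 0 := by
  rw [cq, dif_pos h]
  exact Units.ne_zero _

theorem cop {a : ℕ} (h : IsCoprime (a : D.O) 6) : a.Coprime 6 := by
  obtain ⟨u, v, e⟩ := h
  have := congrArg QuadraticAlgebra.re e
  exact Nat.isCoprime_iff_coprime.1 ⟨u.re, v.re, by simpa using this⟩

theorem nl (m0 : m ≠ 0) (n : ¬ m ∣ β) (x : D.O) : D.J x ≠ D.J β / D.J m := fun e =>
  n ⟨x, J_inj D (by
    show D.J β = D.J (m * x)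
    rw [J_mul, e, mul_div_cancel₀ _ (J_ne m0)])⟩

theorem lg_eq (lgi : LGI) (m0 : m ≠ 0) (n : ¬ m ∣ β) (u : IsUnit ζ) (d : m ∣ γ - ζ * β) :
    lg (D.J ω) (D.J γ / D.J m) = lg (D.J ω) (D.J β / D.J m) := by
  obtain ⟨y, e⟩ := d
  rw [← lgi A B D _ ζ y (nl m0 n) u, sub_eq_iff_eq_add.1 e, J_add, J_mul, J_mul]
  congr 1
  field_simp [J_ne m0]
  ring

variable (D m) in
/-- the function on the group -/
def Fg (g : GQ) : ℝ := 2 * lg (D.J ω) (D.J (Classical.epsilon (D.Ac m g)) / D.J m)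

variable (C : D.Cf)
include C

theorem ac_eq (m0 : m ≠ 0) (h : D.Ac m g β) (h' : D.Ac m g γ) : m ∣ β - γ := by
  rw [← C.ker m m0, map_sub]
  exact sub_eq_zero.2 (h.2.symm.trans h'.2)

theorem ac_mul (h : D.Ac m g β) (h' : D.Ac m g' γ) : D.Ac m (g * g') (β * γ) :=
  ⟨mul_mem h.1 h'.1, by rw [ga_mul, h'.2, C.lin g h.1, h.2, am, mul_comm]⟩

theorem ac_cop (m0 : m ≠ 0) (h : D.Ac m g β) : IsCoprime β m := by
  obtain ⟨γ, c, k⟩ := C.ac m m0 g h.1
  obtain ⟨y, e⟩ := ac_eq C m0 h k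
  rw [sub_eq_iff_eq_add'.1 e]
  exact c.add_mul_left_left y

theorem fg_eq (lgi : LGI) (m0 : m ≠ 0) (nu : ¬ IsUnit m) (u : IsUnit ζ) (h : D.Ac m g (ζ * β)) :
    Fg D m g = 2 * lg (D.J ω) (D.J β / D.J m) := by
  rw [Fg, lg_eq lgi m0 (fun d => nu ?_) u (ac_eq C m0 (Classical.epsilon_spec ⟨_, h⟩) h)]
  exact (ac_cop C m0 h).of_mul_left_right.symm.isUnit_of_dvd d

theorem fg_inv (lgi : LGI) (m0 : m ≠ 0) (nu : ¬ IsUnit m) (h : g ∈ D.G) (k : g' ∈ D.Hm m) :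
    Fg D m (g * g') = Fg D m g := by
  obtain ⟨ζ, u, a⟩ := (C.hm m m0 _).1 k
  obtain ⟨β, -, b⟩ := C.ac m m0 g h
  rw [fg_eq C lgi m0 nu u (β := β) (mul_comm β ζ ▸ ac_mul C b a),
    fg_eq C lgi m0 nu isUnit_one (β := β) (by rwa [one_mul])]

theorem log_un (thl : THL) (lgi : LGI) (E : D.Eu) {p a : ℕ} (ad : D.Ad p a m) (nu : ¬ IsUnit m)
    (u : IsUnit ζ) (h : D.Ac m g (ζ * a)) (k : g' ∈ D.G) :
    Real.log ‖io (g' (D.un a m))‖ = a ^ 2 * Fg D m g' - Fg D m (g * g') := by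
  obtain ⟨β, c, b⟩ := C.ac m ad.ne g' k
  have c6 := ad.cop.of_mul_right_left
  have n : ∀ {x}, IsCoprime x m → D.act x (D.tp m) ≠ 0 := fun c e =>
    nu (c.symm.isUnit_of_dvd ((C.ker m ad.ne _).1 e))
  have cm := ad.cop.of_mul_right_right
  rw [Cd.un, E.gal a c6 _ (n cm) g' k, b.2, thl A B D C E a (cop c6) (D.J β / D.J m) _ ?_
    (by rw [am]; exact n (cm.mul_left c)), fg_eq C lgi ad.ne nu isUnit_one (β := β) (by rwa [one_mul]),
    fg_eq C lgi ad.ne nu u (β := (a : D.O) * β) (mul_assoc ζ _ _ ▸ ac_mul C h b), J_mul, J_nat,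
    mul_div_assoc]
  · ring
  · have := D.uact β _ _ (D.utp m ad.ne)
    rwa [← mul_div_assoc, mul_comm, mul_div_assoc] at this

end Sm

open Sm

theorem sum0 (thl : THL) (lgi : LGI) : SUM := by
  intro A B D C E p a m T b hp S ad R H T₁ T₂ g ζ φ hG hm t1 t2 u h k
  have one : ∀ x ∈ H, cq D φ x = 1 := fun x e => by
    rw [cq, dif_pos (hG e), k _ e, Units.val_one]
  have ci : ∀ x ∈ D.G, ∀ y ∈ H, cq D φ (x * y) = cq D φ x := fun x e y f => by
    rw [cq_mul φ e (hG f), one y f, mul_one]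
  have i0 : ∀ x ∈ D.G, ∀ y ∈ D.Hm m, cq D φ (x * y) * (Fg D m (x * y) : ℂ) =
      cq D φ x * Fg D m x := fun x e y f => by
    rw [ci x e y (hm f), fg_inv C lgi R.ne R.nu e f]
  have P := (tf t1).prod (tf t2) hG hm
  have c : ∀ {J : Type} [Fintype J] {s : J → GQ}, Tf D.G (D.Hm m) s →
      ∑ j, cq D φ (s j) * (Fg D m (s j) : ℂ) = c0 D m T b φ := fun q => by
    rw [q.sum (f := fun x => cq D φ x * (Fg D m x : ℂ)) (tf R.tv) i0, c0, ← Finset.sum_coe_sort T]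
    refine Finset.sum_congr rfl fun j _ => ?_
    rw [fg_eq C lgi R.ne R.nu isUnit_one (β := b j) (by rw [one_mul]; exact R.ac _ j.2)]
  rw [sub_mul, ← Finset.sum_coe_sort T₁]
  nth_rw 2 [← c (P.left h.1)]
  rw [← c P, Finset.mul_sum, Finset.mul_sum, ← Finset.sum_sub_distrib, Fintype.sum_prod_type]
  refine Finset.sum_congr rfl fun t _ => ?_
  rw [map_prod, map_prod, norm_prod, Real.log_prod fun s _ => norm_ne_zero_iff.2
    ((map_ne_zero io).2 ((map_ne_zero _).2 ((map_ne_zero _).2 (S.ne _ _ ad)))),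
    Complex.ofReal_sum, Finset.mul_sum, ← Finset.sum_coe_sort T₂]
  refine Finset.sum_congr rfl fun s _ => ?_
  have q := P.1 (t, s)
  rw [← AlgEquiv.mul_apply, log_un C thl lgi E ad R.nu u h q, cq_mul φ h.1 q,
    ci _ (t1.1 _ t.2) _ (t2.1 _ s.2)]
  push_cast
  field_simp [cq_ne φ h.1]

end Vale.Agent.P014X.An
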