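import Vale.Agent.P014X.An.St
import Vale.Agent.P014X.Eu.Th

/-! # P014X: the function is the square of the smoothed theta function (helper19) -/

set_option autoImplicit false
set_option linter.all false

open Finset QuadraticAlgebra
open scoped Classical

noncomputable section

namespace Vale.Agent.P014X.An

open Vale.Agent.P022 (Qb)
open P014T P014T.Sg Eu
open P027H (mem_of_eq)
open P027M.M (io)
open P004M.TE (Pt)
open P004K (Un)

namespace Thl

variable {τ z : ℂ}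

theorem th_q (h : 0 < τ.im) (m n : ℤ) :
    ∃ a b : ℂ, a ≠ 0 ∧ ∀ z, th τ (z + (m * τ + n)) = a * Sg.ee (b * z) * th τ z := by
  refine AddSubgroup.closure_induction (k := {τ, 1})
    (p := fun l _ => ∃ a b : ℂ, a ≠ 0 ∧ ∀ z, th τ (z + l) = a * Sg.ee (b * z) * th τ z) (fun l k => ?_)
    ⟨1, 0, one_ne_zero, by simp [ee_zero]⟩
    (fun l l' _ _ ⟨a, b, n, e⟩ ⟨a', b', n', e'⟩ => ⟨a * a' * Sg.ee (b' * l), b + b',
      mul_ne_zero (mul_ne_zero n n') (ee_ne _), fun z => by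
        rw [← add_assoc, e', e, mul_add, add_mul, ee_add, ee_add]; ring⟩)
    (fun l _ ⟨a, b, n, e⟩ => ⟨Sg.ee (b * l) / a, -b, div_ne_zero (ee_ne _) n, fun z => ?_⟩) ?_
  · rcases k with rfl | rfl
    · exact ⟨-Sg.ee (-l / 2), -1, neg_ne_zero.2 (ee_ne _), fun z =>
        (th_tau h z).trans (by rw [neg_mul, neg_mul, neg_mul, ← ee_add]; congr 3; ring)⟩
    · exact ⟨-1, 0, neg_ne_zero.2 one_ne_zero, fun z => (th_one z).trans (by simp [ee_zero])⟩
  · have q := e (z + -l)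
    rw [neg_add_cancel_right, mul_add, mul_neg, ee_add, ee_neg] at q
    rw [q, neg_mul, ee_neg]
    field_simp [ee_ne]
  · rw [← mul_one (n : ℂ), ← zsmul_eq_mul, ← zsmul_eq_mul]
    exact add_mem (zsmul_mem (AddSubgroup.subset_closure (by simp)) _)
      (zsmul_mem (AddSubgroup.subset_closure (by simp)) _)

theorem th_0 (h : 0 < τ.im) (k : ¬ Nl τ z) : th τ z = 0 ∧ deriv (th τ) z ≠ 0 := by
  obtain ⟨m, n, rfl⟩ := not_not.1 k
  obtain ⟨a, b, n, e⟩ := th_q h m n
  have d := (((ee_der _).comp (0 : ℂ) ((hasDerivAt_id (0 : ℂ)).const_mul b)).const_mul a).mul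
    (th_der h)
  have := (d.congr_of_eventuallyEq (.of_forall e)).deriv
  rw [deriv_comp_add_const, zero_add, th_zero h, mul_zero, zero_add] at this
  refine ⟨by simpa [th_zero h] using e 0, this ▸ mul_ne_zero (mul_ne_zero n (ee_ne _))
    (mul_ne_zero (neg_ne_zero.2 Complex.two_pi_I_ne_zero) (pow_ne_zero _ (pp_ne h)))⟩

theorem ord (h : 0 < τ.im) {c : ℂ} (c0 : c ≠ 0) (z : ℂ) :
    meromorphicOrderAt (fun w => th τ (c * w)) z = ind (¬ Nl τ (c * z)) := by
  have a := (th_dz h).analyticAt (c * z)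
  refine (meromorphicOrderAt_comp_of_deriv_ne_zero (f := th τ) (g := fun w => c * w) (by fun_prop)
    (by simpa using c0)).trans ?_
  by_cases k : Nl τ (c * z)
  · rw [ind_neg (not_not.2 k)]
    exact a.meromorphicNFAt.meromorphicOrderAt_eq_zero_iff.2 (th_ne h k)
  · rw [ind_pos k, a.meromorphicOrderAt_eq,
      a.analyticOrderAt_eq_one_of_zero_deriv_ne_zero (th_0 h k).1 (th_0 h k).2]
    rfl

variable {A B : ℤ} {D : Cd A B} {a : ℕ} {Q : Pt A B}

theorem nl : Nl (D.J ω) z ↔ D.Ω * z ∉ D.L := not_congr (by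
  rw [mem_L]
  exact ⟨fun ⟨m, n, e⟩ => ⟨⟨n, m⟩, by rw [J_mk, ← e, add_comm]⟩, fun ⟨x, e⟩ => ⟨x.im, x.re, by
    rw [mul_left_cancel₀ D.Ω0 e, add_comm, ← J_mk]⟩⟩)

theorem hi (D : Cd A B) : 0 < (D.J ω).im := D.im

theorem J_nat (n : ℕ) : D.J n = n := map_natCast (Jh D) n

theorem nl_of (u : Un D.L (D.Ω * z) Q) (q : D.act a Q ≠ 0) : Nl (D.J ω) (a * z) :=
  nl.2 fun m => q ((un_zero (un_act a u)).2 (mem_of_eq m (by rw [J_nat]; ring)))

theorem c24 (h : a.Coprime 6) : a ^ 2 % 24 = 1 := by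
  have a2 : ¬ 2 ∣ a := fun d => by simpa using (h.coprime_dvd_left d).coprime_dvd_right (by decide : 2 ∣ 6)
  have a3 : ¬ 3 ∣ a := fun d => by simpa using (h.coprime_dvd_left d).coprime_dvd_right (by decide : 3 ∣ 6)
  rw [Nat.pow_mod]
  have : a % 24 < 24 := Nat.mod_lt _ (by decide)
  generalize e : a % 24 = r at this
  interval_cases r <;> first | rfl | omega

theorem el_Gc (h : a.Coprime 6) : El D.L (fun w => Gc a (D.J ω) (D.Ω⁻¹ * w))
    fun w => a ^ 2 * ind (w ∈ D.L) - ind (D.J a * w ∈ D.L) := by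
  have a0 : (a : ℂ) ≠ 0 := Nat.cast_ne_zero.2 (by rintro rfl; simp at h)
  have w0 := D.Ω0
  have dz := th_dz (hi D)
  have m : ∀ c z : ℂ, MeromorphicAt (fun w => th (D.J ω) (c * w)) z := fun c z =>
    (Differentiable.analyticAt (by fun_prop) z).meromorphicAt
  simp only [Gc, ← mul_assoc]
  refine ⟨fun z => ((MeromorphicAt.const _ z).mul ((m _ z).pow _)).div (m _ z), fun z => ?_,
    fun l k z => ?_⟩
  · refine (meromorphicOrderAt_div ((MeromorphicAt.const _ z).mul ((m _ z).pow _)) (m _ z)).trans ?_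
    rw [meromorphicOrderAt_mul (.const _ z) ((m _ z).pow _), meromorphicOrderAt_pow (m _ z),
      ord (hi D) (inv_ne_zero w0), ord (hi D) (mul_ne_zero a0 (inv_ne_zero w0)), nl, nl, not_not, not_not,
      mul_inv_cancel_left₀ w0, show D.Ω * (a * D.Ω⁻¹ * z) = D.J a * z by rw [J_nat]; field_simp,
      meromorphicOrderAt_const, if_neg (ee_ne _), zero_add]
    norm_cast
  · obtain ⟨m, n, e⟩ := not_not.1 (mt (nl (D := D) (z := D.Ω⁻¹ * l)).1 (by
      rwa [mul_inv_cancel_left₀ w0, not_not]))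
    have := Gc_lat (c24 h) (hi D) (D.Ω⁻¹ * z) m n
    rw [e, ← mul_add] at this
    simpa only [Gc, ← mul_assoc] using this

theorem cop (h : a.Coprime 6) : IsCoprime (a : D.O) 6 := by
  exact_mod_cast (Nat.isCoprime_iff_coprime.2 h).map (Int.castRingHom D.O)

theorem ex_c (C : D.Cf) (E : D.Eu) (h : a.Coprime 6) : ∃ κ ≠ 0, ∀ z Q, Un D.L (D.Ω * z) Q →
    D.act a Q ≠ 0 → io (D.th a Q) = κ * Gc a (D.J ω) z ^ 2 := by
  obtain ⟨k, k0, e⟩ := (E.th a (cop h)).eq
  obtain ⟨κ, n, f⟩ := ((((el_Gc (D := D) h).pow 2).mul (el_fa C (ne6 (cop h)) (cop2 (cop h)))).congr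
    fun z => by rw [nm_nat]; push_cast; ring).liou (lat D) el_one
  refine ⟨io k / κ, div_ne_zero ((map_ne_zero io).2 k0) n, fun z Q u q => ?_⟩
  have w0 := D.Ω0
  have dz := (th_dz (hi D)).continuous
  have c : ContinuousAt (fun w => Gc a (D.J ω) (D.Ω⁻¹ * w)) (D.Ω * z) := by
    unfold Gc
    refine ContinuousAt.div (by fun_prop) (by fun_prop) (th_ne (hi D) ?_)
    rw [inv_mul_cancel_left₀ w0]
    exact nl_of u q
  have b := f (D.Ω * z) ((c.pow 2).mul (fa_an _ (mt (un_zero u).2 (ne_0 q))).continuousAt)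
    continuousAt_const
  rw [inv_mul_cancel_left₀ w0, mul_one] at b
  rw [← e Q q, map_mul, ← b, ← un_fq _ u, fq]
  have := Gc_ne (hi D) (nl_of u q)
  have := (map_ne_zero io).2 (fq_ne C (ne6 (cop h)) q)
  rw [fq] at this
  field_simp

/-- the points of order `n` -/
theorem prod_tor (C : D.Cf) {n : ℕ} (n0 : n ≠ 0) (f : Pt A B → ℂ) : ∏ T ∈ D.tor n, f T =
    ∏ i ∈ range n, ∏ j ∈ range n, f (D.act ⟨j, i⟩ (D.tp n)) := by
  have m0 : (n : D.O) ≠ 0 := fun e => n0 (by simpa using congrArg re e)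
  have i : Set.InjOn (fun p : ℕ × ℕ => D.act ⟨p.2, p.1⟩ (D.tp n)) (range n ×ˢ range n : Finset _) :=
    fun p hp q hq e => by
      obtain ⟨x, e⟩ := (C.ker n m0 (⟨p.2, p.1⟩ - ⟨q.2, q.1⟩)).1 (by
        rw [map_sub]; exact sub_eq_zero.2 e)
      simp only [coe_product, coe_range, Set.mem_prod, Set.mem_Iio] at hp hq
      have s : ∀ {u v : ℕ} {y : ℤ}, u < n → v < n → (u : ℤ) - v = n * y → u = v := fun a b e => by
        have := Int.eq_zero_of_abs_lt_dvd ⟨_, e⟩ (abs_lt.2 ⟨by omega, by omega⟩)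
        omega
      exact Prod.ext (s hp.1 hq.1 (by simpa using congrArg im e))
        (s hp.2 hq.2 (by simpa using congrArg re e))
  rw [← prod_product', ← eq_of_subset_of_card_le (image_subset_iff.2 fun p _ =>
    (C.gen n m0 _).2 ⟨_, rfl⟩) (by
      rw [card_image_of_injOn i, card_product, card_range, C.crd n m0, nm_nat, sq]), prod_image i]

end Thl

open Thl

/-- **the function is the square of the smoothed theta function** -/
theorem th_Gc {A B : ℤ} {D : Cd A B} (C : D.Cf) (E : D.Eu) {a : ℕ} (h : a.Coprime 6) {z : ℂ}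
    {Q : Pt A B} (u : Un D.L (D.Ω * z) Q) (q : D.act a Q ≠ 0) :
    io (D.th a Q) = Gc a (D.J ω) z ^ 2 := by
  obtain ⟨κ, k0, e⟩ := ex_c C E h
  have t : ∀ n : ℕ, n ∣ 6 → κ ^ n ^ 2 = κ := fun n d => by
    have n0 : n ≠ 0 := by rintro rfl; simp at d
    have n1 : (n : ℂ) ≠ 0 := Nat.cast_ne_zero.2 n0
    have m0 : (n : D.O) ≠ 0 := fun e => n0 (by simpa using congrArg re e)
    have w0 := D.Ω0
    obtain ⟨Q, q⟩ := ex_pt C (mul_ne (ne6 (cop h)) m0)
    obtain ⟨z, u⟩ : ∃ z, Un D.L (D.Ω * z) Q := ⟨zz D Q / D.Ω, by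
      rw [mul_div_cancel₀ _ w0]; exact un_zz D Q⟩
    have q' : D.act a (D.act n Q) ≠ 0 := by rwa [← act_mul]
    have u' : Un D.L (D.Ω * (n * z)) (D.act n Q) := by
      rw [mul_left_comm, ← J_nat (D := D)]; exact un_act n u
    have := congrArg io ((E.th a (cop h)).dis n m0
      ((cop h).symm.of_isCoprime_of_dvd_left (by exact_mod_cast Nat.cast_dvd_cast d)) Q q)
    have v : ∀ i j : ℕ, io (D.th a (Q + D.act ⟨j, i⟩ (D.tp n))) =
        κ * Gc a (D.J ω) (z + i * D.J ω / n + j / n) ^ 2 := fun i j => by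
      have := un_add u (un_act ⟨j, i⟩ (D.utp n m0))
      rw [J_mk, show io (D.j n : Qb) = n from J_nat n,
        show D.Ω * z + (((j : ℤ) : ℂ) + (i : ℤ) * D.J ω) * (D.Ω / n) =
          D.Ω * (z + i * D.J ω / n + j / n) by push_cast; ring] at this
      exact e _ _ this (ne_add C m0 ((C.gen n m0 _).2 ⟨_, rfl⟩) q)
    rw [map_prod, prod_tor C n0, e _ _ u' q', ← dist (c24 h) (hi D) (Nat.pos_of_ne_zero n0)
      (h.coprime_dvd_right d).symm] at this
    simp only [v, prod_mul_distrib, prod_pow, prod_const, card_range, ← pow_mul, ← sq] at this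
    refine mul_right_cancel₀ (pow_ne_zero 2 ?_) this
    rw [dist (c24 h) (hi D) (Nat.pos_of_ne_zero n0) (h.coprime_dvd_right d).symm]
    exact Gc_ne (hi D) (nl_of u' q')
  rw [e z Q u q, show κ = 1 from mul_left_cancel₀ k0 (by
    linear_combination (1 + κ ^ 6 + κ ^ 3) * t 2 (by decide) - κ * t 3 (by decide)), one_mul]

theorem thl : THL := fun A B D C E a h z Q u q => by
  rw [th_Gc C E h u q, norm_pow, Real.log_pow, log_Gc (hi D) a (nl_of u q)]
  rfl

end Vale.Agent.P014X.An
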