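import Vale.Agent.P014X.An.St

/-! # P014X, analytic block: the quotient `σ u / u` is a unit -/

set_option autoImplicit false
set_option linter.all false

open NumberField IsDedekindDomain
open scoped Classical

noncomputable section

namespace Vale.Agent.P014X.An

open Vale.Agent.P022 (Qb GQ GK)
open Vale.Agent.P022D.W (dec)
open Vale.Agent.P022E.GW (Ov)

namespace Uni

/-- integral at `P` -/
def Io (P : Ideal (𝓞 Qb)) (x : Qb) : Prop := ∃ s t : 𝓞 Qb, s ∉ P ∧ (s : Qb) * x = t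

/-- the conjugate prime -/
def cm (g : GQ) (P : Ideal (𝓞 Qb)) : Ideal (𝓞 Qb) :=
  P.comap (MulSemiringAction.toRingHom GQ (𝓞 Qb) g)

variable {P : Ideal (𝓞 Qb)} {x y : Qb}

theorem io_mul (hP : P.IsPrime) : Io P x → Io P y → Io P (x * y)
  | ⟨s, t, a, b⟩, ⟨s', t', a', b'⟩ => ⟨s * s', t * t', fun h => (hP.mem_or_mem h).elim a a', by
      rw [RingOfIntegers.coe_eq_algebraMap, RingOfIntegers.coe_eq_algebraMap] at *
      rw [map_mul, map_mul, ← b, ← b']
      ring⟩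

theorem io_prod (hP : P.IsPrime) {ι : Type} (T : Finset ι) (f : ι → Qb)
    (h : ∀ i ∈ T, Io P (f i)) : Io P (∏ i ∈ T, f i) :=
  Finset.prod_induction f (Io P) (fun _ _ => io_mul hP) ⟨1, 1, hP.one_notMem, by simp⟩ h

theorem io_g (g : GQ) : Io (cm g P) x → Io P (g x)
  | ⟨s, t, a, b⟩ => ⟨g • s, g • t, a, (map_mul g (s : Qb) x).symm.trans (congrArg g b)⟩

theorem io_d {d : GQ} (h : d ∈ dec P) (k : Io P x) : Io P (d x) :=
  io_g d ((Ideal.ext h : cm d P = P).symm ▸ k)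

theorem ov_cm {l : ℕ} (o : Ov l P) (g : GQ) : Ov l (cm g P) :=
  ⟨o.1, haveI := o.2.1; Ideal.comap_isPrime _ _, Ideal.mem_comap.2 (by rw [map_natCast]; exact o.2.2)⟩

theorem io_uo (x0 : x ≠ 0) : Cd.Uo P x → Io P x ∧ Io P x⁻¹
  | ⟨s, t, a, b, c⟩ => ⟨⟨s, t, a, c⟩, t, s, b, by rw [← c, mul_inv_cancel_right₀ x0]⟩

theorem ex_ov (hP : P.IsMaximal) : ∃ l, Ov l P := by
  have m := Ideal.isMaximal_comap_of_isIntegral_of_isMaximal (R := ℤ) P
  obtain ⟨z, hz, z0⟩ := Submodule.exists_mem_ne_zero_of_ne_bot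
    (Ring.ne_bot_of_isMaximal_of_not_isField m Int.not_isField)
  have h : ((z.natAbs : ℕ) : 𝓞 Qb) ∈ P := by
    have : (z : 𝓞 Qb) ∈ P := by simpa using Ideal.mem_comap.1 hz
    rw [← Int.cast_natCast, Int.natCast_natAbs]
    rcases abs_choice z with e | e <;> rw [e]
    exacts [this, by rw [Int.cast_neg]; exact P.neg_mem this]
  have hn := Int.natAbs_ne_zero.2 z0
  generalize z.natAbs = n at h hn
  induction n using induction_on_primes with
  | zero => exact absurd rfl hn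
  | one => exact absurd (by simpa using h) hP.isPrime.one_notMem
  | prime_mul p a hp ih =>
    rw [Nat.cast_mul] at h
    exact (hP.isPrime.mem_or_mem h).elim (fun k => ⟨p, hp, hP.isPrime, k⟩)
      fun k => ih k (right_ne_zero_of_mul hn)

theorem int_of (h : ∀ l P, Ov l P → Io P x) : IsIntegral ℤ x := by
  let I : Ideal (𝓞 Qb) :=
    { carrier := {s | IsIntegral ℤ ((s : Qb) * x)}
      add_mem' := fun {a b} ha hb => by
        show IsIntegral ℤ (algebraMap _ Qb (a + b) * x)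
        rw [map_add, add_mul]
        exact IsIntegral.add ha hb
      zero_mem' := by
        show IsIntegral ℤ (algebraMap _ Qb 0 * x)
        rw [map_zero, zero_mul]
        exact isIntegral_zero
      smul_mem' := fun c a ha => by
        show IsIntegral ℤ (algebraMap _ Qb (c * a) * x)
        rw [map_mul, mul_assoc]
        exact IsIntegral.mul c.isIntegral_coe ha }
  have e : I = ⊤ := by_contra fun n => by
    obtain ⟨P, hP, le⟩ := Ideal.exists_le_maximal I n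
    obtain ⟨l, o⟩ := ex_ov hP
    obtain ⟨s, t, a, b⟩ := h l P o
    exact a (le (show IsIntegral ℤ ((s : Qb) * x) from b ▸ t.isIntegral_coe))
  have : IsIntegral ℤ (algebraMap (𝓞 Qb) Qb 1 * x) := (e ▸ Submodule.mem_top : (1 : 𝓞 Qb) ∈ I)
  rwa [map_one, one_mul] at this

theorem dich {l : ℕ} (o : Ov l P) {F : Type} [Field F] [NumberField F] (j : F →+* Qb) {z : F}
    (z0 : z ≠ 0) : Io P (j z) ∨ Io P (j z)⁻¹ := by
  have := o.2.1
  let w : HeightOneSpectrum (𝓞 F) := ⟨P.comap (RingOfIntegers.mapRingHom j),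
    Ideal.comap_isPrime _ _, fun e => Nat.cast_ne_zero.2 o.1.ne_zero (Ideal.mem_bot.1 (e ▸
      (Ideal.mem_comap.2 (by rw [map_natCast]; exact o.2.2) :
        (l : 𝓞 F) ∈ P.comap (RingOfIntegers.mapRingHom j))))⟩
  obtain ⟨n, d, e⟩ := w.exists_primeCompl_mul_eq_or_mul_eq z
  have j0 := (map_ne_zero j).2 z0
  refine e.imp (fun e => ⟨_, RingOfIntegers.mapRingHom j n, d.2, ?_⟩)
    fun e => ⟨_, RingOfIntegers.mapRingHom j n, d.2, ?_⟩
  · exact (mul_comm _ _).trans ((map_mul j _ _).symm.trans (congrArg j e))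
  · have : j z * _ = _ := (map_mul j _ _).symm.trans (congrArg j e)
    exact (mul_inv_eq_iff_eq_mul₀ j0).2 (this.symm.trans (mul_comm _ _))

theorem inv_of (hP : P.IsPrime) {d : GQ} (h : d ∈ dec P) {n : ℕ}
    (e : ∏ i ∈ Finset.range (n + 1), (d ^ i) y = 1) (k : Io P y) : Io P y⁻¹ := by
  rw [Finset.prod_range_succ', pow_zero, AlgEquiv.one_apply] at e
  rw [← eq_inv_of_mul_eq_one_left e]
  exact io_prod hP _ _ fun i _ => io_d (pow_mem h _) k

theorem tel (d : GQ) (x0 : x ≠ 0) (n : ℕ) :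
    ∏ i ∈ Finset.range n, (d ^ i) (d x / x) = (d ^ n) x / x := by
  induction n with
  | zero => simp [x0]
  | succ n ih =>
    rw [Finset.prod_range_succ, ih, map_div₀, ← AlgEquiv.mul_apply, ← pow_succ, mul_comm,
      div_mul_div_cancel₀ ((map_ne_zero _).2 x0)]

theorem both (hP : P.IsPrime) {d : GQ} (h : d ∈ dec P) (x0 : x ≠ 0) {n : ℕ} (n0 : n ≠ 0)
    (e : (d ^ n) x = x) (k : Io P (d x / x) ∨ Io P (d x / x)⁻¹) :
    Io P (d x / x) ∧ Io P (d x / x)⁻¹ := by
  obtain ⟨n, rfl⟩ := Nat.exists_eq_succ_of_ne_zero n0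
  have t := tel d x0 (n + 1)
  rw [e, div_self x0] at t
  refine k.elim (fun k => ⟨k, inv_of hP h t k⟩) fun k => ⟨?_, k⟩
  rw [← inv_inv (d x / x)]
  refine inv_of hP h (n := n) ?_ k
  simp only [map_inv₀, Finset.prod_inv_distrib, t, inv_one]

theorem ex_unit {F : Type} [Field F] (j : F →+* Qb) {z : F} (z0 : z ≠ 0)
    (a : IsIntegral ℤ (j z)) (b : IsIntegral ℤ (j z)⁻¹) : ∃ v, vU v = z := by
  rw [← map_inv₀] at b
  have k := fun y => isIntegral_algHom_iff j.toIntAlgHom j.injective (x := y)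
  exact ⟨⟨⟨z, (k _).1 a⟩, ⟨z⁻¹, (k _).1 b⟩, RingOfIntegers.ext (mul_inv_cancel₀ z0),
    RingOfIntegers.ext (inv_mul_cancel₀ z0)⟩, rfl⟩

end Uni

open Uni

theorem uni (gal : GAL) : UNI := by
  intro A B D C p a m hp E ad F' F _ _ _ _ _ jF σ T u h tv e
  have le : GK jF ≤ D.G := fun g k => h.G fun x => k _
  obtain ⟨-, -, -, -, -, Γ, _, _, π, ρ, -, ker, act, -⟩ := gal A B D C m ad.ne F jF le h.hm
  have n0 := E.ne a m ad
  have x0 : jF u ≠ 0 := e ▸ Finset.prod_ne_zero_iff.2 fun s _ => (map_ne_zero _).2 n0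
  have u0 := (map_ne_zero jF).1 x0
  let s : D.G := ⟨σ, h.G h.s0⟩
  have z0 : ρ (π s) u / u ≠ 0 := div_ne_zero ((map_ne_zero _).2 u0) u0
  have ez : jF (ρ (π s) u / u) = σ (jF u) / jF u := by rw [map_div₀, act]
  have key : ∀ l P, Ov l P → Io P (σ (jF u) / jF u) ∧ Io P (σ (jF u) / jF u)⁻¹ := by
    intro l P o
    by_cases lp : l = p
    · obtain ⟨c, hc⟩ := ad.dv
      obtain ⟨g, gd, g', gn⟩ := h.ns P o.2.1 (by
        rw [hc, map_mul, map_pow, map_natCast, sq, mul_assoc]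
        exact P.mul_mem_right _ (lp ▸ o.2.2))
      obtain ⟨i, hi⟩ := h.gen g g'
      let t : D.G := ⟨g, h.G g'⟩
      have e1 : π s ^ i = π t := by
        rw [← inv_mul_eq_one, ← map_pow, ← map_inv, ← map_mul]
        exact (ker _).2 hi
      have e2 : π s ^ p = 1 := by
        rw [← map_pow]
        exact (ker _).2 h.sp
      have co : i.Coprime p := ((Nat.Prime.coprime_iff_not_dvd hp).2 fun ⟨k, b⟩ =>
        gn ((ker t).1 (by rw [← e1, b, pow_mul, e2, one_pow]))).symm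
      obtain ⟨k, hk⟩ := exists_pow_eq_self_of_coprime
        (co.coprime_dvd_right (orderOf_dvd_of_pow_eq_one e2))
      rw [e1, ← map_pow] at hk
      have e3 : σ (jF u) = (g ^ k) (jF u) := by
        rw [← show jF (ρ (π s) u) = σ (jF u) from act s u, ← hk]
        exact act (t ^ k) u
      have e4 : ((g ^ k) ^ p) (jF u) = jF u :=
        (ker ((t ^ k) ^ p)).1 (by rw [map_pow, hk, e2]) u
      have := dich o jF z0
      rw [ez] at this
      rw [e3] at this ⊢
      exact both o.2.1 (pow_mem gd k) x0 hp.ne_zero e4 this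
    · have k : ∀ P, Ov l P → Io P (jF u) ∧ Io P (jF u)⁻¹ := fun P o => by
        have k := fun s => io_uo n0 (E.unit a m ad l _ (ov_cm o s) lp)
        rw [e, ← Finset.prod_inv_distrib]
        exact ⟨io_prod o.2.1 _ _ fun s _ => io_g s (k s).1,
          io_prod o.2.1 _ _ fun s _ => map_inv₀ s _ ▸ io_g s (k s).2⟩
      rw [inv_div, div_eq_mul_inv, div_eq_mul_inv, ← map_inv₀ σ]
      exact ⟨io_mul o.2.1 (io_g σ (k _ (ov_cm o σ)).1) (k P o).2,
        io_mul o.2.1 (k P o).1 (io_g σ (k _ (ov_cm o σ)).2)⟩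
  obtain ⟨v, hv⟩ := ex_unit jF z0 (ez ▸ int_of fun l P o => (key l P o).1)
    (ez ▸ int_of fun l P o => (key l P o).2)
  refine ⟨u0, fun g hg => ⟨Units.map (RingOfIntegers.mapRingHom
    (ρ (π ⟨g, hg⟩)).toRingHom).toMonoidHom v, ?_⟩⟩
  rw [← ez, ← hv]
  exact act ⟨g, hg⟩ _

end Vale.Agent.P014X.An
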