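import Vale.Agent.P014X.An.Idx
import Vale.Agent.P014X.An.Gal
import Vale.Agent.P014X.An.Rye
import Vale.Agent.P014X.An.Cnf0
import Vale.Agent.P014X.An.Fe0
import Vale.Agent.P014X.An.Lfa
import Vale.Agent.P014X.An.Loc
import Vale.Agent.P014X.An.Uni
import Vale.Agent.P014X.An.Sum
import Vale.Agent.P014X.An.Thl
import Vale.Agent.P014X.An.Lgi
import Vale.Agent.P014X.An.Smo
import Vale.Agent.P014X.An.Rg

/-! # P014X, analytic block: the index formula -/

namespace Vale.Agent.P014X.An

theorem idx0 : IDX :=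
  idx gal rye (cnf0 gal fe0 lfa) (loc gal) (uni gal) (sum0 thl (lgi fe0)) (smo gal) cov0

end Vale.Agent.P014X.An
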