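import Mathlib.NumberTheory.NumberField.Units.Regulator
import Mathlib.GroupTheory.FiniteAbelian.Duality
import Mathlib.GroupTheory.FiniteAbelian.Basic
import Mathlib.RingTheory.RootsOfUnity.AlgebraicallyClosed
import Mathlib.Analysis.Complex.Polynomial.Basic
import Mathlib.LinearAlgebra.Matrix.ToLinearEquiv
import Mathlib.LinearAlgebra.Matrix.Block

/-! # P014X: determinants and indices for the index formula -/

set_option autoImplicit false
set_option linter.all false

open Matrix Set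
open scoped Classical

noncomputable section

namespace Vale.Agent.P014X.An.Cv

section blk

variable {Γ Q : Type} (π : Γ → Q) (s : Q → Γ)

/-- the elements which are not chosen representatives -/
abbrev Jn : Type := {γ // s (π γ) ≠ γ}

/-- the elements are representatives or not -/
def eJ (hs : ∀ c, π (s c) = c) : Jn π s ⊕ Q ≃ Γ where
  toFun := Sum.elim (fun j => j.1) s
  invFun γ := if h : s (π γ) = γ then .inr (π γ) else .inl ⟨γ, h⟩
  left_inv := by
    rintro (j | c)
    · exact dif_neg j.2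
    · show (if h : s (π (s c)) = s c then _ else _) = _
      rw [dif_pos (by rw [hs]), Sum.elim_inr, hs]
  right_inv γ := by
    by_cases h : s (π γ) = γ
    · simp only [dif_pos h, Sum.elim_inr]; exact h
    · simp only [dif_neg h, Sum.elim_inl]

variable [Fintype Γ] [Fintype Q] {π s}

theorem sum_eJ (hs : ∀ c, π (s c) = c) {R : Type} [AddCommMonoid R] (f : Γ → R) :
    ∑ γ, f γ = ∑ j : Jn π s, f j + ∑ c, f (s c) := by
  rw [← (eJ π s hs).sum_comp, Fintype.sum_sum_type]; rfl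

theorem blk [DecidableEq Q] (hs : ∀ c, π (s c) = c) {R : Type} [CommRing R] (M : Matrix (Jn π s ⊕ Q) Γ R)
    (h : ∀ i c, ∑ δ with π δ = c, M (.inl i) δ = 0) :
    (M.submatrix id (eJ π s hs)).det = (of fun i j : Jn π s => M (.inl i) j).det *
      (of fun c c' : Q => ∑ δ with π δ = c', M (.inr c) δ).det := by
  have k : ∀ i c, ∑ j : Jn π s, M i j * (if π j = c then 1 else 0) + M i (s c) =
      ∑ δ with π δ = c, M i δ := fun i c => by
    rw [Finset.sum_filter, sum_eJ hs]
    simp only [mul_ite, mul_one, mul_zero, hs, Finset.sum_ite_eq', Finset.mem_univ, if_true]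
  have e : M.submatrix id (eJ π s hs) * fromBlocks (1 : Matrix (Jn π s) (Jn π s) R)
      (of fun (j : Jn π s) (c : Q) => if π j = c then (1 : R) else 0) 0 (1 : Matrix Q Q R) =
      fromBlocks (of fun i j : Jn π s => M (.inl i) j) 0 (of fun c (j : Jn π s) => M (.inr c) j)
        (of fun c c' : Q => ∑ δ with π δ = c', M (.inr c) δ) := by
    ext i j
    rw [mul_apply, Fintype.sum_sum_type]
    rcases j with j | c
    · have : ∀ i, ∑ a : Jn π s, M i a * (1 : Matrix _ _ R) a j + ∑ a : Q, M i (s a) * 0 = M i j :=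
        fun i => by simp [one_apply]
      rcases i with i | i <;> exact this _
    · have : ∀ i, ∑ a : Jn π s, M i a * (if π a = c then 1 else 0) +
          ∑ a : Q, M i (s a) * (1 : Matrix _ _ R) a c = ∑ δ with π δ = c, M i δ :=
        fun i => by rw [← k]; simp [one_apply]
      rcases i with i | i
      · exact (this _).trans (h i c)
      · exact this _
  have d := congrArg det e
  rwa [det_mul, det_fromBlocks_zero₂₁, det_one, det_one, mul_one, mul_one,
    det_fromBlocks_zero₁₂] at d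

end blk

section gd

variable {Γ : Type} [CommGroup Γ] [Fintype Γ] (Δ : Subgroup Γ)

/-- the class -/
abbrev cl (γ : Γ) : Γ ⧸ Δ := γ

/-- a representative -/
abbrev rp (c : Γ ⧸ Δ) : Γ := c.out

theorem cl_rp (c : Γ ⧸ Δ) : cl Δ (rp Δ c) = c := QuotientGroup.out_eq' c

theorem sum_cl {R : Type} [AddCommMonoid R] (f : Γ → R) (γ : Γ) :
    ∑ δ with cl Δ δ = cl Δ γ, f δ = ∑ δ : Δ, f (γ * δ) := by
  symm
  refine Finset.sum_bij (fun δ _ => γ * δ) (fun δ _ => ?_) (fun a _ b _ e => ?_) (fun b hb => ?_)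
    fun _ _ => rfl
  · simp
  · exact Subtype.ext (mul_left_cancel e)
  · exact ⟨⟨γ⁻¹ * b, QuotientGroup.eq.1 (Finset.mem_filter.1 hb).2.symm⟩, Finset.mem_univ _, by simp⟩

theorem sum_ch {φ : Γ →* ℂˣ} (h : ¬ Δ ≤ φ.ker) (c : Γ ⧸ Δ) :
    ∑ δ with cl Δ δ = c, (φ δ : ℂ) = 0 := by
  have := sum_hom_units_eq_zero ((Units.coeHom ℂ).comp (φ.comp Δ.subtype)) fun e => h fun δ hδ =>
    Units.ext (by simpa using DFunLike.congr_fun e ⟨δ, hδ⟩)
  rw [← cl_rp Δ c, sum_cl]
  simp only [map_mul, Units.val_mul]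
  rw [← Finset.mul_sum]
  exact mul_eq_zero_of_right _ this

theorem card_X (X : Finset (Γ →* ℂˣ)) (hX : ∀ φ, φ ∈ X ↔ ¬ Δ ≤ φ.ker) :
    Fintype.card X = Fintype.card (Jn (cl Δ) (rp Δ)) := by
  have n0 : NeZero (Monoid.exponent Γ : ℂ) := ⟨Nat.cast_ne_zero.2 Monoid.exponent_ne_zero_of_finite⟩
  have a := CommGroup.card_monoidHom_of_hasEnoughRootsOfUnity Γ ℂ
  have b := CommGroup.card_domRestrictHom_ker ℂ Δ
  have : Finite (Γ →* ℂˣ) := Nat.finite_of_card_ne_zero (a ▸ Nat.card_pos.ne')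
  have := Fintype.ofFinite (Γ →* ℂˣ)
  have c := Fintype.card_congr (eJ (cl Δ) (rp Δ) (cl_rp Δ))
  have d : Fintype.card X = Fintype.card {φ // ¬ φ ∈ (MonoidHom.domRestrictHom Δ ℂˣ).ker} :=
    Fintype.card_congr (Equiv.subtypeEquivRight fun φ => (hX φ).trans (not_congr (by
      rw [MonoidHom.mem_ker, MonoidHom.domRestrictHom_apply, MonoidHom.domRestrict_eq_one_iff]; rfl)))
  rw [Fintype.card_subtype_compl] at d
  simp only [Nat.card_eq_fintype_card, Fintype.card_sum] at a b c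
  rw [d, a, ← c]
  have e : Fintype.card {φ // φ ∈ (MonoidHom.domRestrictHom Δ ℂˣ).ker} = Fintype.card (Γ ⧸ Δ) := by
    convert b
  omega

theorem nrm_ch (φ : Γ →* ℂˣ) (γ : Γ) : (starRingEnd ℂ) (φ γ) * φ γ = 1 := by
  have : ‖(φ γ : ℂ)‖ = 1 := Complex.norm_eq_one_of_pow_eq_one (n := Fintype.card Γ)
    (by rw [← Units.val_pow_eq_pow_val, ← map_pow, pow_card_eq_one, map_one, Units.val_one])
    Fintype.card_ne_zero
  rw [Complex.conj_mul', this]; simp

/-- **the determinant of Dedekind**, relative form -/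
theorem gd (X : Finset (Γ →* ℂˣ)) (hX : ∀ φ, φ ∈ X ↔ ¬ Δ ≤ φ.ker) (x : Γ → ℝ) :
    |(of fun i j : Jn (cl Δ) (rp Δ) => x (j * i) - x (j * rp Δ (cl Δ i))).det| =
      ∏ φ ∈ X, ‖∑ γ, (φ γ : ℂ) * x γ‖ := by
  obtain ⟨e⟩ := Fintype.card_eq.1 (card_X Δ X hX).symm
  set W : Matrix (Jn (cl Δ) (rp Δ)) (Jn (cl Δ) (rp Δ)) ℂ := of fun i j => ((e i).1 j : ℂ) with hW
  have z : ∀ i (f : Γ ⧸ Δ → ℂ), ∑ γ, ((e i).1 γ : ℂ) * f γ = 0 := fun i f => by
    rw [← Finset.sum_fiberwise Finset.univ (cl Δ)]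
    refine Finset.sum_eq_zero fun c _ => ?_
    rw [Finset.sum_congr rfl (g := fun γ => ((e i).1 γ : ℂ) * f c)
      (fun γ h => by rw [← (Finset.mem_filter.1 h).2]), ← Finset.sum_mul,
      sum_ch Δ ((hX _).1 (e i).2), zero_mul]
  have W0 : W.det ≠ 0 := fun h => by
    obtain ⟨v, v0, hv⟩ := exists_vecMul_eq_zero_iff.2 h
    have li := (linearIndependent_monoidHom Γ ℂ).comp
      (fun i => (Units.coeHom ℂ).comp (e i).1) fun i j h => e.injective (Subtype.ext
        (MonoidHom.ext fun γ => Units.ext (DFunLike.congr_fun h γ)))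
    have a : ∀ j : Jn (cl Δ) (rp Δ), ∑ i, v i * ((e i).1 j : ℂ) = 0 := fun j => congrFun hv j
    refine v0 (funext (Fintype.linearIndependent_iff.1 li v (funext fun γ => ?_)))
    rw [Finset.sum_apply]
    show ∑ i, v i * ((e i).1 γ : ℂ) = 0
    obtain ⟨j | c, rfl⟩ := (eJ (cl Δ) (rp Δ) (cl_rp Δ)).surjective γ
    · exact a j
    · have b : ∑ γ, (∑ i, v i * ((e i).1 γ : ℂ)) * (if cl Δ γ = c then 1 else 0) = 0 := by
        simp only [Finset.sum_mul, mul_assoc]
        rw [Finset.sum_comm]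
        exact Finset.sum_eq_zero fun i _ => by
          rw [← Finset.mul_sum, z i fun c' => if c' = c then 1 else 0, mul_zero]
      rw [sum_eJ (cl_rp Δ)] at b
      simp only [a, zero_mul, Finset.sum_const_zero, zero_add, cl_rp] at b
      rwa [Finset.sum_eq_single c (fun b _ n => by rw [if_neg n, mul_zero]) (by simp), if_pos rfl,
        mul_one] at b
  have E : W * (of fun i j : Jn (cl Δ) (rp Δ) => x (j * i) - x (j * rp Δ (cl Δ i))).map
      Complex.ofRealHom = of fun i j => (∑ γ, ((e i).1 γ : ℂ) * x γ) * W.map (starRingEnd ℂ) i j := by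
    ext i j
    have a := sum_eJ (cl_rp Δ) fun γ => ((e i).1 γ : ℂ) * (x (j * γ) - x (j * rp Δ (cl Δ γ)) : ℝ)
    simp only [cl_rp, sub_self, Complex.ofReal_zero, mul_zero, Finset.sum_const_zero, add_zero] at a
    simp only [mul_apply, map_apply, of_apply, hW, Complex.ofRealHom_eq_coe]
    rw [← a]
    simp only [Complex.ofReal_sub, mul_sub, Finset.sum_sub_distrib]
    rw [z i fun c => x (j * rp Δ c), sub_zero, ← Equiv.sum_comp (Equiv.mulLeft j.1) fun γ =>
      ((e i).1 γ : ℂ) * x γ, Finset.sum_mul]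
    refine Finset.sum_congr rfl fun γ _ => ?_
    simp only [Equiv.coe_mulLeft, map_mul, Units.val_mul]
    linear_combination (-((e i).1 γ : ℂ) * x (j * γ)) * nrm_ch (e i).1 j
  have D := congrArg (fun A => ‖det A‖) E
  simp only [det_mul, det_mul_column, norm_mul] at D
  rw [← RingHom.mapMatrix_apply, ← RingHom.mapMatrix_apply, ← RingHom.map_det, ← RingHom.map_det,
    Complex.norm_conj, mul_comm, mul_left_inj' (norm_ne_zero_iff.2 W0), norm_prod] at D
  rw [← Finset.prod_coe_sort X, ← e.prod_comp, ← D]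
  simp

end gd

/-- the algebra of the indices -/
theorem idx {E E' : Type} [CommGroup E] [CommGroup E'] (N : E →* E') (i : E' →* E) {d : ℕ}
    (d0 : d ≠ 0) (h : ∀ y, N (i y) = y ^ d) (C : Subgroup E) (hC : C ≤ N.ker)
    (ct : C ⊓ CommGroup.torsion E = ⊥) :
    (C ⊔ i.range ⊔ CommGroup.torsion E).index * Nat.card (CommGroup.torsion E) * N.range.index =
      C.relIndex N.ker * Nat.card (CommGroup.torsion E') *
        ((powMonoidHom d).range ⊔ CommGroup.torsion E').index := by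
  set T := CommGroup.torsion E
  set T' := CommGroup.torsion E'
  set P := (powMonoidHom d : E' →* E').range
  have tt : T ≤ T'.comap N := fun x hx => MonoidHom.isOfFinOrder N hx
  have ku : N.ker ≤ T'.comap N := fun x hx => by
    rw [Subgroup.mem_comap, MonoidHom.mem_ker.1 hx]; exact one_mem _
  have pn : P ≤ N.range := by rintro _ ⟨y, rfl⟩; exact ⟨i y, h y⟩
  have a : (P ⊔ T').comap N = (C ⊔ i.range ⊔ T) ⊔ T'.comap N := by
    refine le_antisymm (fun x hx => ?_) (sup_le (sup_le (sup_le ((hC.trans ku).trans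
      (Subgroup.comap_mono le_sup_right)) ?_) (tt.trans (Subgroup.comap_mono le_sup_right)))
      (Subgroup.comap_mono le_sup_right))
    · obtain ⟨_, ⟨y, rfl⟩, t, ht, e⟩ := Subgroup.mem_sup.1 hx
      refine Subgroup.mem_sup.2 ⟨i y, Subgroup.mem_sup_left (Subgroup.mem_sup_right ⟨y, rfl⟩),
        (i y)⁻¹ * x, ?_, by simp⟩
      rw [Subgroup.mem_comap, map_mul, map_inv, h, ← e]
      simpa using ht
    · rintro _ ⟨y, rfl⟩
      exact Subgroup.mem_sup_left (show N (i y) ∈ P from ⟨y, (h y).symm⟩)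
  have b : (C ⊔ i.range ⊔ T) ⊓ T'.comap N = C ⊔ T := by
    refine le_antisymm (fun x hx => ?_) (le_inf (sup_le_sup_right le_sup_left _)
      (sup_le (hC.trans ku) tt))
    obtain ⟨_, h1, t, ht, rfl⟩ := Subgroup.mem_sup.1 hx.1
    obtain ⟨c, hc, _, ⟨y, rfl⟩, rfl⟩ := Subgroup.mem_sup.1 h1
    have y1 : i y ∈ T'.comap N :=
      ((T'.comap N).mul_mem_cancel_left (ku (hC hc))).1 (((T'.comap N).mul_mem_cancel_right (tt ht)).1 hx.2)
    rw [Subgroup.mem_comap, h] at y1
    have y2 : i y ∈ T := MonoidHom.isOfFinOrder i (IsOfFinOrder.of_pow y1 d0)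
    exact mul_mem (mul_mem (Subgroup.mem_sup_left hc) (Subgroup.mem_sup_right y2))
      (Subgroup.mem_sup_right ht)
  have e1 := Subgroup.relIndex_mul_index (le_sup_left : C ⊔ i.range ⊔ T ≤ _ ⊔ T'.comap N)
  rw [Subgroup.relIndex_sup_left, ← Subgroup.inf_relIndex_right, b, ← a, Subgroup.index_comap] at e1
  have e2 := Subgroup.relIndex_mul_relIndex C (C ⊔ T) _ le_sup_left (sup_le (hC.trans ku) tt)
  rw [Subgroup.relIndex_sup_left, ← Subgroup.inf_relIndex_right, ct, Subgroup.relIndex_bot_left] at e2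
  have e3 := Subgroup.relIndex_mul_relIndex C N.ker _ hC ku
  rw [← MonoidHom.comap_bot N, Subgroup.relIndex_comap ⊥, Subgroup.map_comap_eq,
    Subgroup.relIndex_bot_left, MonoidHom.comap_bot] at e3
  have e4 := Subgroup.relIndex_mul_index (le_sup_left : N.range ≤ _ ⊔ T')
  rw [Subgroup.relIndex_sup_left] at e4
  have e5 := Subgroup.relIndex_mul_relIndex ⊥ (N.range ⊓ T') T' bot_le inf_le_right
  rw [Subgroup.relIndex_bot_left, Subgroup.relIndex_bot_left, Subgroup.inf_relIndex_right] at e5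
  have e6 := Subgroup.relIndex_mul_index (le_sup_right : P ⊔ T' ≤ N.range ⊔ _)
  rw [Subgroup.relIndex_sup_right, ← sup_assoc, sup_eq_left.2 pn] at e6
  rw [← e1, ← e4, ← e5, ← e6]
  calc _ = (Nat.card T * (C ⊔ T).relIndex (T'.comap N)) * ((P ⊔ T').relIndex N.range *
        (N.range.relIndex T' * (N.range ⊔ T').index)) := by ring
    _ = _ := by rw [e2, ← e3]; ring

end Vale.Agent.P014X.An.Cv
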