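import Mathlib

/-! # P014X (analytic block): covolumes and indices of units in a cyclic layer -/

set_option autoImplicit false
set_option linter.all false

open NumberField NumberField.InfinitePlace Module Matrix Set
open NumberField.Units (regulator torsion torsionOrder fundSystem rank)
open scoped Classical

namespace Vale.Agent.P014X.Cv0

section One

variable {K : Type} [Field K] [NumberField K] {ι : Type} [Fintype ι] [DecidableEq ι]

/-- a unit as an element of the field -/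
noncomputable def cK (K : Type) [Field K] : (𝓞 K)ˣ →* K :=
  (algebraMap (𝓞 K) K).toMonoidHom.comp (Units.coeHom _)

theorem cK_inj : Function.Injective (cK K) := fun a b h =>
  Units.ext (RingOfIntegers.coe_injective h)

theorem cK_ne (x : (𝓞 K)ˣ) : cK K x ≠ 0 := (x.isUnit.map (algebraMap (𝓞 K) K)).ne_zero

/-- the matrix of logarithms -/
noncomputable def LM (p : ι → InfinitePlace K) (i₀ : ι) (U : ι → (𝓞 K)ˣ) : Matrix ι ι ℝ :=
  of fun i j => if i = i₀ then 2 else 2 * Real.log (p j (cK K (U i)))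

theorem card_pl [IsTotallyComplex K] : finrank ℚ K = 2 * Fintype.card (InfinitePlace K) := by
  rw [IsTotallyComplex.finrank K, card_eq_nrRealPlaces_add_nrComplexPlaces,
    IsTotallyComplex.nrRealPlaces_eq_zero, zero_add]

theorem key0 [IsTotallyComplex K] (p : ι ≃ InfinitePlace K) (i₀ : ι) (U : ι → (𝓞 K)ˣ)
    (h : U i₀ = 1) :
    finrank ℚ K * (((Subgroup.closure (range U) ⊔ torsion K).index : ℝ) * regulator K) =
      |(LM p i₀ U).det| := by
  have e : {w // w ≠ p i₀} ≃ Fin (rank K) := Fintype.equivOfCardEq <| by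
    rw [Fintype.card_subtype_compl, Fintype.card_subtype_eq, Fintype.card_fin, Units.rank]
  have c : Subgroup.closure (range fun k => U (p.symm (e.symm k))) = Subgroup.closure (range U) :=
    le_antisymm (Subgroup.closure_mono (range_subset_iff.2 fun _ => mem_range_self _))
      ((Subgroup.closure_le _).2 (range_subset_iff.2 fun i => by
        rcases eq_or_ne i i₀ with rfl | hi
        · exact h ▸ one_mem _
        · exact Subgroup.subset_closure ⟨e ⟨p i, p.injective.ne hi⟩, by simp⟩))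
  rw [← c, ← Units.regOfFamily_div_regulator, div_mul_cancel₀ _ (Units.regulator_ne_zero K),
    Units.finrank_mul_regOfFamily_eq_det _ (p i₀) e, ← det_submatrix_equiv_self p]
  congr 2
  ext i j
  simp [LM, cK, IsTotallyComplex.mult_eq]

theorem ex_fund (p : ι ≃ InfinitePlace K) (i₀ : ι) :
    ∃ U : ι → (𝓞 K)ˣ, U i₀ = 1 ∧ Subgroup.closure (range U) ⊔ torsion K = ⊤ := by
  have e : {w // w ≠ p i₀} ≃ Fin (rank K) := Fintype.equivOfCardEq <| by
    rw [Fintype.card_subtype_compl, Fintype.card_subtype_eq, Fintype.card_fin, Units.rank]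
  refine ⟨fun i => if h : p i = p i₀ then 1 else fundSystem K (e ⟨p i, h⟩), dif_pos rfl, ?_⟩
  rw [eq_top_iff, ← Units.closure_fundSystem_sup_torsion_eq_top]
  refine sup_le_sup_right (Subgroup.closure_mono ?_) _
  rintro _ ⟨k, rfl⟩
  exact ⟨p.symm (e.symm k), by simp [(e.symm k).2]⟩

theorem tf (p : ι → InfinitePlace K) (i₀ : ι) (U : ι → (𝓞 K)ˣ) (h : U i₀ = 1)
    (hd : (LM p i₀ U).det ≠ 0) : Subgroup.closure (range U) ⊓ torsion K = ⊥ := by
  rw [eq_bot_iff]
  rintro x ⟨hx, ht⟩
  obtain ⟨a, rfl⟩ := Subgroup.mem_closure_range_iff_of_fintype.1 hx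
  have h1 : (fun i => if i = i₀ then (0 : ℝ) else a i) ᵥ* LM p i₀ U = 0 := by
    ext j
    have h2 : p j (cK K (∏ i, U i ^ a i)) = 1 := (Units.mem_torsion K).1 ht (p j)
    have h3 := congrArg Real.log h2
    rw [map_prod, map_prod, Real.log_prod fun i _ => (p j).pos_iff.2 (cK_ne _) |>.ne',
      Real.log_one] at h3
    simp only [vecMul, dotProduct, LM, of_apply, Pi.zero_apply]
    refine Eq.trans ?_ ((congrArg (2 * ·) h3).trans (mul_zero (2 : ℝ)))
    simp only [Finset.mul_sum]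
    refine Finset.sum_congr rfl fun i _ => ?_
    rw [map_zpow, map_zpow₀, Real.log_zpow]
    split_ifs with hi
    · simp [hi, h]
    · ring
  have h4 : (fun i => if i = i₀ then (0 : ℝ) else a i) = 0 := by
    by_contra h5
    exact hd (exists_vecMul_eq_zero_iff.1 ⟨_, h5, h1⟩)
  refine Subgroup.mem_bot.2 (Finset.prod_eq_one fun i _ => ?_)
  by_cases hi : i = i₀
  · rw [hi, h, _root_.one_zpow]
  · have h6 := congrFun h4 i
    rw [if_neg hi, Pi.zero_apply, Int.cast_eq_zero] at h6
    rw [h6, zpow_zero]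

/-- the index of a family of units, indexed by the places -/
theorem key [IsTotallyComplex K] (p : ι ≃ InfinitePlace K) (i₀ : ι) (U : ι → (𝓞 K)ˣ)
    (h : U i₀ = 1) :
    finrank ℚ K * (((Subgroup.closure (range U)).index : ℝ) * regulator K) =
      torsionOrder K * |(LM p i₀ U).det| := by
  have h1 := key0 p i₀ U h
  rw [← h1, ← Subgroup.relIndex_mul_index (le_sup_left (b := torsion K)),
    Subgroup.relIndex_sup_left]
  by_cases hd : (LM p i₀ U).det = 0
  · rw [hd, abs_zero] at h1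
    push_cast
    linear_combination (((Subgroup.closure (range U)).relIndex (torsion K) : ℝ) - torsionOrder K) * h1
  · rw [← Subgroup.inf_relIndex_right, tf p i₀ U h hd, Subgroup.relIndex_bot_left,
      torsionOrder]
    push_cast
    ring

end One

section Grp

variable {Γ : Type} [CommGroup Γ] [Fintype Γ]

theorem fin_ch : Finite (Γ →* ℂˣ) := Nat.finite_of_card_ne_zero (by
  rw [CommGroup.card_monoidHom_of_hasEnoughRootsOfUnity]; exact Nat.card_pos.ne')

/-- the group determinant -/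
theorem gdet [Fintype (Γ →* ℂˣ)] (f : Γ → ℝ) :
    |(of fun h g => f (g⁻¹ * h)).det| = ‖∏ φ : Γ →* ℂˣ, ∑ x, (φ x : ℂ) * f x‖ := by
  have e : Γ ≃ (Γ →* ℂˣ) := Fintype.equivOfCardEq (by
    rw [← Nat.card_eq_fintype_card, ← Nat.card_eq_fintype_card,
      CommGroup.card_monoidHom_of_hasEnoughRootsOfUnity])
  set V : Matrix Γ Γ ℂ := of fun g k => (e k g⁻¹ : ℂ) with hV
  have V0 : V.det ≠ 0 := by
    intro h
    obtain ⟨v, hv, h1⟩ := exists_mulVec_eq_zero_iff.2 h
    have h2 := (linearIndependent_monoidHom Γ ℂ).comp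
      (fun k => (Units.coeHom ℂ).comp (e k)) fun k l h =>
        e.injective (MonoidHom.ext fun x => Units.ext (DFunLike.congr_fun h x))
    refine hv (funext (Fintype.linearIndependent_iff.1 h2 v (funext fun g => ?_)))
    have h3 := congrFun h1 g⁻¹
    simp only [mulVec, dotProduct, hV, of_apply, inv_inv, Pi.zero_apply] at h3
    simp only [Finset.sum_apply, Function.comp, Pi.smul_apply, smul_eq_mul, Pi.zero_apply]
    rw [← h3]
    exact Finset.sum_congr rfl fun k _ => mul_comm _ _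
  have E : (of fun h g => f (g⁻¹ * h)).map Complex.ofRealHom * V =
      of fun h k => (∑ x, (e k x : ℂ) * f x) * V h k := by
    ext h k
    simp only [mul_apply, map_apply, of_apply, hV, Finset.sum_mul]
    refine Fintype.sum_equiv ((Equiv.inv Γ).trans (Equiv.mulRight h)) _ _ fun g => ?_
    simp only [Equiv.trans_apply, Equiv.inv_apply, Equiv.coe_mulRight, Complex.ofRealHom_eq_coe]
    rw [mul_right_comm, ← Units.val_mul, ← map_mul, mul_inv_cancel_right, mul_comm]
  have D := congrArg (fun A => ‖det A‖) E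
  simp only [det_mul, det_mul_row, norm_mul] at D
  rw [← RingHom.mapMatrix_apply, ← RingHom.map_det, mul_left_inj' (norm_ne_zero_iff.2 V0)] at D
  rw [← e.prod_comp, ← D]
  simp

/-- the quotient -/
abbrev Qt (σ : Γ) : Type := Γ ⧸ Subgroup.zpowers σ

/-- the projection -/
abbrev pr (σ : Γ) : Γ →* Qt σ := QuotientGroup.mk' _

theorem pr_s (σ x : Γ) : pr σ (x * σ) = pr σ x := by
  rw [map_mul, show pr σ σ = 1 from (QuotientGroup.eq_one_iff σ).2 (Subgroup.mem_zpowers σ), mul_one]

theorem pr_out (σ : Γ) (γ : Qt σ) : pr σ γ.out = γ := γ.out_eq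

theorem ex_pow {σ x y : Γ} (h : pr σ x = pr σ y) : ∃ n : ℕ, y = x * σ ^ n := by
  obtain ⟨n, hn⟩ := mem_powers_iff_mem_zpowers.2 (QuotientGroup.eq.1 h)
  exact ⟨n, by rw [show σ ^ n = _ from hn, mul_inv_cancel_left]⟩

theorem inv_of {α : Type} {σ : Γ} {F : Γ → α} (hF : ∀ x, F (x * σ) = F x) {x y : Γ}
    (h : pr σ x = pr σ y) : F x = F y := by
  obtain ⟨n, rfl⟩ := ex_pow h
  clear h
  induction n with
  | zero => simp
  | succ n ih => rw [pow_succ, ← mul_assoc, hF, ih]

theorem card_fib (σ : Γ) (γ : Qt σ) : (Finset.univ.filter fun x => pr σ x = γ).card = orderOf σ := by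
  have := QuotientGroup.card_preimage_mk (Subgroup.zpowers σ) {γ}
  rw [Nat.card_zpowers, Nat.card_unique (α := ({γ} : Set (Qt σ))), mul_one,
    Nat.card_eq_fintype_card, Fintype.card_subtype] at this
  rw [← this]
  congr 1
  ext x
  rw [Finset.mem_filter, Finset.mem_filter]
  exact Iff.rfl

/-- the corrected function -/
noncomputable def cor (σ : Γ) (l : Γ → ℝ) (γ : Qt σ) : ℝ :=
  (∑ y with pr σ y = γ, l y - if γ = 1 then 1 else 0) / orderOf σ

theorem sum_cor {M : Type} [AddCommGroup M] [Module ℝ M] (σ : Γ) (l : Γ → ℝ) (F : Qt σ → M) :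
    ∑ x, (l x - cor σ l (pr σ x)) • F (pr σ x) = F 1 := by
  have h0 : (orderOf σ : ℝ) ≠ 0 := Nat.cast_ne_zero.2 (orderOf_pos σ).ne'
  rw [← Finset.sum_fiberwise Finset.univ (pr σ)]
  have h1 : ∀ γ, ∑ x with pr σ x = γ, (l x - cor σ l (pr σ x)) • F (pr σ x) =
      if γ = 1 then F γ else 0 := fun γ => by
    rw [Finset.sum_congr rfl (g := fun x => (l x - cor σ l γ) • F γ) fun x hx => by
      rw [(Finset.mem_filter.1 hx).2], ← Finset.sum_smul, Finset.sum_sub_distrib, Finset.sum_const,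
      card_fib, nsmul_eq_mul, cor, mul_div_cancel₀ _ h0, sub_sub_cancel]
    split_ifs <;> simp
  rw [Finset.sum_congr rfl fun γ _ => h1 γ]
  simp

theorem prod_cor [Fintype (Γ →* ℂˣ)] (σ : Γ) (l : Γ → ℝ) (X : Finset (Γ →* ℂˣ))
    (hX : ∀ φ, φ ∈ X ↔ φ σ ≠ 1) :
    ∏ φ : Γ →* ℂˣ, ∑ x, (φ x : ℂ) * (l x - cor σ l (pr σ x) : ℝ) =
      ∏ φ ∈ X, ∑ x, (φ x : ℂ) * l x := by
  rw [← Finset.prod_subset (Finset.subset_univ X) fun φ _ h => ?_]
  · refine Finset.prod_congr rfl fun φ h => ?_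
    have h1 : ∑ x, (φ x : ℂ) * cor σ l (pr σ x) = φ σ * ∑ x, (φ x : ℂ) * cor σ l (pr σ x) := by
      rw [Finset.mul_sum]
      refine (Fintype.sum_equiv (Equiv.mulRight σ) _ _ fun x => ?_).symm
      rw [Equiv.coe_mulRight, pr_s, map_mul, Units.val_mul]; ring
    have h2 : (φ σ : ℂ) - 1 ≠ 0 := sub_ne_zero.2 fun e => (hX φ).1 h (Units.ext e)
    have h3 : ∑ x, (φ x : ℂ) * cor σ l (pr σ x) = 0 :=
      (mul_eq_zero.1 (by linear_combination -h1)).resolve_left h2
    simp only [Complex.ofReal_sub, mul_sub, Finset.sum_sub_distrib, h3, sub_zero]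
  · have h1 : φ σ = 1 := by simpa [hX] using h
    have h2 : ∀ x y, pr σ x = pr σ y → (φ x : ℂ) = φ y := fun x y =>
      inv_of (F := fun x => (φ x : ℂ)) fun x => by rw [map_mul, h1, mul_one]
    have h3 := sum_cor σ l fun γ => (φ γ.out : ℂ)
    rw [h2 _ 1 (by rw [pr_out, map_one]), map_one, Units.val_one] at h3
    rw [← h3]
    refine Finset.sum_congr rfl fun x _ => ?_
    rw [h2 (pr σ x).out x (pr_out _ _), Complex.real_smul, mul_comm]

/-- the elements outside the section -/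
abbrev Rs (σ : Γ) : Type := {g : Γ // (pr σ g).out ≠ g}

/-- the splitting of the group -/
noncomputable def sp (σ : Γ) : Qt σ ⊕ Rs σ ≃ Γ :=
  Equiv.ofBijective (Sum.elim Quotient.out Subtype.val) ⟨by
    rintro (a | a) (b | b) h
    · rw [← pr_out σ a, ← pr_out σ b, show a.out = b.out from h]
    · exact absurd (by rw [← show a.out = b.1 from h, pr_out]) b.2
    · exact absurd (by rw [show a.1 = b.out from h, pr_out]) a.2
    · rw [Subtype.ext h], fun g => by
    by_cases h : (pr σ g).out = g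
    · exact ⟨.inl _, h⟩
    · exact ⟨.inr ⟨g, h⟩, rfl⟩⟩

/-- the determinant of the block matrix -/
theorem det_blk [Fintype (Γ →* ℂˣ)] (σ : Γ) (l : Γ → ℝ) (X : Finset (Γ →* ℂˣ))
    (hX : ∀ φ, φ ∈ X ↔ φ σ ≠ 1) (L : Matrix (Qt σ) (Qt σ) ℝ)
    (A : Matrix (Qt σ ⊕ Rs σ) (Qt σ ⊕ Rs σ) ℝ) (h1 : ∀ γ j, A (.inl γ) j = L γ (pr σ (sp σ j)))
    (h2 : ∀ h j, A (.inr h) j = l ((sp σ j)⁻¹ * h) - l ((sp σ j)⁻¹ * (pr σ h).out)) :
    |A.det| = |((orderOf σ : ℝ) • L).det| * ‖∏ φ ∈ X, ∑ x, (φ x : ℂ) * l x‖ := by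
  set P : Matrix (Qt σ) (Rs σ) ℝ := of fun γ h => if pr σ h = γ then 1 else 0 with hP
  have hL : ∀ γ k, fromBlocks L (L * P) (-Pᵀ) 1 (.inl γ) k = L γ (pr σ (sp σ k)) := by
    rintro γ (k | k)
    · exact congrArg (L γ) (pr_out σ k).symm
    · have b : sp σ (.inr k) = k := rfl
      simp only [fromBlocks_apply₁₂, hP, mul_apply, of_apply, mul_ite, mul_one, mul_zero,
        Finset.sum_ite_eq, Finset.mem_univ, if_true, b]
  have E : A = fromBlocks L (L * P) (-Pᵀ) 1 *
      (of fun h g => l (g⁻¹ * h) - cor σ l (pr σ (g⁻¹ * h))).submatrix (sp σ) (sp σ) := by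
    ext (γ | h) j
    · have h3 := sum_cor σ l fun δ => L γ (pr σ (sp σ j) * δ)
      rw [h1, mul_apply, ← mul_one (pr σ _), ← h3]
      refine (Fintype.sum_equiv ((sp σ).trans (Equiv.mulLeft (sp σ j)⁻¹)) _ _ fun k => ?_).symm
      simp only [hL, submatrix_apply, of_apply, Equiv.trans_apply, Equiv.coe_mulLeft, smul_eq_mul]
      rw [← map_mul, mul_inv_cancel_left, mul_comm]
    · rw [h2, mul_apply, Fintype.sum_sum_type]
      simp only [fromBlocks_apply₂₁, fromBlocks_apply₂₂, Matrix.neg_apply, transpose_apply, hP, of_apply,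
        one_apply, submatrix_apply, neg_mul, ite_mul, one_mul, zero_mul, Finset.sum_neg_distrib,
        Finset.sum_ite_eq, Finset.mem_univ, if_true]
      have a : sp σ (.inl (pr σ h)) = (pr σ h).out := rfl
      have b : sp σ (.inr h) = h := rfl
      rw [a, b, map_mul, map_mul, pr_out]
      ring
  have h4 : L - L * P * -Pᵀ = (orderOf σ : ℝ) • L := by
    have h5 : (1 + P * Pᵀ : Matrix (Qt σ) (Qt σ) ℝ) = (orderOf σ : ℝ) • 1 := by
      ext γ δ
      have h6 := (sp σ).sum_comp fun x => if pr σ x = γ then (if γ = δ then (1 : ℝ) else 0) else 0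
      rw [← Finset.sum_filter fun x => pr σ x = γ, Finset.sum_const, card_fib, nsmul_eq_mul,
        Fintype.sum_sum_type] at h6
      rw [Matrix.smul_apply, one_apply, smul_eq_mul, ← h6, Matrix.add_apply, one_apply, mul_apply]
      congr 1
      · have a : ∀ x : Qt σ, pr σ (sp σ (.inl x)) = x := pr_out σ
        simp [a]
      · refine Finset.sum_congr rfl fun h _ => ?_
        have b : sp σ (.inr h) = h := rfl
        simp only [hP, transpose_apply, of_apply, b]
        by_cases c : pr σ h = γ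
        · rw [if_pos c, if_pos c, c, one_mul]
        · rw [if_neg c, if_neg c, zero_mul]
    rw [Matrix.mul_neg, sub_neg_eq_add, Matrix.mul_assoc, ← Matrix.mul_one L, Matrix.mul_assoc,
      ← Matrix.mul_add, Matrix.one_mul, h5, Matrix.mul_smul, Matrix.mul_one]
  rw [E, det_mul, det_fromBlocks_one₂₂, det_submatrix_equiv_self, abs_mul, h4,
    gdet fun x => l x - cor σ l (pr σ x), prod_cor σ l X hX]

end Grp

theorem idx {E E' : Type} [CommGroup E] [CommGroup E'] (N : E →* E') (Y : Subgroup E) :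
    Y.index * N.range.index = Y.relIndex N.ker * (Y.map N).index := by
  rw [Subgroup.index_map, ← Subgroup.relIndex_mul_index (le_sup_left (a := Y) (b := N.ker)),
    Subgroup.relIndex_sup_left, mul_assoc]

/-- **covolumes and indices in a cyclic layer** -/
theorem cov {F F' : Type} [Field F] [NumberField F] [IsTotallyComplex F] [Field F'] [NumberField F']
    [IsTotallyComplex F'] (ι : F' →+* F) {Γ : Type} [CommGroup Γ] [Fintype Γ] (ρ : Γ →* (F ≃+* F))
    (w : InfinitePlace F) (hw : Function.Bijective fun g => w.comap (ρ g : F →+* F)) (σ : Γ)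
    (fix : ∀ y, ρ σ (ι y) = ι y) (hd : finrank ℚ F = orderOf σ * finrank ℚ F') (u : F) (hu : u ≠ 0)
    (c : Γ → (𝓞 F)ˣ) (hc : ∀ g, ((c g : 𝓞 F) : F) = ρ g (ρ σ u / u)) (N : (𝓞 F)ˣ →* (𝓞 F')ˣ)
    (hN : ∀ x, ι ((N x : 𝓞 F') : F') = ∏ i ∈ Finset.range (orderOf σ), ρ (σ ^ i) ((x : 𝓞 F) : F))
    (X : Finset (Γ →* ℂˣ)) (hX : ∀ φ, φ ∈ X ↔ φ σ ≠ 1) :
    Subgroup.closure (range c) ≤ N.ker ∧ N.range.index ≠ 0 ∧
    (∏ φ ∈ X, ∑ g, (φ g : ℂ) * (2 * Real.log (w (ρ g u)) : ℝ) ≠ 0 →
      ∀ x ∈ Subgroup.closure (range c), x ∈ torsion F → x = 1) ∧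
    ‖∏ φ ∈ X, ∑ g, (φ g : ℂ) * (2 * Real.log (w (ρ g u)) : ℝ)‖ * N.range.index *
        (regulator F' / torsionOrder F') =
      (Subgroup.closure (range c)).relIndex N.ker * (regulator F / torsionOrder F) := by
  have := fin_ch (Γ := Γ)
  letI := Fintype.ofFinite (Γ →* ℂˣ)
  letI := ι.toAlgebra
  have hc : ∀ g, cK F (c g) = ρ g (ρ σ u / u) := hc
  have hN : ∀ x, ι (cK F' (N x)) = ∏ i ∈ Finset.range (orderOf σ), ρ (σ ^ i) (cK F x) := hN
  have hρ : ∀ a b x, ρ (a * b) x = ρ a (ρ b x) := fun a b x => by rw [map_mul]; rfl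
  have fx : ∀ y a b, pr σ a = pr σ b → ρ a (ι y) = ρ b (ι y) := fun y a b =>
    inv_of (F := fun a => ρ a (ι y)) fun a => by rw [hρ, fix]
  have n0 : ∀ g, ρ g u ≠ 0 := fun g => (map_ne_zero _).2 hu
  let im : (𝓞 F')ˣ →* (𝓞 F)ˣ := Units.map (RingOfIntegers.mapRingHom ι : 𝓞 F' →* 𝓞 F)
  have him : ∀ y, cK F (im y) = ι (cK F' y) := fun y => rfl
  have Ni : ∀ y, N (im y) = y ^ orderOf σ := fun y => cK_inj (ι.injective (by
    rw [hN, map_pow, map_pow, him, Finset.prod_congr rfl (g := fun _ => ι (cK F' y)) fun i _ => by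
      rw [fx _ _ 1 (by rw [map_pow, show pr σ σ = 1 by simpa using pr_s σ 1, map_one, one_pow]), map_one]; rfl,
      Finset.prod_const, Finset.card_range]))
  have Nc : ∀ g, N (c g) = 1 := fun g => cK_inj (ι.injective (by
    have a := Finset.prod_range_succ (fun i => ρ (σ ^ i * g) u) (orderOf σ)
    rw [Finset.prod_range_succ', pow_orderOf_eq_one, pow_zero, mul_left_inj' (n0 _)] at a
    rw [hN, map_one, map_one, Finset.prod_congr rfl
      (g := fun i => ρ (σ ^ (i + 1) * g) u / ρ (σ ^ i * g) u) fun i _ => by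
        rw [hc, ← hρ, map_div₀, ← hρ, pow_succ, mul_right_comm],
      Finset.prod_div_distrib, a, div_self (Finset.prod_ne_zero_iff.2 fun i _ => n0 (σ ^ i * g))]))
  -- the places
  let p : Γ ≃ InfinitePlace F := (Equiv.inv Γ).trans (Equiv.ofBijective _ hw)
  have hp : ∀ g x, p g x = w (ρ g⁻¹ x) := fun g x => rfl
  have hq : ∀ a b, pr σ a = pr σ b → (p a).comap ι = (p b).comap ι := fun a b h =>
    InfinitePlace.ext _ _ fun y => by
      rw [comap_apply, comap_apply, hp, hp, fx y a⁻¹ b⁻¹ (by rw [map_inv, map_inv, h])]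
  have o0 := orderOf_pos σ
  have hb : Function.Bijective fun γ : Qt σ => (p γ.out).comap ι := by
    refine (Fintype.bijective_iff_surjective_and_card _).2 ⟨fun v => ?_, ?_⟩
    · obtain ⟨w', rfl⟩ := comap_surjective (K := F) v
      obtain ⟨g, rfl⟩ := p.surjective w'
      exact ⟨pr σ g, hq _ _ (pr_out _ _)⟩
    · have a := Subgroup.card_eq_card_quotient_mul_card_subgroup (Subgroup.zpowers σ)
      rw [Nat.card_zpowers, Nat.card_eq_fintype_card, Nat.card_eq_fintype_card,
        Fintype.card_congr p] at a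
      rw [card_pl, card_pl, a] at hd
      exact Nat.eq_of_mul_eq_mul_left o0 (by linarith)
  let q := Equiv.ofBijective _ hb
  obtain ⟨ε, ε0, hε⟩ := ex_fund q 1
  -- the units
  have exD : ∀ h : Γ, ∃ d ∈ Subgroup.closure (range c), cK F d = ρ h u / ρ (pr σ h).out u := by
    intro h
    obtain ⟨n, hn⟩ := ex_pow (pr_out σ (pr σ h))
    generalize (pr σ h).out = t at hn
    subst hn
    induction n with
    | zero => exact ⟨1, one_mem _, by rw [map_one, pow_zero, mul_one, div_self (n0 _)]⟩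
    | succ n ih =>
      obtain ⟨d, h1, h2⟩ := ih
      refine ⟨c (t * σ ^ n) * d, mul_mem (Subgroup.subset_closure (mem_range_self _)) h1, ?_⟩
      rw [map_mul, h2, hc, map_div₀, ← hρ, div_mul_div_cancel₀ (n0 _), pow_succ, mul_assoc]
  choose d d1 d2 using exD
  have dC : Subgroup.closure (range fun h : Rs σ => d h) = Subgroup.closure (range c) := by
    refine le_antisymm ((Subgroup.closure_le _).2 (range_subset_iff.2 fun h => d1 h))
      ((Subgroup.closure_le _).2 (range_subset_iff.2 fun g => ?_))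
    have a : ∀ h, d h ∈ Subgroup.closure (range fun h : Rs σ => d h) := fun h => by
      by_cases e : (pr σ h).out = h
      · rw [show d h = 1 from cK_inj (by rw [d2, e, div_self (n0 _), map_one])]
        exact one_mem _
      · exact Subgroup.subset_closure ⟨⟨h, e⟩, rfl⟩
    rw [show c g = d (g * σ) / d g from cK_inj (by
      rw [map_div, d2, d2, pr_s, div_div_div_cancel_right₀ (n0 _), hc, map_div₀, hρ])]
    exact div_mem (a _) (a _)
  let U : Qt σ ⊕ Rs σ → (𝓞 F)ˣ := Sum.elim (fun γ => im (ε γ)) fun h => d h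
  have k1 := key ((sp σ).trans p) (.inl 1) U (by simp [U, ε0])
  have k2 := key q 1 (fun γ => ε γ ^ orderOf σ) (by simp [ε0])
  have k3 := key0 q 1 ε ε0
  have r0 := Units.regulator_pos F'
  have f0 : (0 : ℝ) < finrank ℚ F' := Nat.cast_pos.2 finrank_pos
  have o1 : (0 : ℝ) < orderOf σ := Nat.cast_pos.2 o0
  have L0 : (LM q 1 ε).det ≠ 0 := fun h => by
    rw [h, hε, abs_zero, Subgroup.index_top, Nat.cast_one, one_mul] at k3
    exact (mul_pos f0 r0).ne' k3
  have k4 := det_blk σ (fun g => 2 * Real.log (w (ρ g u))) X hX (LM q 1 ε)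
    (LM ((sp σ).trans p) (.inl 1) U) (fun γ j => by
      simp only [LM, of_apply, Sum.inl.injEq]
      exact congrArg (fun t => ite _ _ (2 * Real.log t))
        (DFunLike.congr_fun (hq _ _ (pr_out σ _).symm) (cK F' (ε γ)))) fun h j => by
      simp only [LM, of_apply, reduceCtorEq, if_false]
      rw [show U (.inr h) = d h from rfl, d2, Equiv.trans_apply, hp, map_div₀, map_div₀, ← hρ, ← hρ,
        Real.log_div (w.pos_iff.2 (n0 _)).ne' (w.pos_iff.2 (n0 _)).ne', mul_sub]
  have k5 : (orderOf σ : ℝ) • LM q 1 ε = diagonal (fun γ => if γ = 1 then (orderOf σ : ℝ) else 1) *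
      LM q 1 fun γ => ε γ ^ orderOf σ := by
    ext γ δ
    simp only [LM, Matrix.smul_apply, diagonal_mul, of_apply, smul_eq_mul, map_pow, Real.log_pow]
    split_ifs <;> ring
  have k6 : (LM q 1 fun γ => ε γ ^ orderOf σ).det ≠ 0 := fun h => by
    have a := congrArg det k5
    rw [det_mul, h, mul_zero, det_smul] at a
    exact mul_ne_zero (pow_ne_zero _ o1.ne') L0 a
  rw [k5, det_mul, det_diagonal, Finset.prod_ite_eq', if_pos (Finset.mem_univ _), abs_mul,
    abs_of_pos o1] at k4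
  have CN : Subgroup.closure (range c) ≤ N.ker :=
    (Subgroup.closure_le _).2 (range_subset_iff.2 Nc)
  have hY : Subgroup.closure (range U) =
      (Subgroup.closure (range ε)).map im ⊔ Subgroup.closure (range c) := by
    rw [Set.Sum.elim_range, Subgroup.closure_union, dC, MonoidHom.map_closure, ← range_comp]; rfl
  have h1 : (Subgroup.closure (range U)).map N =
      Subgroup.closure (range fun γ => ε γ ^ orderOf σ) := by
    rw [hY, Subgroup.map_sup, (Subgroup.map_eq_bot_iff _).2 CN, sup_bot_eq, Subgroup.map_map,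
      MonoidHom.map_closure, ← range_comp]
    congr 2
    exact funext fun γ => Ni _
  have h2 : Subgroup.closure (range U) ⊓ N.ker = Subgroup.closure (range c) := by
    refine le_antisymm ?_ (le_inf (hY ▸ le_sup_right) CN)
    rintro y ⟨y1, y2⟩
    rw [hY] at y1
    obtain ⟨_, ⟨a, ha, rfl⟩, b, hb, rfl⟩ := Subgroup.mem_sup.1 y1
    have a1 : a ^ orderOf σ = 1 := by
      have a0 : N (im a * b) = 1 := y2
      rwa [map_mul, show N b = 1 from CN hb, mul_one, Ni] at a0
    have a2 : a ∈ Subgroup.closure (range ε) ⊓ torsion F' :=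
      ⟨ha, isOfFinOrder_iff_pow_eq_one.2 ⟨_, o0, a1⟩⟩
    rw [tf q 1 ε ε0 L0, Subgroup.mem_bot] at a2
    rwa [a2, map_one, one_mul]
  have h3 := congrArg (Nat.cast : ℕ → ℝ) (idx N (Subgroup.closure (range U)))
  rw [h1, ← Subgroup.inf_relIndex_right, h2] at h3
  have w0 : (0 : ℝ) < torsionOrder F := Nat.cast_pos.2 (Units.torsionOrder_pos F)
  have w1 : (0 : ℝ) < torsionOrder F' := Nat.cast_pos.2 (Units.torsionOrder_pos F')
  have k7 := abs_pos.2 k6
  refine ⟨CN, fun h => ?_, fun h x x1 x2 => ?_, ?_⟩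
  · rw [← h1, Subgroup.index_map, h, mul_zero, Nat.cast_zero, zero_mul, mul_zero] at k2
    exact (mul_pos w1 k7).ne k2
  · have k8 := tf _ (.inl 1) U (by simp [U, ε0])
      (abs_pos.1 (k4 ▸ mul_pos (mul_pos o1 k7) (norm_pos_iff.2 h)))
    exact Subgroup.mem_bot.1 (k8 ▸ ⟨(h2.ge x1).1, x2⟩)
  rw [k4, hd] at k1
  generalize ‖∏ φ ∈ X, ∑ g, (φ g : ℂ) * (2 * Real.log (w (ρ g u)) : ℝ)‖ = P at k1 ⊢
  push_cast at h3 k1
  generalize |(LM q 1 fun γ => ε γ ^ orderOf σ).det| = D at *
  rw [← mul_div_assoc, ← mul_div_assoc, div_eq_div_iff w1.ne' w0.ne']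
  refine mul_left_cancel₀ (a := orderOf σ * D) (by positivity) ?_
  linear_combination (-(N.range.index * regulator F')) * k1 +
    (orderOf σ * finrank ℚ F' * regulator F * regulator F') * h3 +
    (orderOf σ * regulator F * (Subgroup.closure (range c)).relIndex N.ker) * k2

end Vale.Agent.P014X.Cv0
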