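import Vale.Agent.P014T.Sg.Gc

/-! # P014X: the weight one Eisenstein series at `s = 1`, Gaussian regularisation (helper5) -/

set_option autoImplicit false
set_option linter.all false

open Complex Filter Topology Metric
open scoped Real ComplexConjugate

noncomputable section

namespace Vale.Agent.P014X.An

open Vale.Agent.P014T.Sg

/-- the non holomorphic weight one Eisenstein series -/
def E1 (τ z : ℂ) : ℂ := logDeriv (th τ) z + 2 * π * I * z.im / τ.im

namespace Eis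

variable {τ : ℂ}

/-- the lattice point -/
def om (τ : ℂ) (x : ℤ × ℤ) : ℂ := x.1 * τ + x.2

/-- the Gaussian -/
def gs (t : ℝ) (w : ℂ) : ℂ := Real.exp (-t * ‖w‖ ^ 2)

/-- the summand -/
def F (t : ℝ) (w : ℂ) : ℂ := gs t w / w

/-- the remainder -/
def R (t : ℝ) (z w : ℂ) : ℂ :=
  F t (z + w) - F t w + z * (gs t w * (1 / w ^ 2 + t * conj w / w)) + conj z * (gs t w * (t * w / w))

/-- the periods -/
def pp (h : 0 < τ.im) : PeriodPair := ⟨τ, 1, by
  rw [LinearIndependent.pair_iff]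
  intro s t e
  have a := congrArg im e
  have b := congrArg re e
  simp [h.ne'] at a
  simpa [a] using b⟩

theorem mem (h : 0 < τ.im) (z : ℂ) : z ∈ (pp h).lattice ↔ ∃ m n : ℤ, m * τ + n = z := by
  rw [PeriodPair.mem_lattice]
  simp [pp]

theorem om_ne (h : 0 < τ.im) {x : ℤ × ℤ} (k : x ≠ 0) : om τ x ≠ 0 := fun e => k (by
  have a := congrArg im e
  have b := congrArg re e
  simp [om, h.ne'] at a
  simp [om, a] at b
  exact Prod.ext a b)

theorem om_zero : om τ 0 = 0 := by simp [om]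

theorem om_neg (x : ℤ × ℤ) : om τ (-x) = -om τ x := by simp [om]; ring

theorem om_add (x y : ℤ × ℤ) : om τ (x + y) = om τ x + om τ y := by simp [om]; ring

theorem sum3 (h : 0 < τ.im) (C : ℝ) : Summable fun x : ℤ × ℤ => C / ‖om τ x‖ ^ 3 := by
  have := ((summable_prod_eisSummand (k := 3) le_rfl ⟨τ, h⟩).norm).mul_left C
  refine this.congr fun x => ?_
  simp [EisensteinSeries.eisSummand, om, div_eq_mul_inv]

theorem low (h : 0 < τ.im) {z : ℂ} (k : z = 0 ∨ z ∉ (pp h).lattice) :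
    ∃ ε > 0, ∀ x ≠ 0, 2 * ε ≤ ‖z + om τ x‖ := by
  have : z ∈ (((pp h).lattice : Set ℂ) \ {0})ᶜ := fun m => k.elim m.2 fun k => k m.1
  obtain ⟨ε, e, s⟩ := Metric.isOpen_iff.1 (pp h).isOpen_compl_lattice_sdiff z this
  refine ⟨ε / 2, by positivity, fun x hx => not_lt.1 fun l => s (a := -om τ x) ?_ ⟨?_, ?_⟩⟩
  · rw [mem_ball, dist_comm, dist_eq_norm, sub_neg_eq_add]
    linarith
  · exact neg_mem ((mem h _).2 ⟨x.1, x.2, rfl⟩)
  · exact neg_ne_zero.2 (om_ne h hx)

theorem sep (h : 0 < τ.im) {z : ℂ} (k : z = 0 ∨ z ∉ (pp h).lattice) : ∃ ε > 0, ∃ K ≥ (1 : ℝ),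
    ∀ w ∈ ball z ε, ‖w‖ ≤ K ∧ ∀ x ≠ 0, ‖om τ x‖ ≤ K * ‖w + om τ x‖ ∧ ‖w‖ ≤ K * ‖om τ x‖ := by
  obtain ⟨ε, e, s⟩ := low h k
  obtain ⟨δ, d, u⟩ := low h (z := 0) (.inl rfl)
  have n := norm_nonneg z
  obtain ⟨ρ, hρ⟩ : ∃ ρ, ρ = ‖z‖ + ε := ⟨_, rfl⟩
  have r : 0 < ρ := by linarith
  have a1 : 0 < ρ / ε := by positivity
  have a2 : 0 < ρ / δ := by positivity
  refine ⟨ε, e, 1 + ρ + ρ / ε + ρ / δ, by linarith, fun w hw => ?_⟩
  rw [mem_ball, dist_eq_norm] at hw
  have b : ‖w‖ ≤ ρ := by linarith [norm_le_norm_add_norm_sub' w z]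
  refine ⟨by linarith, fun x hx => ⟨?_, ?_⟩⟩
  · have c : ε ≤ ‖w + om τ x‖ := by
      have := norm_sub_le (w + om τ x) (w - z)
      rw [show w + om τ x - (w - z) = z + om τ x by ring] at this
      linarith [s x hx]
    have c' := norm_sub_le (w + om τ x) w
    rw [add_sub_cancel_left] at c'
    have : ρ ≤ ρ / ε * ‖w + om τ x‖ := by
      rw [div_mul_eq_mul_div, le_div_iff₀ e]
      gcongr
    nlinarith
  · have c := u x hx
    rw [zero_add] at c
    have : ρ ≤ ρ / δ * ‖om τ x‖ := by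
      rw [div_mul_eq_mul_div, le_div_iff₀ d]
      gcongr
      linarith
    nlinarith

theorem ex2 {p q M : ℝ} (a : Real.exp (-p) ≤ M) (b : Real.exp (-q) ≤ M) :
    |Real.exp (-q) - Real.exp (-p) + (q - p) * Real.exp (-p)| ≤ (q - p) ^ 2 * M := by
  have k : ∀ p q : ℝ, Real.exp (-p) * (1 - (q - p)) ≤ Real.exp (-q) := fun p q => by
    rw [show -q = -p + -(q - p) by ring, Real.exp_add]
    gcongr
    linarith [Real.add_one_le_exp (-(q - p))]
  have h1 := k p q
  have h2 := k q p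
  generalize Real.exp (-p) = u at *
  generalize Real.exp (-q) = v at *
  rw [show p - q = -(q - p) by ring] at h2
  generalize q - p = x at *
  rw [abs_of_nonneg (by linarith)]
  have s := sq_nonneg x
  rcases le_total 0 x with l | l
  · nlinarith [mul_le_mul_of_nonneg_left h1 l, mul_le_mul_of_nonneg_left a s]
  · nlinarith [mul_le_mul_of_nonneg_left h2 (neg_nonneg.2 l), mul_le_mul_of_nonneg_left b s]

theorem ex0 {y : ℝ} (h : 0 ≤ y) : y * Real.exp (-y) ≤ 1 ∧ y ^ 2 * Real.exp (-y) ≤ 2 := by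
  have := Real.quadratic_le_exp_of_nonneg h
  have e := Real.exp_pos y
  rw [Real.exp_neg, ← div_eq_mul_inv, ← div_eq_mul_inv, div_le_iff₀ e, div_le_iff₀ e]
  constructor <;> nlinarith

theorem n_gs (t : ℝ) (w : ℂ) : ‖gs t w‖ = Real.exp (-(t * ‖w‖ ^ 2)) := by
  rw [gs, norm_real, Real.norm_of_nonneg (Real.exp_pos _).le, neg_mul]

theorem bd {t K : ℝ} {z w : ℂ} (ht : 0 < t) (hK : 1 ≤ K) (w0 : w ≠ 0) (a : ‖w‖ ≤ K * ‖z + w‖)
    (b : ‖z‖ ≤ K * ‖w‖) : ‖R t z w‖ ≤ 23 * K ^ 7 * ‖z‖ ^ 2 / ‖w‖ ^ 3 := by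
  have hw := norm_pos_iff.2 w0
  have K0 : 0 < K := by linarith
  have hb : 0 < ‖z + w‖ := pos_of_mul_pos_left (hw.trans_le (mul_comm K _ ▸ a)) K0.le
  have z0 := norm_pos_iff.1 hb
  have hz := norm_nonneg z
  obtain ⟨δ, hδ⟩ : ∃ δ : ℝ, δ = ‖z + w‖ ^ 2 - ‖w‖ ^ 2 := ⟨_, rfl⟩
  have d1 : (δ : ℂ) = z * conj w + conj z * w + (‖z‖ ^ 2 : ℝ) := by
    rw [hδ]
    push_cast
    simp only [← mul_conj', map_add]
    ring
  have d2 : |δ| ≤ 3 * K * ‖z‖ * ‖w‖ := by
    have := congrArg norm d1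
    rw [norm_real, Real.norm_eq_abs] at this
    rw [this]
    refine (norm_add₃_le).trans ?_
    simp only [norm_mul, norm_conj, norm_real, norm_pow, norm_norm]
    nlinarith [mul_le_mul_of_nonneg_left b hz, mul_nonneg (sub_nonneg.2 hK) (mul_nonneg hz hw.le)]
  have e : R t z w = (gs t (z + w) - gs t w + t * δ * gs t w) / (z + w) +
      (gs t w * (z ^ 2 / (w ^ 2 * (z + w))) + t * gs t w * δ * z / (w * (z + w)) +
        -(t * gs t w * (‖z‖ ^ 2 : ℝ) / w)) := by
    rw [R, F, F, d1]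
    field_simp
    ring
  obtain ⟨y, hy⟩ : ∃ y : ℝ, y = t * ‖w‖ ^ 2 / K ^ 2 := ⟨_, rfl⟩
  have y0 : 0 ≤ y := by rw [hy]; positivity
  have K2 : 1 ≤ K ^ 2 := one_le_pow₀ hK
  have m1 : Real.exp (-(t * ‖w‖ ^ 2)) ≤ Real.exp (-y) := by
    rw [hy]
    gcongr
    exact div_le_self (by positivity) K2
  have m2 : Real.exp (-(t * ‖z + w‖ ^ 2)) ≤ Real.exp (-y) := by
    rw [hy]
    gcongr
    rw [div_le_iff₀ (by positivity), mul_assoc, ← mul_pow, mul_comm _ K]
    gcongr
  have ib : 1 / ‖z + w‖ ≤ K / ‖w‖ := by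
    rw [div_le_div_iff₀ hb hw, one_mul]
    exact a
  have t1 : ‖(gs t (z + w) - gs t w + t * δ * gs t w) / (z + w)‖ ≤ 18 * K ^ 7 * ‖z‖ ^ 2 / ‖w‖ ^ 3 := by
    have := ex2 m1 m2
    rw [← mul_sub, ← hδ] at this
    have q : gs t (z + w) - gs t w + t * δ * gs t w = ((Real.exp (-(t * ‖z + w‖ ^ 2)) -
        Real.exp (-(t * ‖w‖ ^ 2)) + t * δ * Real.exp (-(t * ‖w‖ ^ 2)) : ℝ) : ℂ) := by
      simp only [gs, neg_mul, ofReal_add, ofReal_sub, ofReal_mul]
    rw [norm_div, q, norm_real, Real.norm_eq_abs, div_eq_mul_one_div]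
    calc _ ≤ (t * (3 * K * ‖z‖ * ‖w‖)) ^ 2 * Real.exp (-y) * (K / ‖w‖) := by
          refine mul_le_mul (this.trans ?_) ib (by positivity) (by positivity)
          rw [mul_pow, ← sq_abs δ, ← mul_pow]
          gcongr
      _ = 9 * K ^ 7 * ‖z‖ ^ 2 * (y ^ 2 * Real.exp (-y)) / ‖w‖ ^ 3 := by
          generalize Real.exp (-y) = E
          rw [hy]
          field_simp
          ring
      _ ≤ 9 * K ^ 7 * ‖z‖ ^ 2 * 2 / ‖w‖ ^ 3 := by gcongr; exact (ex0 y0).2
      _ = _ := by ring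
  have g1 : ‖gs t w‖ ≤ 1 := by
    rw [n_gs, Real.exp_le_one_iff, neg_nonpos]
    positivity
  have g2 : t * ‖gs t w‖ ≤ 1 / ‖w‖ ^ 2 := by
    rw [le_div_iff₀ (by positivity), mul_right_comm, n_gs]
    exact (ex0 (by positivity)).1
  have K7 : ∀ n ≤ 7, K ^ n ≤ K ^ 7 := fun n l => pow_le_pow_right₀ hK l
  have t2 : ‖gs t w * (z ^ 2 / (w ^ 2 * (z + w)))‖ ≤ K ^ 7 * ‖z‖ ^ 2 / ‖w‖ ^ 3 := by
    rw [norm_mul, norm_div, norm_mul, norm_pow, norm_pow, ← div_div, div_eq_mul_one_div]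
    calc _ ≤ 1 * (‖z‖ ^ 2 / ‖w‖ ^ 2 * (K / ‖w‖)) := by gcongr
      _ = K ^ 1 * ‖z‖ ^ 2 / ‖w‖ ^ 3 := by field_simp
      _ ≤ _ := by gcongr; omega
  have t3 : ‖t * gs t w * δ * z / (w * (z + w))‖ ≤ 3 * K ^ 7 * ‖z‖ ^ 2 / ‖w‖ ^ 3 := by
    rw [norm_div, norm_mul, norm_mul, norm_mul, norm_mul, norm_real, norm_real, Real.norm_eq_abs δ,
      Real.norm_of_nonneg ht.le, ← div_div, div_eq_mul_one_div]
    calc _ ≤ 1 / ‖w‖ ^ 2 * (3 * K * ‖z‖ * ‖w‖) * ‖z‖ / ‖w‖ * (K / ‖w‖) := by gcongr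
      _ = 3 * K ^ 2 * ‖z‖ ^ 2 / ‖w‖ ^ 3 := by field_simp
      _ ≤ _ := by gcongr; omega
  have t4 : ‖-(t * gs t w * (‖z‖ ^ 2 : ℝ) / w)‖ ≤ K ^ 7 * ‖z‖ ^ 2 / ‖w‖ ^ 3 := by
    rw [norm_neg, norm_div, norm_mul, norm_mul, norm_real, norm_real, Real.norm_of_nonneg ht.le,
      Real.norm_of_nonneg (by positivity)]
    calc _ ≤ 1 / ‖w‖ ^ 2 * ‖z‖ ^ 2 / ‖w‖ := by gcongr
      _ = K ^ 0 * ‖z‖ ^ 2 / ‖w‖ ^ 3 := by field_simp
      _ ≤ _ := by gcongr; omega
  rw [e]
  refine ((norm_add_le _ _).trans (add_le_add t1 (norm_add₃_le.trans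
    (add_le_add_three t2 t3 t4)))).trans (le_of_eq ?_)
  ring

theorem s_gs (h : 0 < τ.im) {t : ℝ} (ht : 0 < t) : Summable fun x : ℤ × ℤ => ‖gs t (om τ x)‖ := by
  refine .of_norm_bounded_eventually (sum3 h (1 / t + 2 / t ^ 2)) ?_
  filter_upwards [eventually_cofinite_ne 0] with x x0
  have w0 := norm_pos_iff.2 (om_ne h x0)
  rw [norm_norm, n_gs]
  generalize ‖om τ x‖ = a at *
  obtain ⟨e1, e2⟩ := ex0 (y := t * a ^ 2) (by positivity)
  have e := Real.exp_pos (-(t * a ^ 2))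
  generalize Real.exp (-(t * a ^ 2)) = E at *
  have b1 : a ^ 2 * E ≤ 1 / t := by rw [le_div_iff₀ ht]; linarith
  have b2 : a ^ 4 * E ≤ 2 / t ^ 2 := by rw [le_div_iff₀ (by positivity)]; linarith
  rw [le_div_iff₀ (by positivity)]
  nlinarith [mul_nonneg (mul_nonneg e.le (sq_nonneg a)) (sq_nonneg (a - 1)),
    mul_nonneg e.le (sq_nonneg a), mul_nonneg e.le (sq_nonneg (a ^ 2))]

theorem s_mul (h : 0 < τ.im) {t : ℝ} (ht : 0 < t) {u : ℂ → ℂ} {C : ℝ}
    (b : ∀ x, ‖u (om τ x)‖ ≤ C) : Summable fun x : ℤ × ℤ => gs t (om τ x) * u (om τ x) :=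
  .of_norm_bounded ((s_gs h ht).mul_right C) fun x => by
    rw [norm_mul]
    gcongr
    exact b x

theorem inv_bd (h : 0 < τ.im) : ∃ C, ∀ x, ‖1 / om τ x‖ ≤ C := by
  obtain ⟨δ, d, u⟩ := low h (z := 0) (.inl rfl)
  refine ⟨1 / δ, fun x => ?_⟩
  by_cases k : x = 0
  · simp [k, om_zero, d.le]
  · have := u x k
    rw [zero_add] at this
    rw [norm_div, norm_one]
    gcongr
    linarith

theorem n_div (w : ℂ) : ‖w‖ / ‖w‖ ≤ 1 := div_self_le_one _

/-- the Gaussian sum -/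
def G (τ : ℂ) (t : ℝ) (z : ℂ) : ℂ := ∑' x : ℤ × ℤ, F t (z + om τ x)

/-- the tail of the zeta function -/
def Z0 (τ z : ℂ) : ℂ := ∑' x : ℤ × ℤ, z ^ 2 / (om τ x ^ 2 * (z + om τ x))

theorem G_per (t : ℝ) (z : ℂ) (y : ℤ × ℤ) : G τ t (z + om τ y) = G τ t z := by
  rw [G, G, ← (Equiv.addLeft y).tsum_eq fun x => F t (z + om τ x)]
  simp only [Equiv.coe_addLeft, om_add, add_assoc]

theorem F_neg (t : ℝ) (w : ℂ) : F t (-w) = -F t w := by simp [F, gs, div_neg]

theorem G_neg (t : ℝ) (z : ℂ) : G τ t (-z) = -G τ t z := by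
  rw [G, G, ← (Equiv.neg _).tsum_eq fun x => F t (z + om τ x), ← tsum_neg]
  simp only [Equiv.neg_apply, om_neg, ← F_neg, neg_add, neg_neg]

theorem R_bd (h : 0 < τ.im) {z : ℂ} (k : z ∉ (pp h).lattice) : ∃ C, ∀ t > 0, ∀ x,
    ‖R t z (om τ x)‖ ≤ C / ‖om τ x‖ ^ 3 + if x = 0 then 1 / ‖z‖ else 0 := by
  obtain ⟨ε, e, K, hK, s⟩ := sep h (.inr k)
  refine ⟨23 * K ^ 7 * ‖z‖ ^ 2, fun t ht x => ?_⟩
  split_ifs with l
  · simp only [l, om_zero, R, F, add_zero, div_zero, sub_zero, mul_zero, norm_zero, ne_eq,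
      OfNat.ofNat_ne_zero, not_false_eq_true, zero_pow, zero_add, norm_div, n_gs]
    gcongr
    rw [Real.exp_le_one_iff, neg_nonpos]
    positivity
  · obtain ⟨a, b⟩ := (s z (mem_ball_self e)).2 x l
    rw [add_zero]
    exact bd ht hK (om_ne h l) a b

theorem s_bd (h : 0 < τ.im) (C D : ℝ) :
    Summable fun x : ℤ × ℤ => C / ‖om τ x‖ ^ 3 + if x = 0 then D else 0 :=
  (sum3 h C).add (hasSum_ite_eq (0 : ℤ × ℤ) D).summable

theorem split (h : 0 < τ.im) {t : ℝ} (ht : 0 < t) : ∃ a b : ℂ, ∀ z ∉ (pp h).lattice,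
    (Summable fun x => F t (z + om τ x)) ∧ G τ t z = ∑' x, R t z (om τ x) + z * a + conj z * b := by
  obtain ⟨C, c⟩ := inv_bd h
  have s1 : Summable fun x => F t (om τ x) :=
    (s_mul h ht (u := fun w => 1 / w) c).congr fun x => by rw [F, mul_one_div]
  have s2 := s_mul h ht (u := fun w => 1 / w ^ 2 + t * conj w / w)
    (C := C ^ 2 + t) fun x => (norm_add_le _ _).trans (add_le_add (by
      rw [← one_div_pow, norm_pow]
      gcongr
      exact c x) (by
      rw [mul_div_assoc, norm_mul, norm_div, norm_conj, norm_real, Real.norm_of_nonneg ht.le]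
      exact mul_le_of_le_one_right ht.le (n_div _)))
  have s3 := s_mul h ht (u := fun w => t * w / w) (C := t) fun x => by
    rw [mul_div_assoc, norm_mul, norm_div, norm_real, Real.norm_of_nonneg ht.le]
    exact mul_le_of_le_one_right ht.le (n_div _)
  have z0 : ∑' x, F t (om τ x) = 0 := by
    have := G_neg (τ := τ) t 0
    rw [neg_zero, eq_neg_iff_add_eq_zero, add_self_eq_zero] at this
    simpa [G] using this
  refine ⟨-∑' x, gs t (om τ x) * (1 / om τ x ^ 2 + t * conj (om τ x) / om τ x),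
    -∑' x, gs t (om τ x) * (t * om τ x / om τ x), fun z k => ?_⟩
  obtain ⟨D, d⟩ := R_bd h k
  have s4 : Summable fun x => R t z (om τ x) := .of_norm_bounded (s_bd h _ _) (d t ht)
  have := ((s4.hasSum.add s1.hasSum).sub (s2.hasSum.mul_left z)).sub (s3.hasSum.mul_left (conj z))
  rw [z0] at this
  replace : HasSum (fun x => F t (z + om τ x)) _ := this.congr' (by
    refine .of_forall fun s => Finset.sum_congr rfl fun x _ => ?_
    simp only [R]
    ring)
  exact ⟨this.summable, this.tsum_eq.trans (by ring)⟩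

theorem gs_lim (w : ℂ) : Tendsto (fun t => gs t w) (𝓝[>] 0) (𝓝 1) := by
  have : Continuous fun t => gs t w := by unfold gs; fun_prop
  simpa [gs] using (this.tendsto 0).mono_left nhdsWithin_le_nhds

theorem R_lim (h : 0 < τ.im) {z : ℂ} (k : z ∉ (pp h).lattice) :
    Tendsto (fun t => ∑' x, R t z (om τ x)) (𝓝[>] 0) (𝓝 (1 / z + Z0 τ z)) := by
  obtain ⟨D, d⟩ := R_bd h k
  obtain ⟨ε, e, K, hK, s⟩ := sep h (.inr k)
  have l : ∀ x, Tendsto (fun t => R t z (om τ x)) (𝓝[>] 0)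
      (𝓝 ((if x = 0 then 1 / z else 0) + z ^ 2 / (om τ x ^ 2 * (z + om τ x)))) := fun x => by
    have : Continuous fun t => R t z (om τ x) := by unfold R F gs; fun_prop
    refine ((this.tendsto 0).mono_left nhdsWithin_le_nhds).trans_eq (congrArg _ ?_)
    split_ifs with l
    · simp [R, F, gs, l, om_zero]
    · have a := om_ne h l
      have b : z + om τ x ≠ 0 := fun e => k (by
        rw [eq_neg_of_add_eq_zero_left e]
        exact neg_mem ((mem h _).2 ⟨x.1, x.2, rfl⟩))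
      simp only [R, F, gs, neg_zero, zero_mul, Real.exp_zero, ofReal_one, ofReal_zero]
      field_simp
      ring
  have := tendsto_tsum_of_dominated_convergence (s_bd h D (1 / ‖z‖)) l
    (eventually_mem_nhdsWithin.mono fun t ht => d t ht)
  have s0 : Summable fun x => (if x = 0 then 1 / z else 0) + z ^ 2 / (om τ x ^ 2 * (z + om τ x)) :=
    .of_norm_bounded (s_bd h D (1 / ‖z‖)) fun x => le_of_tendsto (l x).norm
      (eventually_mem_nhdsWithin.mono fun t ht => d t ht x)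
  have s1 := hasSum_ite_eq (0 : ℤ × ℤ) (1 / z)
  have s2 := s0.sub s1.summable
  simp only [add_sub_cancel_left] at s2
  rwa [s1.summable.tsum_add s2, s1.tsum_eq] at this

theorem Z0_diff (h : 0 < τ.im) {z : ℂ} (k : z = 0 ∨ z ∉ (pp h).lattice) :
    DifferentiableAt ℂ (Z0 τ) z := by
  obtain ⟨ε, e, K, hK, s⟩ := sep h k
  refine (differentiableOn_tsum_of_summable_norm (sum3 h (K ^ 2 * K)) (fun x => ?_) isOpen_ball
    fun x w hw => ?_).differentiableAt (ball_mem_nhds z e)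
  · by_cases l : x = 0
    · simp [l, om_zero]
    · have a := om_ne h l
      refine .div (by fun_prop) (by fun_prop) fun w hw => mul_ne_zero (pow_ne_zero _ a) fun b => ?_
      have := ((s w hw).2 x l).1
      rw [b, norm_zero, mul_zero] at this
      exact a (norm_le_zero_iff.1 this)
  · by_cases l : x = 0
    · simp [l, om_zero]
    · have a := norm_pos_iff.2 (om_ne h l)
      obtain ⟨b, c⟩ := s w hw
      replace c := (c x l).1
      have d : 0 < ‖w + om τ x‖ := pos_of_mul_pos_left (a.trans_le (mul_comm K _ ▸ c)) (by linarith)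
      have ib : 1 / ‖w + om τ x‖ ≤ K / ‖om τ x‖ := by rwa [div_le_div_iff₀ d a, one_mul]
      rw [norm_div, norm_mul, norm_pow, norm_pow, ← div_div, div_eq_mul_one_div]
      calc _ ≤ K ^ 2 / ‖om τ x‖ ^ 2 * (K / ‖om τ x‖) := by gcongr
        _ = _ := by field_simp

theorem shift (h : 0 < τ.im) {z : ℂ} (k : z ∉ (pp h).lattice) (y : ℤ × ℤ) :
    z + om τ y ∉ (pp h).lattice := fun m =>
  k ((add_mem_cancel_right ((mem h _).2 ⟨y.1, y.2, rfl⟩)).1 m)

theorem cj_ne (h : 0 < τ.im) : τ - conj τ ≠ 0 := fun e => by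
  have := congrArg im e
  simp at this
  linarith

theorem G_lim (h : 0 < τ.im) {z : ℂ} (k : z ∉ (pp h).lattice) : ∃ a b : ℂ, ∀ w ∉ (pp h).lattice,
    Tendsto (fun t => G τ t w) (𝓝[>] 0) (𝓝 (1 / w + Z0 τ w + w * a + conj w * b)) := by
  have := fun t : ℝ => (em (0 < t)).elim (fun ht => (split h ht).imp fun a => Exists.imp fun b p =>
    fun (_ : 0 < t) => p) fun n => ⟨0, 0, fun ht => (n ht).elim⟩
  choose a b e using this
  have q : ∀ y, ∃ c, Tendsto (fun t => om τ y * a t + conj (om τ y) * b t) (𝓝[>] 0) (𝓝 c) :=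
    fun y => ⟨_, ((R_lim h k).sub (R_lim h (shift h k y))).congr' (by
      filter_upwards [eventually_mem_nhdsWithin] with t ht
      have e1 := (e t ht z k).2
      have e2 := (e t ht _ (shift h k y)).2
      rw [G_per, map_add] at e2
      linear_combination e2 - e1)⟩
  obtain ⟨c1, q1⟩ := q (0, 1)
  obtain ⟨c2, q2⟩ := q (1, 0)
  simp only [om, Int.cast_zero, Int.cast_one, zero_mul, one_mul, zero_add, add_zero, map_one] at q1 q2
  have n := cj_ne h
  have lb : Tendsto b (𝓝[>] 0) (𝓝 ((τ * c1 - c2) / (τ - conj τ))) :=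
    (((q1.const_mul τ).sub q2).div_const _).congr fun t => by field_simp; ring
  have la : Tendsto a (𝓝[>] 0) (𝓝 (c1 - (τ * c1 - c2) / (τ - conj τ))) :=
    (q1.sub lb).congr fun t => by ring
  refine ⟨_, _, fun w hw => (((R_lim h hw).add (la.const_mul w)).add (lb.const_mul (conj w))).congr' ?_⟩
  filter_upwards [eventually_mem_nhdsWithin] with t ht
  exact (e t ht w hw).2.symm

theorem th_nz (h : 0 < τ.im) {z : ℂ} (k : z ∉ (pp h).lattice) : th τ z ≠ 0 :=
  th_ne h (mt (mem h z).2 k)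

theorem ld_ee (a b z : ℂ) : logDeriv (fun w => ee (a * w + b)) z = 2 * π * I * a := by
  have : HasDerivAt (fun w => ee (a * w + b)) (ee (a * z + b) * (2 * π * I) * a) z :=
    (ee_der _).comp z (by simpa using ((hasDerivAt_id z).const_mul a).add_const b)
  have n := ee_ne (a * z + b)
  rw [logDeriv_apply, this.deriv]
  field_simp

theorem ld_add (f : ℂ → ℂ) (z w : ℂ) : logDeriv (fun x => f (x + w)) z = logDeriv f (z + w) := by
  rw [logDeriv_apply, logDeriv_apply, deriv_comp_add_const]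

theorem E1_one (z : ℂ) : E1 τ (z + 1) = E1 τ z := by
  rw [E1, E1, ← ld_add, funext th_one]
  simp [logDeriv_apply, neg_div_neg_eq]

theorem E1_tau (h : 0 < τ.im) {z : ℂ} (k : z ∉ (pp h).lattice) : E1 τ (z + τ) = E1 τ z := by
  have e : (fun x => th τ (x + τ)) = fun x => -1 * (ee (-1 * x + -(τ / 2)) * th τ x) :=
    funext fun x => by
      rw [th_tau h, show -1 * x + -(τ / 2) = -x - τ / 2 by ring]
      ring
  have n : (τ.im : ℂ) ≠ 0 := ofReal_ne_zero.2 h.ne'
  rw [E1, E1, ← ld_add, e, logDeriv_const_mul _ _ (by simp), logDeriv_mul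
    (f := fun x => ee (-1 * x + -(τ / 2))) z (ee_ne _) (th_nz h k) (by fun_prop) (th_dz h z), ld_ee, add_im, ofReal_add]
  field_simp
  ring

theorem E1_neg (h : 0 < τ.im) (z : ℂ) : E1 τ (-z) = -E1 τ z := by
  have e : (fun x => th τ (-x)) = fun x => -th τ x := funext (th_neg h)
  have := deriv_comp_neg (th τ) z
  rw [e, deriv.fun_neg, neg_inj] at this
  rw [E1, E1, logDeriv_apply, logDeriv_apply, ← this, th_neg h, neg_im, ofReal_neg]
  ring

theorem im_eq (z : ℂ) : 2 * π * I * (z.im : ℂ) = π * (z - conj z) := by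
  rw [sub_conj]
  push_cast
  ring

theorem per (h : 0 < τ.im) {u : ℂ → ℂ} (p1 : Function.Periodic u τ) (p2 : Function.Periodic u 1) :
    ∀ w ∈ (pp h).lattice, Function.Periodic u w := fun w hw => by
  obtain ⟨m, n, rfl⟩ := (mem h w).1 hw
  simpa using (p1.int_mul m).add_period (p2.int_mul n)

theorem lio (h : 0 < τ.im) {a b : ℂ} {g : ℂ → ℂ}
    (hg : ∀ w ∉ (pp h).lattice, g w = 1 / w + Z0 τ w - logDeriv (th τ) w + w * a + conj w * b)
    (p : ∀ w ∉ (pp h).lattice, g (w + τ) = g w ∧ g (w + 1) = g w) :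
    ∃ c, ∀ w ∉ (pp h).lattice, g w = c := by
  classical
  have dd : Differentiable ℂ (dslope (th τ) 0) := differentiableOn_univ.1
    ((differentiableOn_dslope univ_mem).2 (th_dz h).differentiableOn)
  have d0 : dslope (th τ) 0 0 ≠ 0 := by
    rw [dslope_same, (th_der h).deriv]
    exact mul_ne_zero (neg_ne_zero.2 two_pi_I_ne_zero) (pow_ne_zero _ (pp_ne h))
  have ld : ∀ {f : ℂ → ℂ} {w}, Differentiable ℂ f → f w ≠ 0 → DifferentiableAt ℂ (logDeriv f) w :=
    fun {f w} hf n => (hf.deriv w).div (hf w) n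
  obtain ⟨c, hc⟩ : ∃ c, c = Z0 τ 0 - logDeriv (dslope (th τ) 0) 0 := ⟨_, rfl⟩
  let U : ℂ → ℂ := fun w => if w ∈ (pp h).lattice then c else g w
  let H : ℂ → ℂ := fun w => U w - (w * a + conj w * b)
  have pe := per h (u := U) (fun w => by
      have e : w + τ ∈ (pp h).lattice ↔ w ∈ (pp h).lattice := add_mem_cancel_right (pp h).ω₁_mem_lattice
      by_cases m : w ∈ (pp h).lattice
      · simp only [U, e, m, if_true]
      · simp only [U, e, m, if_false, (p w m).1]) fun w => by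
      have e : w + 1 ∈ (pp h).lattice ↔ w ∈ (pp h).lattice := add_mem_cancel_right (pp h).ω₂_mem_lattice
      by_cases m : w ∈ (pp h).lattice
      · simp only [U, e, m, if_true]
      · simp only [U, e, m, if_false, (p w m).2]
  have ph : ∀ w ∈ (pp h).lattice, ∀ x, H (x + w) = H x - (w * a + conj w * b) := fun w m x => by
    simp only [H, pe w m x, map_add]
    ring
  have h0 : DifferentiableAt ℂ H 0 := by
    refine ((Z0_diff h (.inl rfl)).sub (ld dd d0)).congr_of_eventuallyEq ?_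
    filter_upwards [(pp h).compl_lattice_sdiff_singleton_mem_nhds 0] with x hx
    by_cases e : x = 0
    · simp [H, U, e, hc]
    · have m : x ∉ (pp h).lattice := fun m => hx ⟨m, e⟩
      have q : th τ = fun w => w * dslope (th τ) 0 w := funext fun w => by
        simpa [th_zero h] using (sub_smul_dslope (th τ) 0 w).symm
      have n := th_nz h m
      have l : logDeriv (th τ) x = 1 / x + logDeriv (dslope (th τ) 0) x := by
        rw [q] at n
        rw [← logDeriv_id' x, ← logDeriv_mul x e (right_ne_zero_of_mul n) (by fun_prop) (dd x), ← q]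
      simp only [H, U, m, if_false, hg x m, l, Pi.sub_apply]
      ring
  have d : Differentiable ℂ H := fun x => by
    by_cases m : x ∈ (pp h).lattice
    · have : H = fun y => H (y - x) - (x * a + conj x * b) := funext fun y => by
        rw [← ph x m, sub_add_cancel]
      rw [this]
      exact (DifferentiableAt.comp x (g := H) (by rwa [sub_self]) (by fun_prop)).sub_const _
    · have x0 : x ≠ 0 := fun e => m (e ▸ zero_mem _)
      have : DifferentiableAt ℂ (fun w : ℂ => 1 / w) x := by fun_prop (disch := exact x0)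
      refine ((this.add (Z0_diff h (.inr m))).sub (ld (th_dz h) (th_nz h m))).congr_of_eventuallyEq ?_
      filter_upwards [(pp h).isClosed_lattice.isOpen_compl.mem_nhds m] with y hy
      have hy' : y ∉ (pp h).lattice := hy
      simp only [H, U, hy', if_false, hg y hy', Pi.sub_apply, Pi.add_apply]
      ring
  have k := d.deriv.apply_eq_apply_of_bounded (IsZLattice.isCompact_range_of_periodic (pp h).lattice _
    d.deriv.continuous fun z w hw => by
      rw [← deriv_comp_add_const, funext (ph w hw), deriv_sub_const]).isBounded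
  obtain ⟨α, hα⟩ : ∃ α, α = deriv H 0 := ⟨_, rfl⟩
  have l := is_const_of_deriv_eq_zero (f := fun w => H w - w * α) (by fun_prop) fun x => by
    rw [deriv_fun_sub (d x) (by fun_prop), k x 0, ← hα]
    simp
  have e1 := l (0 + τ) 0
  have e2 := l (0 + 1) 0
  rw [ph τ (pp h).ω₁_mem_lattice] at e1
  rw [ph 1 (pp h).ω₂_mem_lattice, map_one] at e2
  have b0 : b = 0 := (mul_eq_zero.1 (show (τ - conj τ) * b = 0 by
    linear_combination e1 - τ * e2)).resolve_left (cj_ne h)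
  refine ⟨H 0, fun w m => ?_⟩
  have := l w 0
  simp only [H, U, m, if_false] at this ⊢
  rw [b0] at e2 this ⊢
  linear_combination this - w * e2

theorem main (h : 0 < τ.im) {z : ℂ} (k : z ∉ (pp h).lattice) :
    Tendsto (fun t => G τ t z) (𝓝[>] 0) (𝓝 (E1 τ z)) := by
  obtain ⟨a, b, l⟩ := G_lim h k
  obtain ⟨g, hg⟩ : ∃ g : ℂ → ℂ, ∀ w, g w = 1 / w + Z0 τ w + w * a + conj w * b := ⟨_, fun _ => rfl⟩
  simp only [← hg] at l
  have p : ∀ y, ∀ w ∉ (pp h).lattice, g (w + om τ y) = g w := fun y w m =>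
    tendsto_nhds_unique (l _ (shift h m y)) (by simpa only [G_per] using l w m)
  obtain ⟨c, e⟩ := lio h (a := a - π / τ.im) (b := b + π / τ.im) (g := fun w => g w - E1 τ w)
    (fun w _ => by rw [hg, E1, im_eq]; ring) fun w m => ⟨by
      rw [E1_tau h m, ← p (1, 0) w m]
      simp [om], by
      rw [E1_one, ← p (0, 1) w m]
      simp [om]⟩
  have m : -z ∉ (pp h).lattice := fun m => k (neg_mem_iff.1 m)
  have o : g (-z) = -g z := tendsto_nhds_unique (l _ m) (by simpa only [G_neg] using (l z k).neg)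
  have e1 := e z k
  have e2 := e _ m
  rw [o, E1_neg h] at e2
  rw [← show g z = E1 τ z by linear_combination (e1 - e2) / 2]
  exact l z k

end Eis

open Eis

variable {τ z : ℂ}

/-- the Gaussian sums converge -/
theorem eis1_sum (h : 0 < τ.im) (k : ¬ ∃ m n : ℤ, m * τ + n = z) {t : ℝ} (ht : 0 < t) :
    Summable fun x : ℤ × ℤ => cexp (-t * ‖z + x.1 * τ + x.2‖ ^ 2) / (z + x.1 * τ + x.2) := by
  obtain ⟨a, b, e⟩ := split h ht
  simpa [F, gs, om, add_assoc] using (e z (mt (mem h z).1 k)).1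

/-- **the weight one limit formula** -/
theorem eis1 (h : 0 < τ.im) (k : ¬ ∃ m n : ℤ, m * τ + n = z) :
    Tendsto (fun t : ℝ => ∑' x : ℤ × ℤ, cexp (-t * ‖z + x.1 * τ + x.2‖ ^ 2) / (z + x.1 * τ + x.2))
      (𝓝[>] 0) (𝓝 (E1 τ z)) := by
  simpa [G, F, gs, om, add_assoc] using main h (mt (mem h z).1 k)

theorem E1_neg (h : 0 < τ.im) (z : ℂ) : E1 τ (-z) = -E1 τ z := Eis.E1_neg h z

theorem E1_lat (h : 0 < τ.im) (k : ¬ ∃ m n : ℤ, m * τ + n = z) (m n : ℤ) :
    E1 τ (z + (m * τ + n)) = E1 τ z :=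
  have k := mt (mem h z).1 k
  tendsto_nhds_unique (main h (shift h k (m, n))) ((main h k).congr fun t => (G_per t z (m, n)).symm)

/-- **the logarithmic derivative of the smoothed theta function** -/
theorem ld_Gc (h : 0 < τ.im) {c : ℕ} (k : ¬ ∃ m n : ℤ, m * τ + n = c * z) :
    logDeriv (Gc c τ) z = c ^ 2 * E1 τ z - c * E1 τ (c * z) := by
  have n := th_ne h k
  have n' : th τ z ≠ 0 := th_ne h fun ⟨m, n, e⟩ => k ⟨c * m, c * n, by rw [← e]; push_cast; ring⟩
  have d := th_dz h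
  have l : logDeriv (fun w => th τ (c * w)) z = logDeriv (th τ) (c * z) * c := by
    have := logDeriv_comp (f := th τ) (g := fun w => c * w) (x := z) (d _) (by fun_prop)
    simpa [Function.comp_def] using this
  unfold Gc
  rw [logDeriv_div (f := fun w => ee ((c ^ 2 - 1) / 12 * τ + (c - c ^ 2) / 4) * th τ w ^ c ^ 2)
    (g := fun w => th τ (c * w)) z (mul_ne_zero (ee_ne _) (pow_ne_zero _ n')) n (by fun_prop) (by fun_prop),
    logDeriv_const_mul _ _ (ee_ne _), logDeriv_fun_pow (d z), l, E1, E1]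
  simp only [mul_im, natCast_re, natCast_im, zero_mul, add_zero]
  push_cast
  ring

/-- the scaled lattice -/
theorem eis1_smul (h : 0 < τ.im) (k : ¬ ∃ m n : ℤ, m * τ + n = z) {l : ℂ} (l0 : l ≠ 0) :
    Tendsto (fun t : ℝ => ∑' x : ℤ × ℤ, cexp (-t * ‖l * (z + x.1 * τ + x.2)‖ ^ 2) /
      (l * (z + x.1 * τ + x.2))) (𝓝[>] 0) (𝓝 (E1 τ z / l)) := by
  have p : 0 < ‖l‖ ^ 2 := by positivity
  have s : Tendsto (fun t : ℝ => t * ‖l‖ ^ 2) (𝓝[>] 0) (𝓝[>] 0) :=
    tendsto_nhdsWithin_iff.2 ⟨by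
      simpa using ((continuous_mul_const (‖l‖ ^ 2)).tendsto 0).mono_left nhdsWithin_le_nhds,
      eventually_mem_nhdsWithin.mono fun t ht => mul_pos ht p⟩
  refine (((eis1 h k).comp s).div_const l).congr fun t => ?_
  rw [Function.comp_apply, ← tsum_div_const]
  refine tsum_congr fun x => ?_
  rw [div_div, mul_comm _ l, norm_mul]
  congr 2
  push_cast
  ring

theorem eis1_smul_sum (h : 0 < τ.im) (k : ¬ ∃ m n : ℤ, m * τ + n = z) {l : ℂ} (l0 : l ≠ 0) {t : ℝ}
    (ht : 0 < t) : Summable fun x : ℤ × ℤ => cexp (-t * ‖l * (z + x.1 * τ + x.2)‖ ^ 2) /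
      (l * (z + x.1 * τ + x.2)) := by
  refine ((eis1_sum h k (t := t * ‖l‖ ^ 2) (by positivity)).div_const l).congr fun x => ?_
  rw [div_div, mul_comm _ l, norm_mul]
  congr 2
  push_cast
  ring

end Vale.Agent.P014X.An
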