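import Vale.Agent.P014X.An.St

/-! # P014X, analytic block: the glue -/

set_option autoImplicit false
set_option linter.all false

open NumberField NumberField.Units QuadraticAlgebra IsDedekindDomain Function
open scoped Classical

noncomputable section

namespace Vale.Agent.P014X.An

open Vale.Agent.P022 (Qb GQ GK)
open P027M.M (io)
open Cd (Tv)

/-- covolumes -/
def COV : Prop := ∀ (p : ℕ) (F' F Γ : Type) [Field F'] [NumberField F'] [Field F] [NumberField F]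
  [Algebra F' F] [CommGroup Γ] [Fintype Γ] (ρ : Γ →* (F ≃+* F)) φ σ u X, Cy p F' ρ φ σ u X →
  (∀ χ ∈ X, xs ρ φ u χ ≠ 0) → Cr ρ (ρ σ u / u) ≤ (nU F' F).ker ∧
    (∀ c ∈ Cr ρ (ρ σ u / u), c ∈ torsion F → c = 1) ∧ (nU F' F).range.index ≠ 0 ∧
    ((Cr ρ (ρ σ u / u)).relIndex (nU F' F).ker : ℝ) * (regulator F / torsionOrder F) =
      (nU F' F).range.index * (regulator F' / torsionOrder F') * ∏ χ ∈ X, ‖2 * xs ρ φ u χ‖

theorem cov_of (r0 : RG0) (r1 : RG1) (r2 : RG2) : COV := by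
  intro p F' F Γ _ _ _ _ _ _ _ ρ φ σ u X c h
  obtain ⟨a, b, d⟩ := r0 p F' F Γ ρ φ σ u X c h
  obtain ⟨e, f⟩ := r1 p F' F _ c.pr a b d
  have g := r2 p F' F Γ ρ φ σ u X c
  refine ⟨b, d, e, ?_⟩
  have w : (torsionOrder F : ℝ) ≠ 0 := Nat.cast_ne_zero.2 (torsionOrder_ne_zero F)
  have w' : (torsionOrder F' : ℝ) ≠ 0 := Nat.cast_ne_zero.2 (torsionOrder_ne_zero F')
  have q : (p : ℝ) ^ rank F' ≠ 0 := pow_ne_zero _ (Nat.cast_ne_zero.2 c.pr.ne_zero)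
  have f' := congrArg (Nat.cast : ℕ → ℝ) f
  push_cast at f'
  field_simp
  refine mul_left_cancel₀ q ?_
  linear_combination regulator F * f' + (nU F' F).range.index * torsionOrder F * g

namespace Ix

theorem lpos {F : Type} [Field F] [NumberField F] (S : Finset (Pm F)) :
    0 < ∏ w ∈ S, Real.log (Ideal.absNorm w.asIdeal) :=
  Finset.prod_pos fun w _ => Real.log_pos (by exact_mod_cast NumberField.HeightOneSpectrum.one_lt_absNorm w)

theorem rpos (F : Type) [Field F] [NumberField F] : 0 < regulator F / torsionOrder F :=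
  div_pos (regulator_pos F) (Nat.cast_pos.2 (torsionOrder_pos F))

theorem hR_eq (F : Type) [Field F] [NumberField F] :
    hR F = classNumber F * (regulator F / torsionOrder F) := mul_div_assoc _ _ _

variable {A B : ℤ} {D : Cd A B} {Γ : Type} [CommGroup Γ] [Fintype Γ] {π : D.G →* Γ}
  {H : Subgroup GQ}

theorem tv (sur : Surjective π) (ker : ∀ g, π g = 1 ↔ g.1 ∈ H) :
    Tv D.G H (Finset.univ.image fun γ => (surjInv sur γ).1) := by
  refine ⟨fun s h => ?_, fun g h => ?_⟩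
  · obtain ⟨γ, -, rfl⟩ := Finset.mem_image.1 h
    exact (surjInv sur γ).2
  · have k : ∀ γ, ((surjInv sur γ).1)⁻¹ * g ∈ H ↔ γ = π ⟨g, h⟩ := fun γ => by
      rw [← inv_mul_eq_one, ← surjInv_eq sur γ, ← map_inv, ← map_mul, ker, surjInv_eq sur]
      rfl
    refine ⟨_, ⟨Finset.mem_image_of_mem _ (Finset.mem_univ (π ⟨g, h⟩)), (k _).2 rfl⟩, ?_⟩
    rintro s ⟨a, b⟩
    obtain ⟨γ, -, rfl⟩ := Finset.mem_image.1 a
    rw [(k γ).1 b]

theorem sum_tv (sur : Surjective π) (χ : Γ →* ℂˣ) (f : GQ → ℂ) :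
    ∑ t ∈ Finset.univ.image fun γ => (surjInv sur γ).1, cq D (χ.comp π) t * f t =
      ∑ γ, (χ γ : ℂ) * f (surjInv sur γ).1 := by
  rw [Finset.sum_image fun a _ b _ e => injective_surjInv sur (Subtype.ext e)]
  refine Finset.sum_congr rfl fun γ _ => ?_
  rw [cq, dif_pos (surjInv sur γ).2, MonoidHom.comp_apply]
  exact congrArg (fun x => ((χ x : ℂˣ) : ℂ) * _) (surjInv_eq sur γ)

theorem lift (sur : Surjective π) (φ : D.G →* ℂˣ) (h : ∀ g, π g = 1 → φ g = 1) :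
    ∃ χ : Γ →* ℂˣ, χ.comp π = φ :=
  ⟨π.liftOfRightInverse _ (rightInverse_surjInv sur) ⟨φ, fun g a => h g a⟩,
    π.liftOfRightInverse_comp _ _ _⟩

end Ix

open Ix

theorem idx (gal : GAL) (rye : RYE) (cnf : CNF0) (loc : LOC) (uni : UNI) (sum : SUM) (smo : SMO)
    (cov : COV) : IDX := by
  intro A B D cf eu p a m hp p2 es a1 ad F' F _ _ _ _ _ jF σ g ζ T u S P hζ ac tT hu hS
  set j' := jF.comp (algebraMap F' F) with hj
  have le : GK jF ≤ GK j' := fun g h x => h _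
  have hG : GK jF ≤ D.G := le.trans P.G
  obtain ⟨T₀, b, ry⟩ := rye A B D cf p a m hp p2 ad
  obtain ⟨-, -, -, -, ⟨X, lx, -⟩, Γ, _, _, π, ρ, sur, ker, act, bij⟩ :=
    gal A B D cf m ad.ne F jF hG P.hm
  obtain ⟨cx, -, ⟨S', hS'⟩, fx, ⟨X', lx', -⟩, -⟩ :=
    gal A B D cf m ad.ne F' j' P.G (P.hm.trans le)
  obtain ⟨u0, un⟩ := uni A B D cf p a m hp es ad F' F jF σ T u P tT hu
  have σG : σ ∈ D.G := P.G P.s0
  set s : Γ := π ⟨σ, σG⟩ with hs
  have cj : ∀ h : D.G, jF (ρ (π h) (ρ s u / u)) = h.1 (σ (jF u) / jF u) := fun h => by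
    rw [act, map_div₀, hs, act]
  have pw : ∀ (i : ℕ) (x : Qb), σ x = x → (σ ^ i) x = x := fun i x h => by
    induction i with
    | zero => rfl
    | succ i e => rw [pow_succ, AlgEquiv.mul_apply, h, e]
  obtain ⟨Y, hY⟩ : ∃ Y : Finset (Γ →* ℂˣ), ∀ χ, χ ∈ Y ↔ χ s ≠ 1 :=
    ⟨(Set.toFinite {χ : Γ →* ℂˣ | χ s ≠ 1}).toFinset, fun χ => Set.Finite.mem_toFinset _⟩
  haveI := Fact.mk hp
  have cy : Cy p F' ρ (io.toRingHom.comp jF) s u Y := by
    refine ⟨hp, orderOf_eq_prime ?_ fun e => P.s1 ((ker _).1 e), cx, bij, fun x => ⟨fun e => ?_, ?_⟩,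
      u0, fun γ => ?_, hY⟩
    · rw [hs, ← map_pow]
      exact (ker _).2 P.sp
    · have e' : σ (jF x) = jF x := (act ⟨σ, σG⟩ x).symm.trans (congrArg jF e)
      obtain ⟨y, hy⟩ := fx (jF x) fun h k => by
        obtain ⟨i, k⟩ := P.gen h k
        have := congrArg (σ ^ i) (k x)
        rwa [← AlgEquiv.mul_apply, mul_inv_cancel_left, pw i _ e'] at this
      exact ⟨y, jF.injective hy⟩
    · rintro ⟨y, rfl⟩
      exact jF.injective ((act _ _).trans (P.s0 y))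
    · obtain ⟨h, rfl⟩ := sur γ
      obtain ⟨v, e⟩ := un h.1 h.2
      exact ⟨v, jF.injective (e.trans (cj h).symm)⟩
  have eC : Cr ρ (ρ s u / u) = Cu D jF (σ (jF u) / jF u) := by
    refine congrArg Subgroup.closure (Set.ext fun v => ⟨?_, ?_⟩)
    · rintro ⟨γ, e⟩
      obtain ⟨h, rfl⟩ := sur γ
      exact ⟨h.1, h.2, by rw [e, cj]⟩
    · rintro ⟨h, k, e⟩
      exact ⟨π ⟨h, k⟩, jF.injective (e.trans (cj ⟨h, k⟩).symm)⟩
  have sub : X' ⊆ X := fun φ h => (lx.X φ).2 fun g k => (lx'.X φ).1 h g (le k)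
  have mX : ∀ χ : Γ →* ℂˣ, χ.comp π ∈ X := fun χ => (lx.X _).2 fun g k => by
    rw [MonoidHom.comp_apply, (ker g).2 k, map_one]
  have mX' : ∀ χ : Γ →* ℂˣ, χ.comp π ∈ X' ↔ χ s = 1 := fun χ => by
    refine (lx'.X _).trans ⟨fun h => h ⟨σ, σG⟩ P.s0, fun h g k => ?_⟩
    obtain ⟨i, k⟩ := P.gen g.1 k
    have := (ker (((⟨σ, σG⟩ : D.G) ^ i)⁻¹ * g)).2 k
    rw [map_mul, map_inv, inv_mul_eq_one, map_pow] at this
    rw [MonoidHom.comp_apply, ← this, map_pow, ← hs, h, one_pow]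
  have bj : ∀ f : (D.G →* ℂˣ) → ℝ, ∏ χ ∈ Y, f (χ.comp π) = ∏ φ ∈ X \ X', f φ := fun f => by
    refine Finset.prod_bij (fun χ _ => χ.comp π) (fun χ h => ?_) (fun χ _ χ' _ e => ?_)
      (fun φ h => ?_) fun _ _ => rfl
    · exact Finset.mem_sdiff.2 ⟨mX χ, fun k => (hY χ).1 h ((mX' χ).1 k)⟩
    · exact (MonoidHom.cancel_right sur).1 e
    · obtain ⟨h, k⟩ := Finset.mem_sdiff.1 h
      obtain ⟨χ, rfl⟩ := lift sur φ fun g e => (lx.X φ).1 h g ((ker g).1 e)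
      exact ⟨χ, (hY χ).2 fun e => k ((mX' χ).2 e), rfl⟩
  have ex : ∀ χ : Γ →* ℂˣ, xs ρ (io.toRingHom.comp jF) u χ =
      (a ^ 2 - (cq D (χ.comp π) g)⁻¹) * c0 D m T₀ b (χ.comp π) := fun χ => by
    rw [← sum A B D cf eu p a m T₀ b hp es ad ry (GK jF) _ T g ζ (χ.comp π) hG P.hm (tv sur ker) tT hζ
      ac ((lx.X _).1 (mX χ)), sum_tv sur χ, xs]
    refine Finset.sum_congr rfl fun γ _ => ?_
    rw [← hu, ← act, surjInv_eq sur]
    rfl
  obtain ⟨cd, lo⟩ := loc A B D cf p m hp ad.ne F' F jF σ S' S P hS' hS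
  have cn := cnf A B D cf m T₀ b ry F' F j' jF X' X S' S lx' lx hS' hS le cd
  obtain ⟨s1, n1⟩ := smo A B D cf m ad.ne F jF X a g lx a1 ac.1
  obtain ⟨s2, n2⟩ := smo A B D cf m ad.ne F' j' X' a g lx' a1 ac.1
  rw [← Finset.prod_sdiff sub, s2] at s1
  have hp0 : 0 < hR F := by
    rw [hR_eq]
    exact mul_pos (Nat.cast_pos.2 (classNumber_pos F)) (rpos F)
  have c0n : ∏ φ ∈ X \ X', ‖c0 D m T₀ b φ‖ ≠ 0 := fun e => by
    rw [e, mul_zero] at cn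
    exact (mul_pos hp0 (lpos S)).ne' cn
  have s0n : ∏ φ ∈ X \ X', ‖(a : ℂ) ^ 2 - (cq D φ g)⁻¹‖ ≠ 0 := fun e => by
    rw [e, zero_mul] at s1
    exact n1 (Nat.cast_eq_zero.1 s1.symm)
  have pe : ∏ χ ∈ Y, ‖2 * xs ρ (io.toRingHom.comp jF) u χ‖ = 2 ^ Y.card *
      ((∏ φ ∈ X \ X', ‖(a : ℂ) ^ 2 - (cq D φ g)⁻¹‖) * ∏ φ ∈ X \ X', ‖c0 D m T₀ b φ‖) := by
    rw [← bj, ← bj, ← Finset.prod_mul_distrib, ← Finset.prod_const, ← Finset.prod_mul_distrib]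
    refine Finset.prod_congr rfl fun χ _ => ?_
    rw [ex, norm_mul, norm_mul, Complex.norm_ofNat]
  have pn : ∏ χ ∈ Y, ‖2 * xs ρ (io.toRingHom.comp jF) u χ‖ ≠ 0 := by
    rw [pe]
    exact mul_ne_zero (pow_ne_zero _ two_ne_zero) (mul_ne_zero s0n c0n)
  obtain ⟨k1, k2, k3, k4⟩ := cov p F' F Γ ρ _ s u Y cy fun χ h e =>
    Finset.prod_ne_zero_iff.1 pn χ h (by rw [e, mul_zero, _root_.norm_zero])
  rw [eC] at k1 k2 k4
  refine ⟨un, k1, k2, fun e => ?_, Y.card, ?_⟩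
  · rw [e, Nat.cast_zero, zero_mul] at k4
    exact mul_ne_zero (mul_ne_zero (Nat.cast_ne_zero.2 k3) (rpos F').ne') pn k4.symm
  · rw [lo, hR_eq, hR_eq] at cn
    rw [pe] at k4
    have cn' : (classNumber F : ℝ) * (regulator F / torsionOrder F) *
        (∏ w ∈ S, w.asIdeal.inertiaDeg (𝓞 F') : ℕ) = classNumber F' *
        (regulator F' / torsionOrder F') * ∏ φ ∈ X \ X', ‖c0 D m T₀ b φ‖ :=
      mul_right_cancel₀ (lpos S').ne' (by linear_combination cn)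
    refine Nat.cast_injective (R := ℝ) (mul_right_cancel₀ (rpos F).ne' ?_)
    rw [Nat.cast_mul, Nat.cast_mul, Nat.cast_mul, Nat.cast_mul, Nat.cast_mul, Nat.cast_mul, ← s1,
      Nat.cast_pow, Nat.cast_ofNat]
    generalize (sm a (GK j') D.G g : ℝ) = q at *
    linear_combination (classNumber F' * q) * k4 - (2 ^ Y.card * (nU F' F).range.index * q *
      ∏ φ ∈ X \ X', ‖(a : ℂ) ^ 2 - (cq D φ g)⁻¹‖) * cn'

end Vale.Agent.P014X.An
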