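import Vale.Agent.P014X.An.Sig
import Vale.Agent.P014X.Cm.Cf0
import Vale.Agent.P014T.Rk.Lwc

/-! # P014X: the logarithmic derivative of the elliptic function and the value at `s = 1` (helper5) -/

set_option autoImplicit false
set_option linter.all false

open Complex Filter Topology QuadraticAlgebra
open scoped Real ComplexConjugate Classical

noncomputable section

namespace Vale.Agent.P014X.An

open Vale.Agent.P022 (Qb)
open P027H P027M.M Eis Cf0
open P004M.TE (Pt al)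
open P004K (Un)
open P014T.An (Gd)
open P014T.Rk (Lw Lw_eq)

variable {A B : ℤ} (D : Cd A B)

/-- the weight one Eisenstein series of the period lattice -/
def Ek (z : ℂ) : ℂ := E1 (D.J ω) (z / D.Ω) / D.Ω

/-- `b i`, `i ∈ S`, are representatives of the classes modulo `m` -/
def Rp {ι : Type} (m : D.O) (S : Finset ι) (b : ι → D.O) : Prop := ∀ x, ∃! i, i ∈ S ∧ m ∣ x - b i

namespace Kl1

/-- coordinates -/
def eqv : ℤ × ℤ ≃ D.O where
  toFun x := ⟨x.2, x.1⟩
  invFun x := (x.im, x.re)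
  left_inv _ := rfl
  right_inv _ := rfl

theorem J_eqv (x : ℤ × ℤ) : JH D (eqv D x) = om (D.J ω) x := by
  rw [sp D (eqv D x)]
  simp [eqv, om, ← JH_eq, add_comm]

theorem mem0 {z : ℂ} : z ∈ (pp D.im).lattice ↔ ∃ x, z = JH D x :=
  (mem D.im z).trans ⟨fun ⟨a, b, e⟩ => ⟨_, e.symm.trans (J_eqv D (a, b)).symm⟩, fun ⟨x, e⟩ =>
    ⟨_, _, (J_eqv D ((eqv D).symm x)).symm.trans (by rw [Equiv.apply_symm_apply, e])⟩⟩

theorem hom0 : Hom D.Ω (pp D.im).lattice D.L := ⟨D.Ω0, fun z => by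
  rw [mem0, Cf0.mem_L]
  exact exists_congr fun x => by rw [mul_comm, mul_left_inj' D.Ω0]⟩

theorem nsq (x : D.O) : ‖JH D x‖ ^ 2 = D.nm x := by
  have : ((‖JH D x‖ ^ 2 : ℝ) : ℂ) = ((x.norm : ℝ) : ℂ) := by
    rw [ofReal_pow, ← mul_conj', JH_eq, ← J_star, ← JH_eq, ← JH_eq, ← map_mul,
      ← algebraMap_norm_eq_mul_star]
    simp
  have e := ofReal_injective this
  rw [Cd.nm, Nat.cast_natAbs, Int.cast_abs, ← e, abs_of_nonneg (sq_nonneg _)]

variable {D} {m : D.O} {ι : Type} {S : Finset ι} {b : ι → D.O}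

theorem dec' (hm : m ≠ 0) {f : D.O → ℂ} (r : ∀ x, f x ≠ 0 → ∃! i, i ∈ S ∧ m ∣ x - b i) {s : ι → ℂ}
    (h : ∀ i ∈ S, HasSum (fun y => f (b i + m * y)) (s i)) : HasSum f (∑ i ∈ S, s i) := by
  have := dom D
  have k := hasSum_sum (f := fun i x => if m ∣ x - b i then f x else 0) fun i hi => by
    refine (Function.Injective.hasSum_iff (g := fun y => b i + m * y)
      (fun y y' e => mul_left_cancel₀ hm (add_left_cancel e)) fun x hx => if_neg fun ⟨y, e⟩ =>
        hx ⟨y, by simp only [← e, add_sub_cancel]⟩).1 ?_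
    simpa [Function.comp_def] using h i hi
  refine k.congr_fun' fun x => ?_
  by_cases z : f x = 0
  · simp [z]
  obtain ⟨i, ⟨hi, d⟩, u⟩ := r x z
  rw [Finset.sum_eq_single_of_mem i hi fun j hj n => if_neg fun d => n (u j ⟨hj, d⟩), if_pos d]

theorem dec (hm : m ≠ 0) (r : Rp D m S b) {f : D.O → ℂ} {s : ι → ℂ}
    (h : ∀ i ∈ S, HasSum (fun y => f (b i + m * y)) (s i)) : HasSum f (∑ i ∈ S, s i) :=
  dec' hm (fun x _ => r x) h

theorem F_mul (t : ℝ) (l w : ℂ) : F t (l * w) = F (t * ‖l‖ ^ 2) w / l := by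
  rw [F, F, gs, gs, norm_mul, div_div, mul_comm w]
  congr 3
  ring

theorem cls (hm : m ≠ 0) {z : ℂ} (k : z / JH D m ∉ (pp D.im).lattice) {t : ℝ} (ht : 0 < t) :
    HasSum (fun y => F t (z + JH D (m * y))) (G (D.J ω) (t * ‖JH D m‖ ^ 2) (z / JH D m) / JH D m) := by
  have n : JH D m ≠ 0 := J_ne D hm
  obtain ⟨_, _, e⟩ := split D.im (t := t * ‖JH D m‖ ^ 2) (by positivity)
  refine (eqv D).hasSum_iff.1 (((e _ k).1.hasSum.div_const (JH D m)).congr_fun' fun x => ?_)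
  rw [Function.comp_apply, ← F_mul, map_mul, J_eqv, mul_add, mul_div_cancel₀ _ n]
  rfl

theorem lim (hm : m ≠ 0) {z : ℂ} (k : z ∉ (pp D.im).lattice) :
    Tendsto (fun t => G (D.J ω) (t * ‖JH D m‖ ^ 2) z / JH D m) (𝓝[>] 0) (𝓝 (E1 (D.J ω) z / JH D m)) := by
  have n : JH D m ≠ 0 := J_ne D hm
  have p : 0 < ‖JH D m‖ ^ 2 := by positivity
  refine ((main D.im k).comp (tendsto_nhdsWithin_iff.2 ⟨?_,
    eventually_mem_nhdsWithin.mono fun t ht => mul_pos ht p⟩)).div_const _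
  simpa using ((continuous_mul_const (‖JH D m‖ ^ 2)).tendsto 0).mono_left nhdsWithin_le_nhds

theorem off (hm : m ≠ 0) {z : ℂ} (k : JH D m * z ∉ (pp D.im).lattice) (x : D.O) :
    z + JH D x / JH D m ∉ (pp D.im).lattice := fun h => by
  have n : JH D m ≠ 0 := J_ne D hm
  obtain ⟨y, e⟩ := (mem0 D).1 h
  refine k ((mem0 D).2 ⟨m * y - x, ?_⟩)
  rw [map_sub, map_mul, ← e]
  field_simp
  ring

/-- the distribution relation -/
theorem dis (hm : m ≠ 0) (r : Rp D m S b) {z : ℂ} (k : JH D m * z ∉ (pp D.im).lattice) :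
    ∑ i ∈ S, E1 (D.J ω) (z + JH D (b i) / JH D m) = JH D m * E1 (D.J ω) (JH D m * z) := by
  have n : JH D m ≠ 0 := J_ne D hm
  have l := tendsto_finsetSum S fun i _ => lim hm (off hm k (b i))
  have := tendsto_nhds_unique (main D.im k) (l.congr' (eventually_mem_nhdsWithin.mono fun t ht => ?_))
  · rw [show E1 (D.J ω) (JH D m * z) = _ from this, ← Finset.sum_div, mul_div_cancel₀ _ n]
  have e : ∀ x, z + JH D x / JH D m = (JH D m * z + JH D x) / JH D m := fun x => by field_simp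
  have := dec hm r (f := fun x => F t (JH D m * z + JH D x)) (s := fun i =>
      G (D.J ω) (t * ‖JH D m‖ ^ 2) (z + JH D (b i) / JH D m) / JH D m) fun i _ => by
    have q := off hm k (b i)
    rw [e] at q
    have := cls hm q ht
    rw [← e] at this
    exact this.congr_fun' fun y => by rw [map_add, add_assoc]
  rw [← this.tsum_eq, ← (eqv D).tsum_eq]
  simp only [J_eqv]
  rfl

theorem rneg (r : Rp D m S b) : Rp D m S fun i => -b i := fun x => by
  simpa only [← dvd_neg (b := -x - _), neg_sub, sub_neg_eq_add, add_comm] using r (-x)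

theorem E1_J {z : ℂ} (k : z ∉ (pp D.im).lattice) (x : D.O) : E1 (D.J ω) (z + JH D x) = E1 (D.J ω) z := by
  rw [← (eqv D).apply_symm_apply x, J_eqv]
  exact E1_lat D.im (mt (mem D.im z).2 k) _ _

theorem fib (n : ℕ) : {x : D.O | D.nm x = n}.Finite := by
  have := ((eqv D).symm.summable_iff.2 (s_gs D.im one_pos)).tendsto_cofinite_zero.eventually
    (gt_mem_nhds (Real.exp_pos (-n)))
  refine Set.Finite.subset this fun x (e : D.nm x = n) l => ?_
  refine (Set.mem_setOf_eq ▸ l : _ < Real.exp (-n)).ne ?_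
  have k := J_eqv D ((eqv D).symm x)
  rw [Equiv.apply_symm_apply] at k
  simp only [Function.comp_apply]
  rw [n_gs, one_mul, ← e, ← nsq, k]
  rfl

theorem eps0 {N : ℕ} {ε : D.O → D.O} (ep : D.Ep N ε) : ε 0 = 0 := by
  have := dom D
  have a := ep.mul 0 (-1)
  have c := ep.inv (-1) isUnit_neg_one
  rw [zero_mul] at a
  have : (2 : D.O) ≠ 0 := fun e => by simpa using congrArg QuadraticAlgebra.re e
  exact (mul_eq_zero.1 (show 2 * ε 0 = 0 by linear_combination a - ε 0 * c)).resolve_left this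

theorem nm_star (x : D.O) : D.nm (star x) = D.nm x := by rw [Cd.nm, Cd.nm, QuadraticAlgebra.norm_star]

end Kl1

open Kl1

variable {D}

theorem Ek_dist {m : D.O} {ι : Type} {S : Finset ι} {b : ι → D.O} (hm : m ≠ 0) (r : Rp D m S b) {z : ℂ}
    (k : D.J m * z ∉ D.L) : ∑ i ∈ S, Ek D (z + D.Ω * D.J (b i) / D.J m) = D.J m * Ek D (D.J m * z) := by
  have o := D.Ω0
  have := dis hm r (z := z / D.Ω) fun h => k (by
    have := ((hom0 D).2 _).1 h
    rwa [mul_left_comm, mul_div_cancel₀ _ o] at this)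
  simp only [Ek, ← Finset.sum_div, add_div, mul_div_assoc, mul_div_cancel_left₀ _ o]
  simp only [← mul_div_assoc (D.J m)]
  rw [mul_div_assoc _ z]
  exact congrArg (· / D.Ω) this

/-- **the logarithmic derivative of the elliptic function** -/
theorem kl1a {α : D.O} {z : ℂ} {x y : Qb} {h} (u : Un D.L z (.some x y h : Pt A B))
    (n : D.act α (.some x y h) ≠ 0) :
    io (-∑ T ∈ (D.tor α).erase 0, 2 * y / (x - xc T)) =
      2 * (D.nm α * Ek D z - D.J α * Ek D (D.J α * z)) := by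
  have o := D.Ω0
  have hα : α ≠ 0 := fun e => n (by rw [e, map_zero]; rfl)
  have a0 : JH D α ≠ 0 := J_ne D hα
  choose! σ hσ using fun T => (gen D α hα T).1
  have r : Rp D α (D.tor α) σ := fun v => ⟨D.act v (D.tp α), ⟨(gen D α hα _).2 ⟨v, rfl⟩,
    (act_eq D hα).1 (hσ _ ((gen D α hα _).2 ⟨v, rfl⟩))⟩, fun T ⟨a, d⟩ =>
      (hσ T a).trans ((act_eq D hα).2 d).symm⟩
  obtain ⟨v, rfl⟩ : ∃ v, z = D.Ω * v := ⟨z / D.Ω, (mul_div_cancel₀ _ o).symm⟩
  have k : JH D α * v ∉ (pp D.im).lattice := fun m => n ((D.uact α _ _ u).1 (by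
    have := ((hom0 D).2 _).1 m
    rwa [mul_left_comm] at this))
  have k0 : v ∉ (pp D.im).lattice := by simpa using off hα k 0
  obtain ⟨x', y', h', e, ex, ey⟩ := u.2 (mt ((hom0 D).2 v).2 k0)
  obtain ⟨rfl, rfl⟩ := WeierstrassCurve.Affine.Point.some.inj e
  rw [(hom0 D).wp, wp_lat] at ex
  rw [(hom0 D).dwp, dwp_lat] at ey
  have t : ∀ T ∈ (D.tor α).erase 0, io (2 * y / (x - xc T)) = (E1 (D.J ω) (v + JH D (σ T) / JH D α) +
      E1 (D.J ω) (v + JH D (-σ T) / JH D α) - 2 * E1 (D.J ω) v) / D.Ω := fun T hT => by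
    obtain ⟨T0, hT⟩ := Finset.mem_erase.1 hT
    have uT : Un D.L (D.Ω * (JH D (σ T) / JH D α)) T := by
      have := D.uact (σ T) _ _ (D.utp α hα)
      rwa [← hσ T hT, ← mul_div_assoc, mul_comm, mul_div_assoc] at this
    have kT := mt uT.1 T0
    obtain ⟨a, c, h', eT, ea, -⟩ := uT.2 kT
    rw [(hom0 D).wp, wp_lat, show a = xc T by rw [eT, xc]] at ea
    have h2 := off hα k (-σ T)
    rw [map_neg, neg_div, ← sub_eq_add_neg] at h2 ⊢
    rw [← show _ = E1 (D.J ω) _ + E1 (D.J ω) _ - 2 * E1 (D.J ω) _ from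
      dsig D.im k0 (mt ((hom0 D).2 _).1 kT) (off hα k _) h2, map_div₀, map_mul,
      map_sub, ex, ey, ea, map_ofNat, ← mul_sub]
    field_simp
  have z0 : (0 : Pt A B) ∈ D.tor α := (tr D α hα 0).2 (map_zero _)
  obtain ⟨c, hc⟩ := (ker D α hα _).1 (hσ 0 z0).symm
  rw [map_neg, map_sum, Finset.sum_congr rfl t, Finset.sum_erase, ← Finset.sum_div,
    Finset.sum_sub_distrib, Finset.sum_add_distrib, dis hα r k, dis hα (rneg r) k, Finset.sum_const,
    crd D α hα, Ek, Ek, mul_left_comm (D.J α), mul_div_cancel_left₀ _ o, mul_div_cancel_left₀ _ o,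
    nsmul_eq_mul, JH_eq]
  · ring
  · rw [hc, ← mul_neg, map_mul, map_mul, mul_div_cancel_left₀ _ a0, mul_div_cancel_left₀ _ a0,
      E1_J k0, E1_J k0]
    ring

/-- **the value at `s = 1`**; only the classes in the support are needed -/
theorem kl1b' {N : ℕ} {ε : D.O → D.O} (ep : D.Ep N ε) {m : D.O} (hm : m ≠ 0) {w : ℕ → ℂ}
    (gd : Gd fun n => w n * al A B n) (w0 : ∀ n, ¬ n.Coprime N → w n = 0)
    (per : ∀ x y, m ∣ x - y → w (D.nm x) * D.J (star (ε x)) = w (D.nm y) * D.J (star (ε y)))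
    {ι : Type} {S : Finset ι} {b : ι → D.O}
    (r : ∀ x, w (D.nm x) * D.J (star (ε x)) ≠ 0 → ∃! i, i ∈ S ∧ m ∣ x - b i) :
    Nat.card D.Oˣ * Lw (al A B) w = D.Ω / D.J m *
      ∑ i ∈ S, w (D.nm (b i)) * D.J (star (ε (b i))) * Ek D (D.Ω * D.J (b i) / D.J m) := by
  have o := D.Ω0
  have n : JH D m ≠ 0 := J_ne D hm
  obtain ⟨φ, hφ⟩ : ∃ φ : D.O → ℂ, ∀ x, φ x = w (D.nm x) * D.J (star (ε x)) := ⟨_, fun _ => rfl⟩
  simp only [← hφ] at per r ⊢
  have d : ∀ x, φ x = 0 ∨ JH D x / JH D m ∉ (pp D.im).lattice := fun x => or_iff_not_imp_right.2 fun h => by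
    obtain ⟨y, e⟩ := (mem0 D).1 (not_not.1 h)
    rw [div_eq_iff n, ← map_mul] at e
    rw [per x 0 ⟨y, by rw [(qd D).inj e, sub_zero, mul_comm]⟩, hφ, eps0 ep, star_zero, ← JH_eq,
      map_zero, mul_zero]
  have s : Tendsto (fun t : ℝ => 2 * π * t) (𝓝[>] 0) (𝓝[>] 0) := tendsto_nhdsWithin_iff.2 ⟨by
    simpa using ((continuous_const_mul (2 * π)).tendsto 0).mono_left nhdsWithin_le_nhds,
    eventually_mem_nhdsWithin.mono fun t ht => mul_pos Real.two_pi_pos ht⟩
  have l := (tendsto_finsetSum S fun i _ => show Tendsto (fun t => φ (b i) *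
    (G (D.J ω) (t * ‖JH D m‖ ^ 2) (JH D (b i) / JH D m) / JH D m)) (𝓝[>] 0)
      (𝓝 (φ (b i) * (E1 (D.J ω) (JH D (b i) / JH D m) / JH D m))) from
    (d (b i)).elim (fun e => by simp [e]) fun k => (lim hm k).const_mul _).comp s
  have := tendsto_nhds_unique (gd.lim.const_mul (Nat.card D.Oˣ : ℂ))
    (l.congr' (eventually_mem_nhdsWithin.mono fun t (ht : 0 < t) => ?_))
  · rw [Lw_eq, this, Finset.mul_sum]
    refine Finset.sum_congr rfl fun i _ => ?_
    rw [Ek, mul_div_assoc D.Ω, mul_div_cancel_left₀ _ o, JH_eq, JH_eq]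
    field_simp
  have h1 := dec' hm (f := fun x => φ x * F (2 * π * t) (JH D x))
    (fun x n => r x (left_ne_zero_of_mul n)) fun i _ =>
    show HasSum _ (φ (b i) * (G (D.J ω) (2 * π * t * ‖JH D m‖ ^ 2) (JH D (b i) / JH D m) / JH D m)) by
      simp only [show ∀ y, φ (b i + m * y) = φ (b i) from fun y => per _ _ (by simp), map_add]
      exact (d (b i)).elim (fun e => by simp [e, hasSum_zero]) fun k =>
        (cls hm k (mul_pos Real.two_pi_pos ht)).mul_left _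
  have h2 := (((Equiv.Perm.star (R := D.O)).hasSum_iff.2 h1).tsum_fiberwise D.nm).tsum_eq
  refine h2.symm.trans (Eq.trans (tsum_congr fun k => ?_) tsum_mul_left)
  have e : ∀ x : D.nm ⁻¹' {k}, ((fun x => φ x * F (2 * π * t) (JH D x)) ∘ Equiv.Perm.star) x =
      w k / k * (Real.exp (-(2 * π * k * t)) : ℝ) * JH D (ε x * x) := fun ⟨x, hx⟩ => by
    have q := nsq D x
    have q' : JH D x * conj (JH D x) = k := by
      rw [mul_conj', ← ofReal_pow, q, show D.nm x = k from hx, ofReal_natCast]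
    simp only [Function.comp_apply, Equiv.Perm.star_apply, hφ, nm_star, ep.cj, star_star, F, gs, nsq,
      show D.nm x = k from hx, map_mul]
    rw [JH_eq D (star x), J_star, ← JH_eq, ← JH_eq, ← q', show -(2 * π * t) * k = -(2 * π * k * t) by ring]
    by_cases x0 : x = 0
    · simp [x0]
    · have : JH D x ≠ 0 := J_ne D x0
      have : conj (JH D x) ≠ 0 := (map_ne_zero _).2 this
      field_simp
  rw [tsum_congr e, tsum_mul_left, P014T.An.ee_I]
  by_cases c : k.Coprime N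
  · have := congrArg (JH D) (ep.an k c)
    rw [finsum_mem_eq_finite_toFinset_sum _ (fib k), map_mul, map_natCast, map_intCast, map_sum,
      ← Finset.tsum_subtype', Set.Finite.coe_toFinset] at this
    rw [show ∑' x : D.nm ⁻¹' {k}, JH D (ε x * x) = _ from this.symm]
    ring
  · simp [w0 k c]

/-- **the value at `s = 1`** -/
theorem kl1b {N : ℕ} {ε : D.O → D.O} (ep : D.Ep N ε) {m : D.O} (hm : m ≠ 0) {w : ℕ → ℂ}
    (gd : Gd fun n => w n * al A B n) (w0 : ∀ n, ¬ n.Coprime N → w n = 0)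
    (per : ∀ x y, m ∣ x - y → w (D.nm x) * D.J (star (ε x)) = w (D.nm y) * D.J (star (ε y)))
    {ι : Type} {S : Finset ι} {b : ι → D.O} (r : Rp D m S b) :
    Nat.card D.Oˣ * Lw (al A B) w = D.Ω / D.J m *
      ∑ i ∈ S, w (D.nm (b i)) * D.J (star (ε (b i))) * Ek D (D.Ω * D.J (b i) / D.J m) :=
  kl1b' ep hm gd w0 per fun x _ => r x

theorem nm_mod {L : ℕ} {x y : D.O} (d : (L : D.O) ∣ x - y) : D.nm x ≡ D.nm y [MOD L] := by
  obtain ⟨v, hv⟩ := d
  have nn : ∀ x : D.O, (D.nm x : ℤ) = x.norm := fun x => by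
    have : ((D.nm x : ℝ) : ℂ) = ((x.norm : ℝ) : ℂ) := by
      rw [← nsq, ofReal_pow, ← mul_conj', JH_eq, ← J_star, ← JH_eq, ← JH_eq, ← map_mul,
        ← algebraMap_norm_eq_mul_star]
      simp
    exact_mod_cast this
  rw [Nat.modEq_iff_dvd, nn, nn, eq_add_of_sub_eq hv]
  refine Dvd.intro (-(L * v.re ^ 2 + 2 * v.re * y.re + D.b * (L * v.re * v.im + v.re * y.im +
    y.re * v.im) - D.a * (L * v.im ^ 2 + 2 * v.im * y.im))) ?_
  simp [QuadraticAlgebra.norm_def]
  ring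

theorem eps_per {N : ℕ} {ε : D.O → D.O} (ep : D.Ep N ε) {x y : D.O} (d : (N : D.O) ∣ x - y) :
    ε x = ε y := by
  obtain ⟨u, hu⟩ := d
  rw [eq_add_of_sub_eq' hu, ep.per]

/-- the same for a periodic weight -/
theorem kl1c {N L : ℕ} {ε : D.O → D.O} (ep : D.Ep N ε) {m : D.O} (hm : m ≠ 0) {w : ℕ → ℂ}
    (gd : Gd fun n => w n * al A B n) (w0 : ∀ n, ¬ n.Coprime N → w n = 0) (hN : (N : D.O) ∣ m)
    (hL : (L : D.O) ∣ m) (p : Function.Periodic w L)
    {ι : Type} {S : Finset ι} {b : ι → D.O} (r : Rp D m S b) :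
    Nat.card D.Oˣ * Lw (al A B) w = D.Ω / D.J m *
      ∑ i ∈ S, w (D.nm (b i)) * D.J (star (ε (b i))) * Ek D (D.Ω * D.J (b i) / D.J m) := by
  refine kl1b ep hm gd w0 (fun x y d => ?_) r
  rw [eps_per ep (hN.trans d), ← p.map_mod_nat, nm_mod (hL.trans d), p.map_mod_nat]

end Vale.Agent.P014X.An
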