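import Vale.Agent.P014X.An.Kl1

/-! # P014X: the value at `s = 1` as a sum over the Galois group (helper5) -/

set_option autoImplicit false
set_option linter.all false

open Complex QuadraticAlgebra
open scoped ComplexConjugate Classical

noncomputable section

namespace Vale.Agent.P014X.An

open Vale.Agent.P022 (Qb GQ)
open P027H P027M.M Cf0 Kl1
open P004M.TE (Pt al ga)
open P004K (Un)
open P014T.An (Gd)
open P014T.Rk (Lw)
open Cd (Tv)

variable {A B : ℤ} {D : Cd A B} {N : ℕ} {ε : D.O → D.O} {m : D.O}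

/-- the second coordinate -/
def yc : Pt A B → Qb
  | .zero => 0
  | .some _ y _ => y

variable (D) in
/-- the logarithmic derivative of the function `th α` -/
def dT (α : D.O) (Q : Pt A B) : Qb := -∑ T ∈ (D.tor α).erase 0, 2 * yc Q / (xc Q - xc T)

theorem kl1d {α : D.O} {z : ℂ} {Q : Pt A B} (u : Un D.L z Q) (n : D.act α Q ≠ 0) :
    io (dT D α Q) = 2 * (D.nm α * Ek D z - D.J α * Ek D (D.J α * z)) := by
  rcases Q with _ | ⟨x, y, h⟩
  · exact (n (map_zero _)).elim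
  · exact kl1a u n

namespace Kl2

theorem nm_mul (x y : D.O) : D.nm (x * y) = D.nm x * D.nm y := by
  rw [Cd.nm, map_mul, Int.natAbs_mul, Cd.nm, Cd.nm]

theorem nm_unit {ζ : D.O} (u : IsUnit ζ) : D.nm ζ = 1 :=
  Int.isUnit_iff_natAbs_eq.1 (u.map QuadraticAlgebra.norm)

theorem u_star {ζ : D.O} (u : IsUnit ζ) : ζ * star ζ = 1 := (qd D).inj (by
  rw [map_mul, JH_eq D (star ζ), J_star, ← JH_eq, mul_conj', ← ofReal_pow, nsq, nm_unit u, map_one]
  simp)

theorem fin_u : Finite D.Oˣ := ((fib 1).preimage Units.val_injective.injOn).subset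
  (fun ζ (_ : ζ ∈ Set.univ) => nm_unit ζ.isUnit) |> Set.finite_univ_iff.1

theorem e_unit (ep : D.Ep N ε) {ζ : D.O} (u : IsUnit ζ) : star (ε ζ) = ζ := by
  have := congrArg star (ep.inv ζ u)
  rw [star_mul, star_one] at this
  linear_combination ζ * this - star (ε ζ) * u_star u

theorem mem_per {x y : D.O} (hm : m ≠ 0) (d : m ∣ x - y) :
    ∃ c, D.Ω * D.J x / D.J m = D.Ω * D.J y / D.J m + D.Ω * JH D c := by
  obtain ⟨c, e⟩ := d
  have n : JH D m ≠ 0 := J_ne D hm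
  refine ⟨c, ?_⟩
  simp only [← JH_eq, eq_add_of_sub_eq' e, map_add, map_mul]
  field_simp

theorem nmem {x : D.O} (hm : m ≠ 0) (d : ¬ m ∣ x) : D.Ω * D.J x / D.J m ∉ D.L := fun h => by
  obtain ⟨y, e⟩ := (Cf0.mem_L D).1 h
  rw [div_eq_iff (J_ne D hm), mul_right_comm, mul_comm, mul_left_inj' D.Ω0, ← JH_eq, ← JH_eq,
    ← map_mul] at e
  exact d ⟨y, ((qd D).inj e).trans (mul_comm _ _)⟩

theorem ndv (ep : D.Ep N ε) (hN : (N : D.O) ∣ m) {x : D.O} (c : IsCoprime x m) : ¬ m ∣ x := fun d => by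
  have := dom D
  have u := ep.un x (c.of_isCoprime_of_dvd_right hN)
  rw [eps_per ep (y := 0) (by simpa using hN.trans d), eps0 ep] at u
  exact not_isUnit_zero u

end Kl2

open Kl2

theorem Ek_unit {ζ : D.O} (u : IsUnit ζ) {z : ℂ} (k : z ∉ D.L) : D.J ζ * Ek D (D.J ζ * z) = Ek D z := by
  have := dom D
  have := Ek_dist (m := ζ) (S := {()}) (b := fun _ => 0) u.ne_zero
    (fun x => ⟨(), ⟨Finset.mem_singleton_self _, u.dvd⟩, fun _ _ => rfl⟩) (z := z) fun h => k (by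
      have := (kl D).2 (star ζ) _ h
      simp only [Nat.cast_one, one_mul] at this
      rwa [← JH_eq, ← mul_assoc, ← map_mul, mul_comm _ ζ, u_star u, map_one, one_mul] at this)
  simpa [← JH_eq] using this.symm

theorem Ek_per {z : ℂ} (k : z ∉ D.L) (c : D.O) : Ek D (z + D.Ω * JH D c) = Ek D z := by
  rw [Ek, Ek, add_div, mul_div_cancel_left₀ _ D.Ω0, E1_J fun h => k (by
    have := ((hom0 D).2 _).1 h
    rwa [mul_div_cancel₀ _ D.Ω0] at this)]

theorem Ek_congr (hm : m ≠ 0) {x y : D.O} (n : ¬ m ∣ y) (d : m ∣ x - y) :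
    Ek D (D.Ω * D.J x / D.J m) = Ek D (D.Ω * D.J y / D.J m) := by
  obtain ⟨c, e⟩ := mem_per hm d
  rw [e, Ek_per (nmem hm n)]

variable {ι : Type} {T : Finset ι} {β : ι → D.O}

variable (ε m T β) in
/-- `β i`, `i ∈ T`, are representatives of the invertible classes in the kernel of `ε` -/
structure Rk : Prop where
  cop : ∀ i ∈ T, IsCoprime (β i) m
  one : ∀ i ∈ T, ε (β i) = 1
  ex : ∀ x, IsCoprime x m → ε x = 1 → ∃! i, i ∈ T ∧ m ∣ x - β i

/-- the Galois group gives representatives -/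
theorem rk_of (ep : D.Ep N ε) (hm : m ≠ 0) (hN : (N : D.O) ∣ m) {T : Finset GQ} {β : GQ → D.O}
    (tv : Tv D.G (D.Hf m) T) (h : ∀ g ∈ T, D.Ac m g (β g)) : Rk ε m T β := by
  have c : ∀ g ∈ T, IsCoprime (β g) m := fun g hg => by
    obtain ⟨γ, ⟨u, v, e⟩, a⟩ := ac D m hm g (tv.1 g hg)
    obtain ⟨t, e'⟩ := ac_uniq hm (h g hg) a
    exact ⟨u, v - u * t, by linear_combination e + u * e'⟩
  refine ⟨c, fun g hg => (ep.ac m hm hN _ (c g hg)).1 ⟨g, h g hg⟩, fun x cx e => ?_⟩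
  obtain ⟨g, a⟩ := (ep.ac m hm hN x cx).2 e
  refine (existsUnique_congr fun s => and_congr_right fun hs => ?_).1 (tv.2 g a.1)
  obtain ⟨u, v, e'⟩ := c s hs
  have k := ac_mul (ac_inv hm (h s hs) (β' := u) ⟨-v, by linear_combination e'⟩) a
  rw [mem_Hf]
  refine ⟨fun o => ?_, fun ⟨t, d⟩ => ac_congr hm k ⟨u * t - v, by linear_combination u * d + e'⟩⟩
  obtain ⟨t, d⟩ := ac_uniq hm k o
  exact ⟨β s * t + v * x, by linear_combination β s * d - x * e'⟩

/-- translation of the representatives -/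
theorem Rk.mul (r : Rk ε m T β) (ep : D.Ep N ε) (hN : (N : D.O) ∣ m) {γ : D.O} (c : IsCoprime γ m)
    (e : ε γ = 1) : Rk ε m T fun i => γ * β i := by
  refine ⟨fun i h => c.mul_left (r.cop i h), fun i h => by rw [ep.mul, e, r.one i h, one_mul],
    fun x cx ex => ?_⟩
  obtain ⟨u, v, k⟩ := id c
  have eu : ε u = 1 := by
    have := eps_per ep (x := u * γ) (y := 1) (hN.trans ⟨-v, by linear_combination k⟩)
    rwa [ep.mul, e, mul_one, ← mul_one (ε 1), ep.inv 1 isUnit_one] at this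
  refine (existsUnique_congr fun i => and_congr_right fun _ => ⟨fun ⟨t, d⟩ => ⟨γ * t + v * x, ?_⟩,
    fun ⟨t, d⟩ => ⟨u * t - v * β i, ?_⟩⟩).1 (r.ex (u * x) (IsCoprime.mul_left ⟨γ, v, by
      linear_combination k⟩ cx) (by rw [ep.mul, eu, ex, one_mul]))
  · linear_combination γ * d - x * k
  · linear_combination u * d + β i * k

/-- **the value at `s = 1`** -/
theorem kl2a (ep : D.Ep N ε) (hm : m ≠ 0) (hN : (N : D.O) ∣ m) (r : Rk ε m T β) {w : ℕ → ℂ}
    (gd : Gd fun n => w n * al A B n) (w0 : ∀ n, ¬ n.Coprime N → w n = 0)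
    (w1 : ∀ x, ¬ IsCoprime x m → w (D.nm x) = 0) (per : ∀ x y, m ∣ x - y → w (D.nm x) = w (D.nm y)) :
    Lw (al A B) w = D.Ω / D.J m * ∑ i ∈ T, w (D.nm (β i)) * Ek D (D.Ω * D.J (β i) / D.J m) := by
  have := fin_u (D := D)
  have := Fintype.ofFinite D.Oˣ
  have := dom D
  have k := kl1b' ep hm gd w0 (fun x y d => by rw [per x y d, eps_per ep (hN.trans d)])
    (S := Finset.univ ×ˢ T) (b := fun p : D.Oˣ × ι => p.1 * β p.2) fun x n => by
      have c : IsCoprime x m := by_contra fun c => n (by rw [w1 x c, zero_mul])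
      obtain ⟨ζ, hζ⟩ := ep.un x (c.of_isCoprime_of_dvd_right hN)
      have e : ε (ζ * x) = 1 := by rw [ep.mul, ← hζ, ep.inv _ ζ.isUnit]
      obtain ⟨i, ⟨hi, d⟩, u⟩ := r.ex _ ((isCoprime_mul_unit_left_left ζ.isUnit _ _).2 c) e
      refine ⟨(ζ⁻¹, i), ⟨by simpa using hi, ?_⟩, fun ⟨ξ, j⟩ ⟨hj, d'⟩ => ?_⟩
      · simpa [mul_sub] using d.mul_left (ζ⁻¹ : D.Oˣ)
      · have hj := (Finset.mem_product.1 hj).2
        have a := eps_per ep (hN.trans d')
        rw [ep.mul, r.one j hj, mul_one, ← hζ] at a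
        have a' := ep.inv ξ ξ.isUnit
        rw [← a] at a'
        obtain rfl : ξ = ζ⁻¹ := eq_inv_of_mul_eq_one_right (Units.ext a')
        rw [u j ⟨hj, by simpa [mul_sub] using d'.mul_left ζ⟩]
  rw [Finset.sum_product, Finset.sum_congr rfl fun ζ _ => Finset.sum_congr rfl fun i hi =>
    show _ = w (D.nm (β i)) * Ek D (D.Ω * D.J (β i) / D.J m) by
      rw [nm_mul, nm_unit ζ.isUnit, one_mul, ep.mul, r.one i hi, mul_one, e_unit ep ζ.isUnit,
        ← Ek_unit ζ.isUnit (nmem hm (ndv ep hN (r.cop i hi))), mul_assoc, ← JH_eq D (_ * _), map_mul,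
        mul_left_comm D.Ω, mul_div_assoc (JH D _)]
      rfl, Finset.sum_const, Finset.card_univ, nsmul_eq_mul, ← Nat.card_eq_fintype_card,
    mul_left_comm] at k
  exact mul_left_cancel₀ (Nat.cast_ne_zero.2 Nat.card_pos.ne') k

/-- **the sum of the logarithmic derivatives**; `w'` is the translate of `w` by `α` -/
theorem kl2b (ep : D.Ep N ε) (hm : m ≠ 0) (hN : (N : D.O) ∣ m) (r : Rk ε m T β) {w w' : ℕ → ℂ}
    {α : D.O} (c : IsCoprime α m) (gd : Gd fun n => w n * al A B n) (gd' : Gd fun n => w' n * al A B n)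
    (w0 : ∀ n, ¬ n.Coprime N → w n = 0) (w0' : ∀ n, ¬ n.Coprime N → w' n = 0)
    (w1 : ∀ x, ¬ IsCoprime x m → w (D.nm x) = 0) (w1' : ∀ x, ¬ IsCoprime x m → w' (D.nm x) = 0)
    (per : ∀ x y, m ∣ x - y → w (D.nm x) = w (D.nm y))
    (per' : ∀ x y, m ∣ x - y → w' (D.nm x) = w' (D.nm y))
    (t : ∀ i ∈ T, w' (D.nm α * D.nm (β i)) = w (D.nm (β i))) :
    ∑ i ∈ T, w (D.nm (β i)) * io (dT D α (D.act (β i) (D.tp m))) = 2 * D.J m / D.Ω *
      (D.nm α * Lw (al A B) w - D.J (ε α * α) * Lw (al A B) w') := by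
  have u := ep.un α (c.of_isCoprime_of_dvd_right hN)
  have o := D.Ω0
  have n := J_ne D hm
  rw [kl2a ep hm hN r gd w0 w1 per, kl2a ep hm hN (r.mul ep hN
    ((isCoprime_mul_unit_left_left u _ _).2 c) (by rw [ep.mul, ep.inv _ u])) gd' w0' w1' per']
  simp only [Finset.mul_sum, ← Finset.sum_sub_distrib]
  refine Finset.sum_congr rfl fun i hi => ?_
  have d := ndv ep hN (c.mul_left (r.cop i hi))
  rw [kl1d (D.uact _ _ _ (D.utp m hm)) (by rwa [← act_mul, Ne, ker D m hm]), nm_mul, nm_mul,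
    nm_unit u, one_mul, t i hi]
  have e := Ek_unit u (nmem hm d)
  simp only [← JH_eq, map_mul] at e n ⊢
  rw [show io (D.j (β i) : Qb) * (D.Ω / io (D.j m : Qb)) = D.Ω * JH D (β i) / JH D m from
      (mul_div_assoc _ _ _).symm.trans (congrArg (· / _) (mul_comm _ _)),
    show JH D α * (D.Ω * JH D (β i) / JH D m) = D.Ω * (JH D α * JH D (β i)) / JH D m by ring, ← e,
    show JH D (ε α) * (D.Ω * (JH D α * JH D (β i)) / JH D m) =
      D.Ω * (JH D (ε α) * JH D α * JH D (β i)) / JH D m by ring]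
  field_simp

/-- **the Galois form** -/
theorem kl2 (ep : D.Ep N ε) (hm : m ≠ 0) (hN : (N : D.O) ∣ m) {T : Finset GQ} {β : GQ → D.O}
    (tv : Tv D.G (D.Hf m) T) (h : ∀ g ∈ T, D.Ac m g (β g)) {w w' : ℕ → ℂ}
    {α : D.O} (c : IsCoprime α m) (gd : Gd fun n => w n * al A B n) (gd' : Gd fun n => w' n * al A B n)
    (w0 : ∀ n, ¬ n.Coprime N → w n = 0) (w0' : ∀ n, ¬ n.Coprime N → w' n = 0)
    (w1 : ∀ x, ¬ IsCoprime x m → w (D.nm x) = 0) (w1' : ∀ x, ¬ IsCoprime x m → w' (D.nm x) = 0)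
    (per : ∀ x y, m ∣ x - y → w (D.nm x) = w (D.nm y))
    (per' : ∀ x y, m ∣ x - y → w' (D.nm x) = w' (D.nm y))
    (t : ∀ g ∈ T, w' (D.nm α * D.nm (β g)) = w (D.nm (β g))) :
    ∑ g ∈ T, w (D.nm (β g)) * io (dT D α (ga g (D.tp m))) = 2 * D.J m / D.Ω *
      (D.nm α * Lw (al A B) w - D.J (ε α * α) * Lw (al A B) w') := by
  rw [← kl2b ep hm hN (rk_of ep hm hN tv h) c gd gd' w0 w0' w1 w1' per per' t]
  exact Finset.sum_congr rfl fun g hg => by rw [(h g hg).2]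

end Vale.Agent.P014X.An
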