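import Vale.Agent.P014X.An.Kl2
import Vale.Agent.P014X.Rx.Br

/-! # P014X: the logarithmic derivative in the words of the reciprocity law (helper5) -/

set_option autoImplicit false
set_option linter.all false

open scoped ComplexConjugate Classical

noncomputable section

namespace Vale.Agent.P014X.An

open Vale.Agent.P022 (Qb GQ)
open P027M.M
open P004M.TE (Pt ga)

variable {A B : ℤ} {D : Cd A B}

theorem dl_eq (c : ℕ) (Q : Pt A B) : Rx.Dl (Rx.zs D c) Q = dT D c Q := by
  have : Rx.yc Q = yc Q := by cases Q <;> rfl
  simp only [Rx.Dl, Rx.zs, dT, Multiset.map_map, Function.comp_def, Rx.xc_eq, this]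
  rfl

end Vale.Agent.P014X.An
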