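import Vale.Agent.P014X.An.Klf0
import Vale.Agent.P004R.Klf

/-! # P014X: the second limit formula of Kronecker -/

set_option autoImplicit false
set_option linter.all false

open UpperHalfPlane hiding I
open Complex Filter Topology Set
open scoped Real ComplexConjugate

noncomputable section

namespace Vale.Agent.P014X.An

open Vale.Agent.P014T.Sg Vale.Agent.P004R.Kl

variable {τ : ℍ} {a b s : ℝ}

/-- the character of the lattice -/
def ch (a b : ℝ) (x : ℤ × ℤ) : ℂ := ee (x.1 * b - x.2 * a)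

/-- the twisted Epstein zeta function (the term `x = 0` is zero) -/
def Z2 (τ : ℍ) (a b s : ℝ) : ℂ :=
  ∑' x : ℤ × ℤ, ch a b x * (τ.im ^ s / ‖(x.1 : ℂ) * τ + x.2‖ ^ (2 * s) : ℝ)

theorem ch_nrm (a b : ℝ) (x : ℤ × ℤ) : ‖ch a b x‖ = 1 := by
  rw [ch, ← nrm_re (x.1 * b - x.2 * a)]
  push_cast
  rfl

theorem sum_ch (τ : ℍ) (a b : ℝ) (hs : 1 < s) :
    Summable fun x => ch a b x * (gg τ (2 * s) x : ℝ) :=
  (sum_gg τ (k := 2 * s) (by linarith)).of_norm_bounded fun x => by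
    rw [norm_mul, ch_nrm, one_mul, norm_real]
    exact (Real.norm_of_nonneg (Real.rpow_nonneg (norm_nonneg _) _)).le

theorem Z2_eq (τ : ℍ) (a b s : ℝ) :
    Z2 τ a b s = (τ.im ^ s : ℝ) * ∑' x, ch a b x * (gg τ (2 * s) x : ℝ) := by
  rw [Z2, ← tsum_mul_left]
  congr 1
  ext x
  rw [gg, Real.rpow_neg (norm_nonneg _), div_eq_mul_inv, ofReal_mul]
  ring

theorem Z2_per (τ : ℍ) (a b s : ℝ) (m n : ℤ) : Z2 τ (a + m) (b + n) s = Z2 τ a b s := by
  simp only [Z2, ch]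
  congr 1
  ext x
  rw [ee_congr (x.1 * n - x.2 * m) (y := x.1 * b - x.2 * a) (by push_cast; ring)]

theorem gg_neg (τ : ℍ) (k : ℝ) (m n : ℤ) : gg τ k (-m, -n) = gg τ k (m, n) := by
  simp only [gg, Int.cast_neg]
  rw [← norm_neg, neg_mul, neg_add, neg_neg, neg_neg]

/-- the differences -/
def DD (τ : ℍ) (s : ℝ) (x : ℤ × ℤ) : ℝ := gg τ (2 * s) x - gg τ (2 * s) (x.1, x.2 - 1)

theorem DD_eq (τ : ℍ) (s : ℝ) (x : ℤ × ℤ) :
    DD τ s x = AA τ s (-x) - AA τ s (x.1, x.2 - 1) := by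
  obtain ⟨m, n⟩ := x
  have : BB τ s (-m, -n) = BB τ s (m, n - 1) := by
    simp only [BB, neg_eq_zero]
    split_ifs
    · rfl
    · have := intervalIntegral.integral_comp_sub_left (a := 0) (b := 1)
        (fz ((m : ℂ) * τ + (n - 1 : ℤ)) s) 1
      rw [sub_self, sub_zero] at this
      rw [← this]
      congr 1
      ext t
      rw [fz, fz, ← norm_neg]
      congr 2
      push_cast
      ring
  rw [DD, AA, AA, Prod.neg_mk, this, gg_neg]
  ring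

theorem dom2 (τ : ℍ) : ∃ b : ℤ × ℤ → ℝ, Summable b ∧ ∀ s ∈ Icc (1 : ℝ) 2, ∀ x, ‖DD τ s x‖ ≤ b x := by
  obtain ⟨b, b1, b2⟩ := dom τ
  refine ⟨fun x => b (-x) + b (x.1, x.2 - 1), ((Equiv.neg _).summable_iff.2 b1).add
    (((Equiv.refl ℤ).prodCongr (Equiv.subRight 1)).summable_iff.2 b1), fun s hs x => ?_⟩
  rw [DD_eq]
  exact norm_sub_le_of_le (b2 s hs _) (b2 s hs _)

theorem ch_succ (a b : ℝ) (m n : ℤ) : ch a b (m, n) = ee (-a) * ch a b (m, n - 1) := by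
  rw [ch, ch, ← ee_add]
  congr 1
  push_cast
  ring

theorem sum_DD (τ : ℍ) (a b : ℝ) (hs : 1 < s) : ∑' x, ch a b x * (DD τ s x : ℝ) =
    (1 - ee (-a)) * ∑' x, ch a b x * (gg τ (2 * s) x : ℝ) := by
  have h := (sum_ch τ a b hs).hasSum
  have k := (((Equiv.refl ℤ).prodCongr (Equiv.subRight 1)).hasSum_iff.2 h).mul_left (ee (-a))
  rw [sub_mul, one_mul, ← (h.sub k).tsum_eq]
  congr 1
  ext ⟨m, n⟩
  rw [DD, ofReal_sub, mul_sub, ch_succ a b m n, mul_assoc, mul_assoc]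
  rfl

theorem lim_DD (τ : ℍ) (a b : ℝ) : Tendsto (fun s => ∑' x, ch a b x * (DD τ s x : ℝ)) (𝓝[>] 1)
    (𝓝 (∑' x, ch a b x * (DD τ 1 x : ℝ))) := by
  obtain ⟨c, c1, c2⟩ := dom2 τ
  have e : ∀ᶠ s in 𝓝[>] (1 : ℝ), s ∈ Ioo (1 : ℝ) 2 := Ioo_mem_nhdsGT one_lt_two
  refine tendsto_tsum_of_dominated_convergence c1 (fun x => ?_) (e.mono fun s hs x => ?_)
  · have : ContinuousAt (fun s => DD τ s x) 1 := by
      simp only [DD_eq]
      exact (cont_AA τ _).sub (cont_AA τ _)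
    exact ((continuous_ofReal.continuousAt.comp this).tendsto.const_mul _).mono_left
      nhdsWithin_le_nhds
  · rw [norm_mul, ch_nrm, one_mul, norm_real]
    exact c2 s (Ioo_subset_Icc_self hs) x

theorem sum_row (τ : ℍ) (m : ℤ) : Summable fun n => gg τ (2 * 1) (m, n) := by
  obtain ⟨b, b1, b2⟩ := dom τ
  have S := b1.of_norm_bounded (b2 1 ⟨le_rfl, one_le_two⟩)
  simpa only [AA, sub_add_cancel] using ((S.prod_factor m).hasSum.add (sum_BB τ le_rfl m)).summable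

/-- the sum over a row at `s = 1` -/
def RR (τ : ℍ) (a b : ℝ) (m : ℤ) : ℂ := ∑' n, ch a b (m, n) * (gg τ (2 * 1) (m, n) : ℝ)

theorem has_RR (τ : ℍ) (a b : ℝ) (m : ℤ) :
    HasSum (fun n => ch a b (m, n) * (gg τ (2 * 1) (m, n) : ℝ)) (RR τ a b m) :=
  ((sum_row τ m).of_norm_bounded fun x => by
    rw [norm_mul, ch_nrm, one_mul, norm_real]
    exact (Real.norm_of_nonneg (Real.rpow_nonneg (norm_nonneg _) _)).le).hasSum

theorem ch_neg (a b : ℝ) (m n : ℤ) : ch a b (-m, -n) = conj (ch a b (m, n)) := by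
  rw [ch, ch, ee_conj]
  congr 1
  simp
  ring

theorem RR_neg (τ : ℍ) (a b : ℝ) (m : ℤ) : RR τ a b (-m) = conj (RR τ a b m) :=
  ((Equiv.neg ℤ).hasSum_iff.2 (has_RR τ a b (-m))).unique
    ((conjCLE.toContinuousLinearMap.hasSum (has_RR τ a b m)).congr_fun fun n => by
      simp [gg_neg, ch_neg])

theorem RR_zero (τ : ℍ) (b : ℝ) (ha : a ∈ Icc (0 : ℝ) 1) :
    RR τ a b 0 = 2 * π ^ 2 * (a ^ 2 - a + 1 / 6) :=
  ((Equiv.neg ℤ).hasSum_iff.2 (has_RR τ a b 0)).unique ((row0 ha).congr_fun fun n => by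
    simp [gg_zero, ch])

theorem RR_pos (τ : ℍ) (b : ℝ) (ha : a ∈ Ico (0 : ℝ) 1) (m : ℕ) :
    RR τ a b (-(m + 1 : ℕ)) = π / τ.im *
      (ee ((m + 1) * (τ - (a * τ + b))) / (1 - ee ((m + 1) * τ)) / (m + 1) +
        conj (ee ((m + 1) * (a * τ + b)) / (1 - ee ((m + 1) * τ)) / (m + 1))) := by
  have p : 0 < ((((m + 1 : ℕ) : ℤ) : ℂ) * τ).im := by
    rw [im_eq]; exact mul_pos (by positivity) τ.im_pos
  have k := (row p (sum_row τ (m + 1 : ℕ)) ha).mul_left (ee (-((m + 1) * b)))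
  rw [((Equiv.neg ℤ).hasSum_iff.2 (has_RR τ a b _)).unique (k.congr_fun fun n => by
    rw [Function.comp, Equiv.neg_apply, gg_neg, ← mul_assoc, ← ee_add, ch]
    congr 2
    push_cast
    ring), im_eq]
  have e1 : ee ((m + 1) * (τ - (a * τ + b))) = ee (-((m + 1) * b)) * ee ((m + 1) * τ * (1 - a)) := by
    rw [← ee_add]; congr 1; ring
  have e2 : conj (ee ((m + 1) * (a * τ + b))) = ee (-((m + 1) * b)) * conj (ee ((m + 1) * τ * a)) := by
    rw [ee_conj, ee_conj, ← ee_add]; congr 1; simp; ring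
  have m0 : (m : ℂ) + 1 ≠ 0 := Nat.cast_add_one_ne_zero m
  have y0 : (τ.im : ℂ) ≠ 0 := ofReal_ne_zero.2 τ.im_pos.ne'
  simp only [map_div₀, e1, e2, map_add, map_natCast, map_one]
  push_cast
  field_simp

theorem val (τ : ℍ) (b : ℝ) (ha : a ∈ Ioo (0 : ℝ) 1) :
    HasSum (RR τ a b) ((-(2 * π) * lg τ (a * τ + b) : ℝ) / τ.im) := by
  have y := τ.im_pos
  have i : (a * τ + b : ℂ).im = a * τ.im := by simp
  have z1 : 0 < (a * τ + b : ℂ).im := i ▸ mul_pos ha.1 y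
  have z2 : 0 < (τ - (a * τ + b) : ℂ).im := by
    rw [sub_im, i, coe_im]; nlinarith [ha.2]
  obtain ⟨L, l1, l2⟩ := lp (τ := τ) y z1
  obtain ⟨L', l1', l2'⟩ := lp (τ := τ) y z2
  have k := (l1'.add (conjCLE.toContinuousLinearMap.hasSum l1)).mul_left ((π : ℂ) / τ.im)
  have k1 : HasSum (fun m : ℕ => RR τ a b (-(m + 1))) _ := k.congr_fun fun m => by
    simpa using RR_pos τ b (Ioo_subset_Ico_self ha) m
  have k2 : HasSum (fun m : ℕ => RR τ a b (m + 1)) _ :=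
    (conjCLE.toContinuousLinearMap.hasSum k1).congr_fun fun m => by
      rw [← neg_neg ((m : ℤ) + 1), RR_neg]; simp
  have k3 := HasSum.of_add_one_of_neg_add_one k2 k1
  rw [RR_zero τ b (Ioo_subset_Icc_self ha)] at k3
  convert k3 using 1
  have n := fun u (h : 0 < u.im) => norm_ne_zero_iff.2 (po_ne (τ := τ) (y := u) y fun n e =>
    ee_ne_one (w := u + n * τ) (by simp; positivity) (sub_eq_zero.2 e.symm))
  have n0 := fun w => norm_ne_zero_iff.2 (ee_ne w)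
  have y0 : (τ.im : ℂ) ≠ 0 := ofReal_ne_zero.2 y.ne'
  rw [lg, th, norm_mul, norm_mul, Real.log_mul (mul_ne_zero (n0 _) (n _ z1)) (n _ z2),
    Real.log_mul (n0 _) (n _ z1), l2, l2', log_ee, div_ofNat_im, neg_im, i, coe_im]
  simp only [ContinuousLinearEquiv.coe_coe, conjCLE_apply, map_mul, map_div₀, conj_ofReal, map_add,
    conj_conj]
  push_cast
  rw [re_eq_add_conj, re_eq_add_conj]
  field_simp
  ring

theorem klf1 (τ : ℍ) (b : ℝ) (ha : a ∈ Ioo (0 : ℝ) 1) :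
    Tendsto (Z2 τ a b) (𝓝[>] 1) (𝓝 (-(2 * π) * lg τ (a * τ + b) : ℝ)) := by
  have n : 1 - ee (-a) ≠ 0 := fun e => by
    obtain ⟨k, e⟩ := ee_one.1 (sub_eq_zero.1 e).symm
    have : -a = k := by exact_mod_cast e
    have h1 : (-1 : ℝ) < k := by linarith [ha.2]
    have h2 : (k : ℝ) < 0 := by linarith [ha.1]
    norm_cast at h1 h2
    omega
  obtain ⟨c, c1, c2⟩ := dom2 τ
  have S : Summable fun x => ch a b x * (DD τ 1 x : ℝ) := c1.of_norm_bounded fun x => by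
    rw [norm_mul, ch_nrm, one_mul, norm_real]
    exact c2 1 ⟨le_rfl, one_le_two⟩ x
  have e := (S.hasSum.prod_fiberwise fun m => ((has_RR τ a b m).sub
    (((Equiv.subRight 1).hasSum_iff.2 (has_RR τ a b m)).mul_left (ee (-a)))).congr_fun fun n => by
      rw [DD, ofReal_sub, mul_sub, ch_succ a b m n, mul_assoc, mul_assoc]
      rfl).unique ((val τ b ha).sub ((val τ b ha).mul_left (ee (-a))))
  have k := ((continuous_ofReal.continuousAt.comp (Real.continuousAt_const_rpow (b := 1)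
    τ.im_pos.ne')).tendsto.mono_left (nhdsWithin_le_nhds (s := Ioi 1))).mul
      ((lim_DD τ a b).div_const (1 - ee (-a)))
  rw [e, Function.comp, Real.rpow_one] at k
  have y0 : (τ.im : ℂ) ≠ 0 := ofReal_ne_zero.2 τ.im_pos.ne'
  convert k.congr' (eventually_nhdsWithin_of_forall fun s hs => ?_) using 2
  · field_simp
  · rw [Z2_eq, sum_DD τ a b hs, mul_div_cancel_left₀ _ n]
    rfl

theorem klf1' (τ : ℍ) (b : ℝ) (ha : ¬ ∃ m : ℤ, a = m) :
    Tendsto (Z2 τ a b) (𝓝[>] 1) (𝓝 (-(2 * π) * lg τ (a * τ + b) : ℝ)) := by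
  have h : Int.fract a ∈ Ioo (0 : ℝ) 1 :=
    ⟨Int.fract_pos.2 fun e => ha ⟨_, e⟩, Int.fract_lt_one a⟩
  have k := klf1 τ b h
  have n : Nl τ (Int.fract a * τ + b) := fun ⟨m, n, e⟩ => by
    have := congrArg Complex.im e
    simp only [add_im, im_eq, intCast_im, im_ofReal_mul, ofReal_im, coe_im, add_left_inj,
      mul_left_inj' τ.im_pos.ne'] at this
    exact ha ⟨⌊a⌋ + m, by rw [Int.cast_add, this, Int.floor_add_fract]⟩
  have e : Z2 τ (Int.fract a) b = Z2 τ a b := funext fun s => by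
    rw [← Z2_per τ _ b s ⌊a⌋ 0, Int.fract_add_floor, Int.cast_zero, add_zero]
  have : (a : ℂ) = Int.fract a + ⌊a⌋ := by exact_mod_cast (Int.fract_add_floor a).symm
  rwa [← lg_lat τ.im_pos n ⌊a⌋ 0, e, show (Int.fract a : ℝ) * (τ : ℂ) + b + (⌊a⌋ * τ + (0 : ℤ)) =
    a * τ + b by rw [Int.cast_zero]; linear_combination -τ * this] at k

/-- the point `-1 / τ` -/
def iv (τ : ℍ) : ℍ := ⟨-1 / τ, im_S τ.im_pos⟩

theorem Z2_S (τ : ℍ) (a b s : ℝ) : Z2 (iv τ) (-b) a s = Z2 τ a b s := by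
  rw [Z2, Z2, ← ((Equiv.prodComm ℤ ℤ).trans ((Equiv.neg ℤ).prodCongr (Equiv.refl ℤ))).tsum_eq]
  congr 1
  ext ⟨m, n⟩
  have t0 := τ.ne_zero
  have t1 := norm_pos_iff.2 t0
  have e1 : (iv τ).im = τ.im / ‖(τ : ℂ)‖ ^ (2 : ℝ) := by
    change (-1 / τ : ℂ).im = _
    rw [neg_div, one_div, neg_im, inv_im, neg_div, neg_neg, normSq_eq_norm_sq, Real.rpow_two, coe_im]
  have e2 : ((-n : ℤ) : ℂ) * iv τ + m = (m * τ + n) / τ := by
    change _ * (-1 / (τ : ℂ)) + _ = _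
    push_cast
    field_simp
    ring
  change ch (-b) a (-n, m) * (((iv τ).im ^ s / ‖((-n : ℤ) : ℂ) * iv τ + m‖ ^ (2 * s) : ℝ) : ℂ) = _
  rw [e1, e2, norm_div, Real.div_rpow τ.im_pos.le (by positivity), ← Real.rpow_mul t1.le,
    Real.div_rpow (norm_nonneg _) t1.le, div_div_div_cancel_right₀ (by positivity), ch, ch]
  congr 2
  push_cast
  ring

theorem nl_iff : Nl τ (a * τ + b) ↔ ¬ ((∃ m : ℤ, a = m) ∧ ∃ n : ℤ, b = n) := by
  refine not_congr ⟨fun ⟨m, n, e⟩ => ?_, fun ⟨⟨m, e⟩, n, f⟩ => ⟨m, n, by simp [e, f]⟩⟩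
  have i := congrArg Complex.im e
  simp only [add_im, im_eq, intCast_im, im_ofReal_mul, ofReal_im, coe_im, add_left_inj,
    mul_left_inj' τ.im_pos.ne'] at i
  rw [← i, ofReal_intCast, add_right_inj] at e
  exact ⟨⟨m, i.symm⟩, n, by exact_mod_cast e.symm⟩

/-- **the second limit formula** -/
theorem klf2 (h : Nl τ (a * τ + b)) :
    Tendsto (Z2 τ a b) (𝓝[>] 1) (𝓝 (-(2 * π) * lg τ (a * τ + b) : ℝ)) := by
  by_cases ha : ∃ m : ℤ, a = m
  · have k := klf1' (iv τ) (a := -b) a fun ⟨n, e⟩ =>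
      nl_iff.1 h ⟨ha, -n, by rw [Int.cast_neg, ← e, neg_neg]⟩
    rw [funext (Z2_S τ a b)] at k
    have := τ.ne_zero
    rwa [← lg_S τ.im_pos h, show (a * τ + b : ℂ) / τ = (-b : ℝ) * (-1 / (τ : ℂ)) + a by
      push_cast; field_simp; ring]
  · exact klf1' τ b ha

/-- the smoothed form -/
theorem klf2c (c : ℕ) (h : Nl τ (c * (a * τ + b))) :
    Tendsto (fun s => c ^ 2 * Z2 τ a b s - Z2 τ (c * a) (c * b) s) (𝓝[>] 1)
      (𝓝 (-(2 * π) * Real.log ‖Gc c τ (a * τ + b)‖ : ℝ)) := by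
  have e : (c : ℂ) * (a * τ + b) = (c * a : ℝ) * τ + (c * b : ℝ) := by push_cast; ring
  have k := ((klf2 (τ := τ) (a := a) (b := b) fun ⟨m, n, e⟩ =>
    h ⟨c * m, c * n, by rw [← e]; push_cast; ring⟩).const_mul ((c : ℂ) ^ 2)).sub (klf2 (e ▸ h))
  rw [log_Gc τ.im_pos c h, e]
  convert k using 2
  push_cast
  ring

theorem ex_ab (τ : ℍ) (z : ℂ) : ∃ a b : ℝ, z = a * τ + b :=
  ⟨z.im / τ.im, z.re - z.im / τ.im * τ.re, Complex.ext (by simp) (by simp [τ.im_pos.ne'])⟩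

theorem sum_Z2 (τ : ℍ) (a b : ℝ) (hs : 1 < s) : HasSum (fun x : ℤ × ℤ =>
    ch a b x * (τ.im ^ s / ‖(x.1 : ℂ) * τ + x.2‖ ^ (2 * s) : ℝ)) (Z2 τ a b s) :=
  Summable.hasSum (((sum_ch τ a b hs).mul_left ((τ.im ^ s : ℝ) : ℂ)).congr fun x => by
    rw [gg, Real.rpow_neg (norm_nonneg _), div_eq_mul_inv, ofReal_mul]
    ring)

end Vale.Agent.P014X.An
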