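import Vale.Agent.P014T.Sg.Gc

/-! # P014X: tools for the second limit formula of Kronecker -/

set_option autoImplicit false
set_option linter.all false

open Complex Filter Topology Set
open scoped Real ComplexConjugate

noncomputable section

namespace Vale.Agent.P014X.An

open Vale.Agent.P014T.Sg

variable {w τ u : ℂ} {a : ℝ}

theorem nrm_ee (w : ℂ) : ‖ee w‖ = Real.exp (-(2 * π * w.im)) := by
  rw [ee, norm_exp]
  congr 1
  simp

theorem nrm_re (a : ℝ) : ‖ee a‖ = 1 := by simp [nrm_ee]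

theorem ee_ne_one (h : w.im ≠ 0) : 1 - ee w ≠ 0 := fun e => by
  obtain ⟨k, e⟩ := ee_one.1 (sub_eq_zero.1 e).symm
  exact h (by simp [e])

theorem ee_conj (w : ℂ) : conj (ee w) = ee (-conj w) := by
  rw [ee, ee, ← exp_conj]
  congr 1
  simp [map_ofNat]

theorem ee_cont : Continuous ee := by unfold ee; fun_prop

theorem fou (n : ℤ) (a : ℝ) : fourier n (a : AddCircle (1 : ℝ)) = ee (n * a) := by
  rw [fourier_coe_apply, ee]
  congr 1
  push_cast
  ring

/-- the function with the Fourier coefficients `1 / (w + n)` -/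
def kk (w : ℂ) (x : ℝ) : ℂ := 2 * π * I * ee (-(w * x)) / (1 - ee (-w))

theorem kk_cont (w : ℂ) : Continuous (kk w) := by
  have := ee_cont
  unfold kk
  fun_prop

theorem kk_end (h : w.im ≠ 0) : kk w 0 - kk w 1 = 2 * π * I := by
  have := ee_ne_one (w := -w) (by simpa using h)
  simp only [kk, ofReal_zero, mul_zero, neg_zero, ee_zero, ofReal_one, mul_one]
  field_simp

theorem kk_int (h : w.im ≠ 0) (n : ℤ) :
    ∫ x in (0 : ℝ)..1, ee (-(n * x)) * kk w x = 1 / (w + n) := by
  have e := ee_ne_one (w := -w) (by simpa using h)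
  have n0 : w + n ≠ 0 := fun c => h (by simpa using congrArg im c)
  have p : (2 * π * I : ℂ) ≠ 0 := two_pi_I_ne_zero
  have : ∀ x : ℝ, ee (-(n * x)) * kk w x =
      2 * π * I / (1 - ee (-w)) * cexp (-(2 * π * I * (w + n)) * x) := fun x => by
    rw [kk, show -(2 * π * I * (w + n)) * x = 2 * π * I * (-(n * x) + -(w * x)) by ring, ← ee,
      ee_add]
    ring
  simp only [this]
  rw [intervalIntegral.integral_const_mul, integral_exp_mul_complex
    (neg_ne_zero.2 (mul_ne_zero p n0)), ofReal_zero, mul_zero, exp_zero, ofReal_one, mul_one,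
    show -(2 * π * I * (w + n)) = 2 * π * I * (-w + (-n : ℤ)) by push_cast; ring, ← ee, ee_add,
    ee_int, mul_one, show -w + (-n : ℤ) = -(w + n) by push_cast; ring]
  field_simp
  ring

theorem four {w' : ℂ} (h : w.im ≠ 0) (h' : w'.im ≠ 0)
    (S : Summable fun n : ℤ => 1 / (w + n) - 1 / (w' + n)) (ha : a ∈ Ico (0 : ℝ) 1) :
    HasSum (fun n : ℤ => (1 / (w + n) - 1 / (w' + n)) * ee (n * a)) (kk w a - kk w' a) := by
  have c := (kk_cont w).sub (kk_cont w')
  let B : C(AddCircle (1 : ℝ), ℂ) := ⟨AddCircle.liftIco 1 0 fun x => kk w x - kk w' x,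
    AddCircle.liftIco_zero_continuous (by linear_combination kk_end h - kk_end h') c.continuousOn⟩
  have e : ∀ n : ℤ, fourierCoeff B n = 1 / (w + n) - 1 / (w' + n) := fun n => by
    have i : ∀ w : ℂ, IntervalIntegrable (fun x : ℝ => ee (-(n * x)) * kk w x) MeasureTheory.volume
        0 1 := fun w => ((ee_cont.comp (by fun_prop)).mul (kk_cont w)).intervalIntegrable _ _
    rw [ContinuousMap.coe_mk, fourierCoeff_liftIco_eq, fourierCoeffOn_eq_integral, ← kk_int h,
      ← kk_int h', ← intervalIntegral.integral_sub (i w) (i w')]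
    simp only [fourier_coe_apply, zero_add, sub_zero, div_one, one_smul, ofReal_one, smul_eq_mul]
    congr 1
    ext x
    rw [← mul_sub, ee]
    congr 2
    push_cast
    ring
  have k := has_pointwise_sum_fourier_series_of_summable (S.congr fun n => (e n).symm) (a : ℝ)
  simp only [e, fou, smul_eq_mul] at k
  rwa [ContinuousMap.coe_mk, AddCircle.liftIco_coe_apply (by rwa [zero_add])] at k

/-- the sum over a row -/
theorem row (h : 0 < w.im) (S : Summable fun n : ℤ => ‖w + n‖ ^ (-(2 * 1) : ℝ))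
    (ha : a ∈ Ico (0 : ℝ) 1) :
    HasSum (fun n : ℤ => ee (n * a) * (‖w + n‖ ^ (-(2 * 1) : ℝ) : ℝ))
      (π / w.im * (ee (w * (1 - a)) / (1 - ee w) + conj (ee (w * a) / (1 - ee w)))) := by
  have h' : (conj w).im ≠ 0 := by simpa using h.ne'
  have v0 : (w.im : ℂ) ≠ 0 := ofReal_ne_zero.2 h.ne'
  have d : conj w - w = -(2 * w.im * I) := by
    rw [← neg_sub, sub_conj]; push_cast; ring
  have e : ∀ n : ℤ, 1 / (w + n) - 1 / (conj w + n) =
      -(2 * w.im * I) * (‖w + n‖ ^ (-(2 * 1) : ℝ) : ℝ) := fun n => by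
    have n0 : w + n ≠ 0 := fun c => h.ne' (by simpa using congrArg im c)
    have n1 : conj w + n ≠ 0 := fun c => h' (by simpa using congrArg im c)
    rw [mul_one, Real.rpow_neg (norm_nonneg _), Real.rpow_two, ← normSq_eq_norm_sq, ofReal_inv,
      ← mul_conj, map_add, map_intCast, ← d]
    field_simp
    ring
  have k := (four h.ne' h' (((ofRealCLM.summable S).mul_left _).congr fun n => (e n).symm)
    ha).div_const (-(2 * w.im * I))
  have q := ee_ne_one h.ne'
  have q' := ee_ne_one (w := -w) (by simpa using h.ne')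
  have q0 := ee_ne w
  refine Eq.subst (motive := fun x => HasSum _ x) ?_ (k.congr_fun fun n => ?_)
  swap
  · rw [e]
    field_simp
  · rw [kk, kk, map_div₀, map_sub, map_one, ee_conj, ee_conj, map_mul, conj_ofReal, mul_sub,
      mul_one, sub_eq_add_neg w, ee_add]
    rw [ee_neg w] at q' ⊢
    have : 1 - (ee w)⁻¹ = -(1 - ee w) / ee w := by field_simp; ring
    rw [this]
    field_simp
    ring

theorem row0 (ha : a ∈ Icc (0 : ℝ) 1) :
    HasSum (fun n : ℤ => ee (n * a) * (|(n : ℝ)| ^ (-(2 * 1) : ℝ) : ℝ))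
      (2 * π ^ 2 * (a ^ 2 - a + 1 / 6)) := by
  have k := hasSum_one_div_pow_mul_fourier_mul_bernoulliFun le_rfl ha
  convert k using 1
  · ext n
    rw [fou, mul_one, Real.rpow_neg (abs_nonneg _), Real.rpow_two, sq_abs]
    push_cast
    ring
  · rw [bernoulliFun_two, mul_pow, I_sq]
    push_cast [Nat.factorial]
    ring

/-- the logarithm of the product -/
theorem lp (h : 0 < τ.im) (hu : 0 < u.im) : ∃ L : ℂ,
    HasSum (fun m : ℕ => ee ((m + 1) * u) / (1 - ee ((m + 1) * τ)) / (m + 1)) L ∧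
      Real.log ‖po τ u‖ = -L.re := by
  have q := ee_lt h
  have r := ee_lt hu
  have g := summable_geometric_of_lt_one (norm_nonneg _) q
  have g' := summable_geometric_of_lt_one (norm_nonneg _) r
  have p : ∀ n : ℕ, ‖ee (u + n * τ)‖ < 1 := fun n => ee_lt (by simp; positivity)
  obtain ⟨L, S⟩ : Summable fun x : ℕ × ℕ => ee (u + x.1 * τ) ^ (x.2 + 1) / (x.2 + 1) :=
    (g.mul_of_nonneg g' (fun _ => by positivity) fun _ => by positivity).of_norm_bounded fun x => by
      rw [norm_div, norm_pow, ee_add, ee_nat, norm_mul, norm_pow, mul_pow, ← pow_mul, mul_comm]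
      refine (div_le_self (by positivity) ?_).trans (mul_le_mul
        (pow_le_pow_of_le_one (norm_nonneg _) q.le (by nlinarith))
        (pow_le_pow_of_le_one (norm_nonneg _) r.le (by omega)) (by positivity) (by positivity))
      rw [← Nat.cast_succ, Complex.norm_natCast]
      exact_mod_cast x.2.succ_pos
  have a : HasSum (fun k : ℕ => -log (1 - ee (u + k * τ))) L :=
    S.prod_fiberwise fun k => by simpa only using hasSum_taylorSeries_neg_log' (p k)
  have S' : HasSum (fun x : ℕ × ℕ => ee (u + x.2 * τ) ^ (x.1 + 1) / (x.1 + 1)) L :=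
    (Equiv.prodComm ℕ ℕ).hasSum_iff.2 S
  refine ⟨L, S'.prod_fiberwise fun m => ?_, ?_⟩
  · have k := ((hasSum_geometric_of_norm_lt_one (ξ := ee ((m + 1) * τ))
      (ee_lt (by simp; positivity))).mul_left (ee ((m + 1) * u))).div_const ((m : ℂ) + 1)
    rw [← div_eq_mul_inv] at k
    refine k.congr_fun fun k => ?_
    rw [← ee_nat, ← ee_nat, ← ee_add]
    congr 2
    push_cast
    ring
  · have b : HasProd (fun k : ℕ => 1 - ee (u + k * τ)) (cexp (-L)) := a.neg.cexp.congr_fun fun k => by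
      rw [Function.comp, neg_neg, exp_log (ee_ne_one (by simp; positivity))]
    rw [po, b.tprod_eq, norm_exp, Real.log_exp, neg_re]

/-! ## the Green function -/

/-- the logarithm of the absolute value of the Siegel function -/
def lg (τ z : ℂ) : ℝ := Real.log ‖th τ z‖ - π * (z.im ^ 2 / τ.im + τ.im / 6)

/-- not in the lattice -/
def Nl (τ z : ℂ) : Prop := ¬ ∃ m n : ℤ, m * τ + n = z

theorem Nl.add {z : ℂ} (k : Nl τ z) (m n : ℤ) : Nl τ (z + (m * τ + n)) := fun ⟨i, j, e⟩ =>
  k ⟨i - m, j - n, by push_cast; linear_combination e⟩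

theorem log_ee (w : ℂ) : Real.log ‖ee w‖ = -(2 * π * w.im) := by rw [nrm_ee, Real.log_exp]

theorem lg_one (z : ℂ) : lg τ (z + 1) = lg τ z := by simp [lg, th_one]

theorem lg_tau (h : 0 < τ.im) {z : ℂ} (k : Nl τ z) : lg τ (z + τ) = lg τ z := by
  rw [lg, lg, th_tau h, norm_mul, norm_neg, Real.log_mul (norm_ne_zero_iff.2 (ee_ne _))
    (norm_ne_zero_iff.2 (th_ne h k)), log_ee]
  simp only [sub_im, neg_im, div_ofNat_im, add_im]
  field_simp
  ring

theorem lg_lat (h : 0 < τ.im) {z : ℂ} (k : Nl τ z) (m n : ℤ) : lg τ (z + (m * τ + n)) = lg τ z := by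
  have a := (show Function.Periodic (lg τ) 1 from lg_one).int_mul n (z + m * τ)
  rw [mul_one] at a
  rw [← add_assoc, a]
  induction m using Int.induction_on with
  | zero => simp
  | succ i c =>
    have := lg_tau h (k.add i 0)
    rw [← c (by simpa using (show Function.Periodic (lg τ) 1 from lg_one).int_mul n _)]
    convert this using 2 <;> push_cast <;> ring
  | pred i c =>
    have := lg_tau h (k.add (-i - 1) 0)
    rw [← c (by simpa using (show Function.Periodic (lg τ) 1 from lg_one).int_mul n _)]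
    convert this.symm using 2 <;> push_cast <;> ring

theorem lg_neg (h : 0 < τ.im) (z : ℂ) : lg τ (-z) = lg τ z := by simp [lg, th_neg h]

theorem Nl.S (h : 0 < τ.im) {z : ℂ} (k : Nl τ z) : Nl (-1 / τ) (z / τ) := fun ⟨m, n, e⟩ => by
  have t0 : τ ≠ 0 := fun e => by simp [e] at h
  refine k ⟨n, -m, ?_⟩
  field_simp at e
  push_cast
  linear_combination e

theorem lg_S (h : 0 < τ.im) {z : ℂ} (k : Nl τ z) : lg (-1 / τ) (z / τ) = lg τ z := by
  have t0 : τ ≠ 0 := fun e => by simp [e] at h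
  have p := pp_ne h
  have p' := pp_ne (im_S h)
  have s : ee (-1 / τ) * (po (-1 / τ) (-1 / τ) ^ 2 / (τ * po τ τ ^ 2)) ^ 12 = ee τ := by
    rw [div_pow, ← pow_mul, ← mul_div_assoc, pp_S h]
    field_simp
  have K0 : po (-1 / τ) (-1 / τ) ^ 2 / (τ * po τ τ ^ 2) ≠ 0 := by positivity
  rw [lg, lg, th_S h]
  generalize po (-1 / τ) (-1 / τ) ^ 2 / (τ * po τ τ ^ 2) = K at *
  have n := fun w => norm_ne_zero_iff.2 (ee_ne w)
  have K1 := norm_ne_zero_iff.2 K0
  have t := norm_ne_zero_iff.2 (th_ne h k)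
  have s' := congrArg (fun x => Real.log ‖x‖) s
  simp only [norm_mul, norm_pow] at s'
  rw [Real.log_mul (n _) (pow_ne_zero _ K1), Real.log_pow, log_ee, log_ee] at s'
  rw [norm_mul, norm_mul, Real.log_mul K1 (mul_ne_zero (n _) t), Real.log_mul (n _) t, log_ee]
  have e : -(2 * (z ^ 2 / (2 * τ)).im) - (z / τ).im ^ 2 / (-1 / τ).im + z.im ^ 2 / τ.im = 0 := by
    have := (normSq_pos.2 t0).ne'
    have := h.ne'
    rw [mul_comm 2 τ, ← div_div, div_ofNat_im]
    simp only [div_im, sq, mul_im, mul_re, neg_im, neg_re, one_im, one_re, zero_mul, neg_zero,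
      zero_div, zero_sub, neg_mul, one_mul, neg_div, neg_neg]
    field_simp
    rw [normSq_apply]
    ring
  push_cast at s'
  linear_combination s' / 12 + π * e

/-- the smoothed function -/
theorem log_Gc (h : 0 < τ.im) (c : ℕ) {z : ℂ} (k : Nl τ (c * z)) :
    Real.log ‖Gc c τ z‖ = c ^ 2 * lg τ z - lg τ (c * z) := by
  have t := norm_ne_zero_iff.2 (th_ne h k)
  have t' := norm_ne_zero_iff.2 (th_ne h (z := z) fun ⟨m, n, e⟩ =>
    k ⟨c * m, c * n, by rw [← e]; push_cast; ring⟩)
  have n := fun w => norm_ne_zero_iff.2 (ee_ne w)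
  rw [Gc, norm_div, norm_mul, norm_pow, Real.log_div (mul_ne_zero (n _) (pow_ne_zero _ t')) t,
    Real.log_mul (n _) (pow_ne_zero _ t'), log_ee, Real.log_pow, lg, lg,
    show ((c : ℂ) ^ 2 - 1) / 12 * τ + (c - c ^ 2) / 4 =
      (((c : ℝ) ^ 2 - 1) / 12 : ℝ) * τ + ((c - c ^ 2) / 4 : ℝ) by push_cast; ring]
  simp only [add_im, ofReal_re, ofReal_im, mul_im, natCast_re, natCast_im]
  push_cast
  ring

end Vale.Agent.P014X.An
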