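import Vale.Agent.P014X.St0
import Vale.Agent.P004R.Gl

/-! # P014X: the field of complex multiplication as a number field (helper92) -/

set_option autoImplicit false
set_option linter.all false

open NumberField QuadraticAlgebra
open scoped Classical

noncomputable section

namespace Vale.Agent.P014X.Md

open Vale.Agent.P022 Vale.Agent.P022.H916 P004R.Gl P027M.M
open P004M.TE (Pt ga)

variable {A B : ℤ} {D : Cd A B}

theorem dom (D : Cd A B) : IsDomain D.O := D.inj.isDomain D.j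

theorem cG (C : D.Cf) : D.c ∉ D.G := (C.cG _).2 (C.c2 ▸ one_mem _)

/-- the complex embedding as a ring homomorphism -/
def JH (D : Cd A B) : D.O →+* ℂ := (io : Qb →+* ℂ).comp ((algebraMap (𝓞 Qb) Qb).comp D.j)

theorem JH_eq (x : D.O) : JH D x = D.J x := rfl

theorem J_inj : Function.Injective D.J :=
  (io : Qb →+* ℂ).injective.comp (RingOfIntegers.coe_injective.comp D.inj)

theorem J_ne {x : D.O} (h : x ≠ 0) : D.J x ≠ 0 := fun e => h (J_inj (e.trans (map_zero (JH D)).symm))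

theorem J_star (C : D.Cf) (x : D.O) : D.J (star x) = starRingEnd ℂ (D.J x) := by
  rw [Cd.J, Cd.J, ← D.cc, ← C.cj _ (cG C)]
  rfl

theorem norm_J (C : D.Cf) (x : D.O) : ‖D.J x‖ ^ 2 = D.nm x := by
  have a := congrArg (JH D) (algebraMap_norm_eq_mul_star x)
  rw [map_mul, JH_eq x, JH_eq (star x), J_star C, Complex.mul_conj, eq_intCast, map_intCast,
    ← Complex.ofReal_intCast, Complex.ofReal_inj] at a
  rw [Cd.nm, Nat.cast_natAbs, Int.cast_abs, a, abs_of_nonneg (Complex.normSq_nonneg _),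
    Complex.normSq_eq_norm_sq]

theorem nm_mul (x y : D.O) : D.nm (x * y) = D.nm x * D.nm y := by
  rw [Cd.nm, map_mul, Int.natAbs_mul]
  rfl

theorem nm_ne (C : D.Cf) {x : D.O} (h : x ≠ 0) : D.nm x ≠ 0 := fun e => by
  have a := norm_J C x
  rw [e, Nat.cast_zero, sq_eq_zero_iff, norm_eq_zero] at a
  exact J_ne h a

/-- a model of the field of fractions -/
structure Mo (D : Cd A B) {K : Type} [Field K] [NumberField K] (j : K →+* Qb) (e : D.O ≃+* 𝓞 K) :
    Prop where
  G : GK j = D.G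
  je : ∀ x, RingOfIntegers.mapRingHom j (e x) = D.j x
  nm : ∀ x, Ideal.absNorm (Ideal.span {e x}) = D.nm x

theorem two (C : D.Cf) {y : Qb} (h : ∀ g ∈ D.G, g y = y) (g : GQ) :
    (g ∈ D.G → g (D.c y) = D.c y) ∧ (g ∉ D.G → g y = D.c y ∧ g (D.c y) = y) := by
  have a : ∀ g ∈ D.G, g (D.c y) = D.c y := fun g hg => by
    have := congrArg D.c (h _ (C.nrm.conj_mem' g hg D.c))
    rwa [← AlgEquiv.mul_apply, ← mul_assoc, ← mul_assoc, mul_inv_cancel, one_mul] at this
  refine ⟨a g, fun hg => ⟨?_, h _ ((C.cG g).1 hg)⟩⟩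
  have := a _ ((C.cG g).1 hg)
  rwa [← AlgEquiv.mul_apply, mul_assoc, C.c2, mul_one] at this

theorem frac (C : D.Cf) {y : Qb} (h : ∀ g ∈ D.G, g y = y) :
    ∃ a b : D.O, y = (D.j a : Qb) / (D.j b : Qb) := by
  set w : Qb := ((D.j ω : 𝓞 Qb) : Qb) with hw
  have h' : ∀ g ∈ D.G, g w = w := fun g hg => congrArg (fun x : 𝓞 Qb => (x : Qb)) (C.fix g hg ω)
  have cw : D.c w = D.j (star ω) := congrArg (fun x : 𝓞 Qb => (x : Qb)) (C.cj _ (cG C) ω)
  have n : w - D.c w ≠ 0 := fun e =>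
    cG C ((D.mem _).2 (RingOfIntegers.ext (sub_eq_zero.1 e).symm))
  obtain ⟨t, ht⟩ := fixed jQ (x := y + D.c y) fun g => by
    by_cases m : g.1 ∈ D.G
    · rw [map_add, h _ m, (two C h g).1 m]
    · rw [map_add, ((two C h g).2 m).1, ((two C h g).2 m).2, add_comm]
  obtain ⟨s, hs⟩ := fixed jQ (x := (y - D.c y) / (w - D.c w)) fun g => by
    by_cases m : g.1 ∈ D.G
    · rw [map_div₀, map_sub, map_sub, h _ m, (two C h g).1 m, h' _ m, (two C h' g).1 m]
    · rw [map_div₀, map_sub, map_sub, ((two C h g).2 m).1, ((two C h g).2 m).2,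
        ((two C h' g).2 m).1, ((two C h' g).2 m).2, ← neg_div_neg_eq, neg_sub, neg_sub]
  refine ⟨(t.num : D.O) * (s.den : D.O) + (s.num : D.O) * (t.den : D.O) * ((ω : D.O) - star ω),
    2 * (t.den : D.O) * (s.den : D.O), ?_⟩
  rw [eq_ratCast, Rat.cast_def, eq_div_iff n] at hs
  rw [eq_ratCast, Rat.cast_def] at ht
  have t0 : (t.den : Qb) ≠ 0 := Nat.cast_ne_zero.2 t.den_nz
  have s0 : (s.den : Qb) ≠ 0 := Nat.cast_ne_zero.2 s.den_nz
  simp only [map_add, map_mul, map_sub, map_intCast, map_natCast, map_ofNat]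
  rw [show algebraMap (𝓞 Qb) Qb (D.j ω) = w from rfl,
    show algebraMap (𝓞 Qb) Qb (D.j (star ω)) = D.c w from cw.symm, eq_div_iff (by simp [t0, s0])]
  field_simp at ht hs
  linear_combination (-s.den) * ht - t.den * hs

theorem ex_mo (C : D.Cf) : ∃ (K : Type) (_ : Field K) (_ : NumberField K) (j : K →+* Qb)
    (e : D.O ≃+* 𝓞 K), Mo D j e := by
  obtain ⟨K, _, _, _, _, j, -, -, hG, -⟩ := exists_fld jQ D.G C.opn (fun g _ => mem_Q g)
    fun g _ u hu => C.nrm.conj_mem u hu g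
  have inj : Function.Injective (RingOfIntegers.mapRingHom j) := fun a b e =>
    RingOfIntegers.ext (j.injective (congrArg (fun x : 𝓞 Qb => (x : Qb)) e))
  choose f hf using fun x : D.O => fixed_int j (x := D.j x) fun g => C.fix g (hG ▸ g.2) x
  let φ : D.O →+* 𝓞 K := ⟨⟨⟨f, inj (by simp [hf])⟩, fun x y => inj (by simp [hf])⟩,
    inj (by simp [hf]), fun x y => inj (by simp [hf])⟩
  have i : Function.Injective φ := fun a b e => D.inj (by
    rw [← hf, ← hf]; exact congrArg _ e)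
  have := dom D
  have := D.pid
  let _ : Algebra D.O K := ((algebraMap (𝓞 K) K).comp φ).toAlgebra
  have : FaithfulSMul D.O K := (faithfulSMul_iff_algebraMap_injective _ _).2
    (RingOfIntegers.coe_injective.comp i)
  have : IsFractionRing D.O K := IsFractionRing.of_field _ _ fun z => by
    obtain ⟨a, b, e⟩ := frac C (y := j z) fun g hg => (hG ▸ hg : g ∈ GK j) z
    refine ⟨a, b, j.injective ?_⟩
    rw [e, map_div₀, ← hf, ← hf]
    rfl
  have s : Function.Surjective φ := fun y => by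
    obtain ⟨x, hx⟩ := IsIntegrallyClosed.isIntegral_iff.1
      (y.isIntegral_coe.tower_top (A := D.O))
    exact ⟨x, RingOfIntegers.ext hx⟩
  let e : D.O ≃+* 𝓞 K := RingEquiv.ofBijective φ ⟨i, s⟩
  refine ⟨K, inferInstance, inferInstance, j, e, hG, hf, fun x => ?_⟩
  have a := Algebra.norm_eq_of_algEquiv (AlgEquiv.ofRingEquiv (R := ℤ) (f := e) fun n => by simp) x
  rw [Ideal.absNorm_span_singleton, Cd.nm, ← det_toLinearMap_eq_norm]
  exact congrArg Int.natAbs a

end Vale.Agent.P014X.Md
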