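import Vale.Agent.P014X.An.Eis

/-! # P014X: the difference of two values of `℘` as a quotient of theta functions (helper5) -/

set_option autoImplicit false
set_option linter.all false

open Complex Filter Topology
open scoped Real ComplexConjugate

noncomputable section

namespace Vale.Agent.P014X.An

open Vale.Agent.P014T.Sg Eis

namespace Sig

variable {τ : ℂ}

/-- Liouville, with a removable singularity on the lattice -/
theorem lio (P : PeriodPair) {u v : ℂ → ℂ} (p : ∀ w ∈ P.lattice, ∀ z ∉ P.lattice, u (z + w) = u z)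
    (d : ∀ z ∉ P.lattice, DifferentiableAt ℂ u z) (dv : DifferentiableAt ℂ v 0)
    (e : ∀ z ∉ P.lattice, u z = v z) {z : ℂ} (hz : z ∉ P.lattice) : u z = v 0 := by
  classical
  let U : ℂ → ℂ := fun w => if w ∈ P.lattice then v 0 else u w
  have pe : ∀ w ∈ P.lattice, ∀ x, U (x + w) = U x := fun w hw x => by
    have e : x + w ∈ P.lattice ↔ x ∈ P.lattice := add_mem_cancel_right hw
    by_cases m : x ∈ P.lattice
    · simp only [U, e, m, if_true]
    · simp only [U, e, m, if_false, p w hw x m]
  have h0 : DifferentiableAt ℂ U 0 := by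
    refine dv.congr_of_eventuallyEq ?_
    filter_upwards [P.compl_lattice_sdiff_singleton_mem_nhds 0] with x hx
    by_cases k : x = 0
    · simp [U, k]
    · have m : x ∉ P.lattice := fun m => hx ⟨m, k⟩
      simp only [U, m, if_false, e x m]
  have dU : Differentiable ℂ U := fun x => by
    by_cases m : x ∈ P.lattice
    · have : U = fun y => U (y - x) := funext fun y => by rw [← pe x m (y - x), sub_add_cancel]
      rw [this]
      exact DifferentiableAt.comp x (g := U) (by rwa [sub_self]) (by fun_prop)
    · refine (d x m).congr_of_eventuallyEq ?_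
      filter_upwards [P.isClosed_lattice.isOpen_compl.mem_nhds m] with y hy
      exact if_neg hy
  have := dU.apply_eq_apply_of_bounded (IsZLattice.isCompact_range_of_periodic P.lattice _
    dU.continuous fun z w hw => pe w hw z).isBounded z 0
  simpa only [U, hz, zero_mem, if_true, if_false] using this

theorem ev0 {e : ℂ → ℂ} (h : ∀ z, e (-z) = e z) : deriv e 0 = 0 := by
  have := deriv_comp_neg e 0
  rw [funext h, neg_zero, eq_neg_iff_add_eq_zero, add_self_eq_zero] at this
  exact this

theorem quo (h : 0 < τ.im) (w : ℂ) : ∀ y ∈ (pp h).lattice,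
    Function.Periodic (fun z => th τ (z + w) * th τ (z - w) / th τ z ^ 2) y := by
  refine per h (fun z => ?_) fun z => ?_
  · have e : ee (-(z + w) - τ / 2) * ee (-(z - w) - τ / 2) = ee (-z - τ / 2) ^ 2 := by
      rw [sq, ← ee_add, ← ee_add]
      congr 1
      ring
    have n := ee_ne (-z - τ / 2)
    rw [add_right_comm, add_sub_right_comm, th_tau h, th_tau h, th_tau h, mul_mul_mul_comm,
      neg_mul_neg, e, mul_pow, neg_sq, mul_div_mul_left _ _ (pow_ne_zero _ n)]
  · rw [add_right_comm, add_sub_right_comm, th_one, th_one, th_one, neg_mul_neg, neg_sq]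

end Sig

open Sig

variable {τ z w : ℂ}

/-- the derivative of the theta function at the origin -/
def t1 (τ : ℂ) : ℂ := -(2 * π * I) * po τ τ ^ 2

theorem t1_ne (h : 0 < τ.im) : t1 τ ≠ 0 :=
  mul_ne_zero (neg_ne_zero.2 two_pi_I_ne_zero) (pow_ne_zero _ (pp_ne h))

/-- **the formula for `℘ w - ℘ z`** -/
theorem sig (h : 0 < τ.im) (hz : z ∉ (pp h).lattice) (hw : w ∉ (pp h).lattice) :
    t1 τ ^ 2 * (th τ (z + w) * th τ (z - w)) =
      ((pp h).weierstrassP w - (pp h).weierstrassP z) * (th τ z ^ 2 * th τ w ^ 2) := by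
  obtain ⟨d, hd⟩ : ∃ d, d = dslope (th τ) 0 := ⟨_, rfl⟩
  have dt := th_dz h
  have t0 := t1_ne h
  have dd : Differentiable ℂ d := hd ▸ differentiableOn_univ.1
    ((differentiableOn_dslope univ_mem).2 dt.differentiableOn)
  have d0 : d 0 = t1 τ := by rw [hd, dslope_same, (th_der h).deriv, t1]
  have q : ∀ x, th τ x = x * d x := fun x => by
    simpa [th_zero h, hd] using (sub_smul_dslope (th τ) 0 x).symm
  have de : ∀ x, d (-x) = d x := fun x => by
    by_cases k : x = 0
    · rw [k, neg_zero]
    · have := th_neg h x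
      rw [q, q, neg_mul, neg_inj] at this
      exact mul_left_cancel₀ k this
  obtain ⟨e, he⟩ : ∃ e : ℂ → ℂ, e = fun x => th τ (x + w) * th τ (x - w) / d x ^ 2 := ⟨_, rfl⟩
  have ea : AnalyticAt ℂ e 0 := he ▸ (((by fun_prop : Differentiable ℂ fun x =>
    th τ (x + w) * th τ (x - w)).analyticAt 0).div ((dd.analyticAt 0).pow 2) (by
      simpa [d0] using t0))
  have e0 : e 0 = -(th τ w ^ 2 / t1 τ ^ 2) := by
    simp only [he, zero_add, zero_sub, th_neg h, d0]
    ring
  have e1 : deriv e 0 = 0 := ev0 fun x => by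
    simp only [he, de]
    rw [show -x + w = -(x - w) by ring, show -x - w = -(x + w) by ring, th_neg h, th_neg h]
    ring
  have ds : ∀ {f : ℂ → ℂ}, AnalyticAt ℂ f 0 → AnalyticAt ℂ (dslope f 0) 0 := fun ⟨p, hp⟩ =>
    ⟨_, hp.has_fpower_series_dslope_fslope⟩
  have key : ∀ x ∉ (pp h).lattice, th τ (x + w) * th τ (x - w) / th τ x ^ 2 +
      th τ w ^ 2 / t1 τ ^ 2 * (pp h).weierstrassP x = _ := fun x hx =>
    lio (pp h) (u := fun x => th τ (x + w) * th τ (x - w) / th τ x ^ 2 +
      th τ w ^ 2 / t1 τ ^ 2 * (pp h).weierstrassP x) (v := fun x => dslope (dslope e 0) 0 x +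
      th τ w ^ 2 / t1 τ ^ 2 * (pp h).weierstrassPExcept 0 x)
      (fun y hy x _ => by
        have := quo h w y hy x
        simp only at this
        rw [this, (pp h).weierstrassP_add_coe x ⟨y, hy⟩])
      (fun x m => by
        have n := th_nz h m
        have := ((pp h).analyticOnNhd_weierstrassP x m).differentiableAt
        fun_prop (disch := exact pow_ne_zero _ n))
      ((ds (ds ea)).differentiableAt.add
        (((pp h).analyticAt_weierstrassPExcept 0).differentiableAt.const_mul _))
      (fun x m => by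
        have k : x ≠ 0 := fun e => m (e ▸ zero_mem _)
        have n := th_nz h m
        have := (pp h).weierstrassPExcept_add 0 x
        simp only [ZeroMemClass.coe_zero, sub_zero, ne_eq, OfNat.ofNat_ne_zero, not_false_eq_true,
          zero_pow, div_zero] at this
        rw [q] at n
        have n' := right_ne_zero_of_mul n
        simp only [dslope_of_ne _ k, slope_def_field, dslope_same, e1, e0, sub_zero, ← this]
        simp only [he]
        rw [q x]
        field_simp
        ring) hx
  have := (key z hz).trans (key w hw).symm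
  rw [sub_self, th_zero h, mul_zero, zero_div, zero_add] at this
  have n := th_nz h hz
  field_simp at this
  linear_combination this

theorem wp_ne (h : 0 < τ.im) (hz : z ∉ (pp h).lattice) (hw : w ∉ (pp h).lattice)
    (h1 : z + w ∉ (pp h).lattice) (h2 : z - w ∉ (pp h).lattice) :
    (pp h).weierstrassP z - (pp h).weierstrassP w ≠ 0 := fun e => by
  have := sig h hz hw
  rw [sub_eq_zero.1 e, sub_self, zero_mul] at this
  exact mul_ne_zero (pow_ne_zero _ (t1_ne h)) (mul_ne_zero (th_nz h h1) (th_nz h h2)) this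

/-- **the logarithmic derivative** -/
theorem dsig (h : 0 < τ.im) (hz : z ∉ (pp h).lattice) (hw : w ∉ (pp h).lattice)
    (h1 : z + w ∉ (pp h).lattice) (h2 : z - w ∉ (pp h).lattice) :
    (pp h).derivWeierstrassP z / ((pp h).weierstrassP z - (pp h).weierstrassP w) =
      E1 τ (z + w) + E1 τ (z - w) - 2 * E1 τ z := by
  have dt := th_dz h
  have dp := ((pp h).analyticOnNhd_weierstrassP z hz).differentiableAt
  have n := wp_ne h hz hw h1 h2
  have e : (fun z => t1 τ ^ 2 * (th τ (z + w) * th τ (z - w))) =ᶠ[𝓝 z] fun z => -th τ w ^ 2 *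
      (((pp h).weierstrassP z - (pp h).weierstrassP w) * th τ z ^ 2) := by
    filter_upwards [(pp h).isClosed_lattice.isOpen_compl.mem_nhds hz] with y hy
    rw [sig h hy hw]
    ring
  have l : logDeriv (fun z => t1 τ ^ 2 * (th τ (z + w) * th τ (z - w))) z = logDeriv (fun z =>
      -th τ w ^ 2 * (((pp h).weierstrassP z - (pp h).weierstrassP w) * th τ z ^ 2)) z := by
    rw [logDeriv_apply, logDeriv_apply, e.deriv_eq, e.eq_of_nhds]
  rw [logDeriv_const_mul _ _ (pow_ne_zero _ (t1_ne h)),
    logDeriv_const_mul _ _ (neg_ne_zero.2 (pow_ne_zero _ (th_nz h hw))),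
    logDeriv_mul (f := fun z => th τ (z + w)) (g := fun z => th τ (z - w)) z (th_nz h h1) (th_nz h h2)
      (by fun_prop) (by fun_prop),
    logDeriv_mul (f := fun z => (pp h).weierstrassP z - (pp h).weierstrassP w)
      (g := fun z => th τ z ^ 2) z n (pow_ne_zero _ (th_nz h hz)) (by fun_prop) (by fun_prop),
    logDeriv_fun_pow (dt z), ld_add] at l
  simp only [sub_eq_add_neg _ w] at l ⊢
  rw [ld_add, logDeriv_apply (fun z => _ - _), deriv_sub_const, PeriodPair.deriv_weierstrassP] at l
  simp only [E1, add_im, neg_im]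
  push_cast at l ⊢
  linear_combination -l

end Vale.Agent.P014X.An
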