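import Vale.Agent.P014X.St0
import Vale.Agent.P014X.An.Klf0
import Vale.Agent.P022.H20.GalDef
import Vale.Agent.P022D.W.Tame

/-! # P014X, analytic block: the index of the elliptic units (words and rows) -/

set_option autoImplicit false
set_option linter.all false

open NumberField NumberField.Units QuadraticAlgebra IsDedekindDomain Function
open scoped Classical

noncomputable section

namespace Vale.Agent.P014X.An

open Vale.Agent.P022 (Qb GQ GK)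
open Vale.Agent.P022D.W (dec)
open P027M.M (io)
open P004K (Un)
open Cd (Tv Uo)

/-- the finite primes -/
abbrev Pm (F : Type) [Field F] : Type := HeightOneSpectrum (𝓞 F)

/-- the norm on units -/
def nU (F' F : Type) [Field F'] [NumberField F'] [Field F] [NumberField F] [Algebra F' F] :
    (𝓞 F)ˣ →* (𝓞 F')ˣ := Units.map (RingOfIntegers.norm F')

/-- the inclusion of units -/
def iU (F' F : Type) [Field F'] [Field F] [Algebra F' F] : (𝓞 F')ˣ →* (𝓞 F)ˣ :=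
  Units.map (algebraMap (𝓞 F') (𝓞 F)).toMonoidHom

/-- the underlying element -/
def vU {F : Type} [Field F] (v : (𝓞 F)ˣ) : F := (v : 𝓞 F)

/-- the leading coefficient at zero -/
def hR (F : Type) [Field F] [NumberField F] : ℝ := classNumber F * regulator F / torsionOrder F

/-- the value of the smoothing factor `a ^ 2 - g` on `G / H` -/
def sm (a : ℕ) (H G : Subgroup GQ) (g : GQ) : ℕ :=
  (a ^ (2 * H.relIndex (Subgroup.zpowers g)) - 1) ^ (H.relIndex G / H.relIndex (Subgroup.zpowers g))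

section

variable {A B : ℤ} (D : Cd A B)

/-- the partial zeta function -/
def Zo (z s : ℂ) : ℂ := ∑' x : D.O, ((‖z + D.J x‖ : ℝ) : ℂ) ^ (-2 * s)

/-- a character of `G` as a function -/
def cq (φ : D.G →* ℂˣ) (g : GQ) : ℂ := if h : g ∈ D.G then φ ⟨g, h⟩ else 0

/-- the derivative at zero, up to sign -/
def c0 (m : D.O) (T : Finset GQ) (b : GQ → D.O) (φ : D.G →* ℂˣ) : ℂ :=
  ∑ g ∈ T, cq D φ g * (2 * lg (D.J ω) (D.J (b g) / D.J m) : ℝ)

/-- `m` separates the units, `T` represents the ray classes, `g` acts as `b g` -/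
structure Ry (m : D.O) (T : Finset GQ) (b : GQ → D.O) : Prop where
  ne : m ≠ 0
  nu : ¬ IsUnit m
  sep : ∀ ζ, IsUnit ζ → m ∣ ζ - 1 → ζ = 1
  tv : Tv D.G (D.Hm m) T
  ac : ∀ g ∈ T, D.Ac m g (b g)

/-- `F` lies in the ray class field, `X` is the dual of its group -/
structure Ly (m : D.O) {F : Type} [Field F] (jF : F →+* Qb) (X : Finset (D.G →* ℂˣ)) : Prop where
  G : GK jF ≤ D.G
  hm : D.Hm m ≤ GK jF
  X : ∀ φ, φ ∈ X ↔ ∀ g : D.G, g.1 ∈ GK jF → φ g = 1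

/-- `S` is the set of primes which divide `m` -/
def Sp (m : D.O) {F : Type} [Field F] (jF : F →+* Qb) (S : Finset (Pm F)) : Prop :=
  ∀ w, w ∈ S ↔ ∃ y ∈ w.asIdeal, jF (y : F) = D.j m

/-- the group generated by the conjugates of `x` -/
def Cu {F : Type} [Field F] (jF : F →+* Qb) (x : Qb) : Subgroup (𝓞 F)ˣ :=
  Subgroup.closure {v | ∃ g ∈ D.G, jF (vU v) = g x}

/-- **a layer of degree `p`** in which no prime of `m` splits -/
structure Pair (p : ℕ) (m : D.O) (F' : Type) {F : Type} [Field F'] [Field F] [Algebra F' F]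
    (jF : F →+* Qb) (σ : GQ) : Prop where
  G : GK (jF.comp (algebraMap F' F)) ≤ D.G
  hm : D.Hm m ≤ GK jF
  s0 : σ ∈ GK (jF.comp (algebraMap F' F))
  s1 : σ ∉ GK jF
  sp : σ ^ p ∈ GK jF
  gen : ∀ g ∈ GK (jF.comp (algebraMap F' F)), ∃ i : ℕ, (σ ^ i)⁻¹ * g ∈ GK jF
  ns : ∀ P : Ideal (𝓞 Qb), P.IsPrime → D.j m ∈ P →
    ∃ g ∈ dec P, g ∈ GK (jF.comp (algebraMap F' F)) ∧ g ∉ GK jF

end

/-- a group which permutes the infinite places simply transitively, `F'` is fixed by `σ` -/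
structure Cy (p : ℕ) (F' : Type) {F Γ : Type} [Field F'] [Field F] [Algebra F' F] [CommGroup Γ]
    (ρ : Γ →* (F ≃+* F)) (φ : F →+* ℂ) (σ : Γ) (u : F) (X : Finset (Γ →* ℂˣ)) : Prop where
  pr : p.Prime
  ord : orderOf σ = p
  cx : IsTotallyComplex F'
  bij : Bijective fun γ => InfinitePlace.mk (φ.comp (ρ γ).toRingHom)
  fix : ∀ x, ρ σ x = x ↔ x ∈ (algebraMap F' F).range
  ne : u ≠ 0
  un : ∀ γ, ∃ v, vU v = ρ γ (ρ σ u / u)
  X : ∀ χ, χ ∈ X ↔ χ σ ≠ 1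

/-- the group generated by the conjugates of `x` -/
def Cr {F Γ : Type} [Field F] [CommGroup Γ] (ρ : Γ →* (F ≃+* F)) (x : F) : Subgroup (𝓞 F)ˣ :=
  Subgroup.closure {v | ∃ γ, vU v = ρ γ x}

/-- the character sum -/
def xs {F Γ : Type} [Field F] [CommGroup Γ] [Fintype Γ] (ρ : Γ →* (F ≃+* F)) (φ : F →+* ℂ) (u : F)
    (χ : Γ →* ℂˣ) : ℂ := ∑ γ, (χ γ : ℂ) * (Real.log ‖φ (ρ γ u)‖ : ℝ)

/-! ## rows -/

/-- the partial zeta function near zero -/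
def FE0 : Prop := ∀ A B (D : Cd A B) z, (∀ x, D.J x ≠ z) → ∃ G : ℂ → ℂ,
  DifferentiableOn ℂ G {s | -1 < s.re} ∧ (∀ s : ℝ, 1 < s → s * G s = (s - 1) * Zo D z s) ∧
  G 0 = (2 * lg (D.J ω) z : ℝ)

/-- invariance -/
def LGI : Prop := ∀ A B (D : Cd A B) z ζ y, (∀ x, D.J x ≠ z) → IsUnit ζ →
  lg (D.J ω) (D.J ζ * z + D.J y) = lg (D.J ω) z

/-- the absolute value of the function -/
def THL : Prop := ∀ A B (D : Cd A B), D.Cf → D.Eu → ∀ a : ℕ, a.Coprime 6 → ∀ z Q,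
  Un D.L (D.Ω * z) Q → D.act a Q ≠ 0 →
  Real.log ‖io (D.th a Q)‖ = 2 * (a ^ 2 * lg (D.J ω) z - lg (D.J ω) (a * z))

/-- the factorisation of the zeta function -/
def LFA : Prop := ∀ A B (D : Cd A B), D.Cf → ∀ m T b, Ry D m T b →
  ∀ (F : Type) [Field F] [NumberField F] (jF : F →+* Qb) X S, Ly D m jF X → Sp D m jF S →
  ∀ s : ℝ, 1 < s →
    dedekindZeta F s * ∏ w ∈ S, (1 - (Ideal.absNorm w.asIdeal : ℂ) ^ (-(s : ℂ))) =
    ∏ φ ∈ X, (D.nm m : ℂ) ^ (-(s : ℂ)) * ∑ g ∈ T, cq D φ g * Zo D (D.J (b g) / D.J m) s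

/-- the Galois group -/
def GAL : Prop := ∀ A B (D : Cd A B), D.Cf → ∀ m ≠ 0,
  ∀ (F : Type) [Field F] [NumberField F] (jF : F →+* Qb), GK jF ≤ D.G → D.Hm m ≤ GK jF →
  IsTotallyComplex F ∧ rank F + 1 = (GK jF).relIndex D.G ∧ (∃ S, Sp D m jF S) ∧
  (∀ x : Qb, (∀ g ∈ GK jF, g x = x) → ∃ y, jF y = x) ∧
  (∃ X, Ly D m jF X ∧ X.card = (GK jF).relIndex D.G) ∧
  ∃ (Γ : Type) (_ : CommGroup Γ) (_ : Fintype Γ) (π : D.G →* Γ) (ρ : Γ →* (F ≃+* F)),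
    Surjective π ∧ (∀ g, π g = 1 ↔ g.1 ∈ GK jF) ∧ (∀ g x, jF (ρ (π g) x) = g.1 (jF x)) ∧
    Bijective fun γ => InfinitePlace.mk ((io.toRingHom.comp jF).comp (ρ γ).toRingHom)

/-- representatives exist -/
def RYE : Prop := ∀ A B (D : Cd A B), D.Cf → ∀ (p : ℕ) a m, p.Prime → p ≠ 2 → D.Ad p a m →
  ∃ T b, Ry D m T b

/-- **the class number formula at zero** -/
def CNF0 : Prop := ∀ A B (D : Cd A B), D.Cf → ∀ m T b, Ry D m T b →
  ∀ (F' F : Type) [Field F'] [NumberField F'] [Field F] [NumberField F] (j' : F' →+* Qb)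
    (jF : F →+* Qb) X' X S' S, Ly D m j' X' → Ly D m jF X → Sp D m j' S' → Sp D m jF S →
    GK jF ≤ GK j' → S.card = S'.card →
    hR F * ∏ w ∈ S, Real.log (Ideal.absNorm w.asIdeal) =
      hR F' * (∏ w ∈ S', Real.log (Ideal.absNorm w.asIdeal)) * ∏ φ ∈ X \ X', ‖c0 D m T b φ‖

/-- the primes of `m` -/
def LOC : Prop := ∀ A B (D : Cd A B), D.Cf → ∀ (p : ℕ) m, p.Prime → m ≠ 0 →
  ∀ (F' F : Type) [Field F'] [NumberField F'] [Field F] [NumberField F] [Algebra F' F]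
    (jF : F →+* Qb) σ S' S, Pair D p m F' jF σ → Sp D m (jF.comp (algebraMap F' F)) S' →
    Sp D m jF S → S.card = S'.card ∧ ∏ w ∈ S, Real.log (Ideal.absNorm w.asIdeal) =
      (∏ w ∈ S, w.asIdeal.inertiaDeg (𝓞 F') : ℕ) * ∏ w ∈ S', Real.log (Ideal.absNorm w.asIdeal)

/-- the quotient is a unit -/
def UNI : Prop := ∀ A B (D : Cd A B), D.Cf → ∀ (p : ℕ) a m, p.Prime → D.Es p → D.Ad p a m →
  ∀ (F' F : Type) [Field F'] [NumberField F'] [Field F] [NumberField F] [Algebra F' F]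
    (jF : F →+* Qb) σ T (u : F), Pair D p m F' jF σ → Tv (GK jF) (D.Hm m) T →
    jF u = ∏ s ∈ T, s (D.un a m) → u ≠ 0 ∧ ∀ g ∈ D.G, ∃ v, jF (vU v) = g (σ (jF u) / jF u)

/-- the character sum of the unit -/
def SUM : Prop := ∀ A B (D : Cd A B), D.Cf → D.Eu → ∀ (p a : ℕ) m T b, p.Prime → D.Es p →
  D.Ad p a m → Ry D m T b → ∀ (H : Subgroup GQ) T₁ T₂ g ζ (φ : D.G →* ℂˣ), H ≤ D.G → D.Hm m ≤ H →
  Tv D.G H T₁ → Tv H (D.Hm m) T₂ → IsUnit ζ → D.Ac m g (ζ * a) → (∀ h : D.G, h.1 ∈ H → φ h = 1) →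
  ∑ t ∈ T₁, cq D φ t * (Real.log ‖io (t (∏ s ∈ T₂, s (D.un a m)))‖ : ℝ) =
    (a ^ 2 - (cq D φ g)⁻¹) * c0 D m T b φ

/-- the smoothing factor -/
def SMO : Prop := ∀ A B (D : Cd A B), D.Cf → ∀ m ≠ 0, ∀ (F : Type) [Field F] [NumberField F]
  (jF : F →+* Qb) X (a : ℕ) g, Ly D m jF X → 1 < a → g ∈ D.G →
  ∏ φ ∈ X, ‖(a : ℂ) ^ 2 - (cq D φ g)⁻¹‖ = sm a (GK jF) D.G g ∧ sm a (GK jF) D.G g ≠ 0

/-- no torsion -/
def RG0 : Prop := ∀ (p : ℕ) (F' F Γ : Type) [Field F'] [NumberField F'] [Field F] [NumberField F]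
  [Algebra F' F] [CommGroup Γ] [Fintype Γ] (ρ : Γ →* (F ≃+* F)) φ σ u X, Cy p F' ρ φ σ u X →
  (∀ χ ∈ X, xs ρ φ u χ ≠ 0) → Module.finrank F' F = p ∧ Cr ρ (ρ σ u / u) ≤ (nU F' F).ker ∧
    ∀ c ∈ Cr ρ (ρ σ u / u), c ∈ torsion F → c = 1

/-- indices -/
def RG1 : Prop := ∀ (p : ℕ) (F' F : Type) [Field F'] [NumberField F'] [Field F] [NumberField F]
  [Algebra F' F] (C : Subgroup (𝓞 F)ˣ), p.Prime → Module.finrank F' F = p → C ≤ (nU F' F).ker →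
  (∀ c ∈ C, c ∈ torsion F → c = 1) → (nU F' F).range.index ≠ 0 ∧
    C.relIndex (nU F' F).ker * p ^ rank F' * torsionOrder F' =
      (nU F' F).range.index * torsionOrder F * ((iU F' F).range ⊔ C ⊔ torsion F).index

/-- the determinant -/
def RG2 : Prop := ∀ (p : ℕ) (F' F Γ : Type) [Field F'] [NumberField F'] [Field F] [NumberField F]
  [Algebra F' F] [CommGroup Γ] [Fintype Γ] (ρ : Γ →* (F ≃+* F)) φ σ u X, Cy p F' ρ φ σ u X →
  (((iU F' F).range ⊔ Cr ρ (ρ σ u / u) ⊔ torsion F).index : ℝ) * regulator F =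
    p ^ rank F' * regulator F' * ∏ χ ∈ X, ‖2 * xs ρ φ u χ‖

/-- **the index of the elliptic units** -/
def IDX : Prop := ∀ A B (D : Cd A B), D.Cf → D.Eu → ∀ (p a : ℕ) m, p.Prime → p ≠ 2 → D.Es p →
  1 < a → D.Ad p a m →
  ∀ (F' F : Type) [Field F'] [NumberField F'] [Field F] [NumberField F] [Algebra F' F]
    (jF : F →+* Qb) σ g ζ T (u : F) S, Pair D p m F' jF σ → IsUnit ζ → D.Ac m g (ζ * a) →
    Tv (GK jF) (D.Hm m) T → jF u = ∏ s ∈ T, s (D.un a m) → Sp D m jF S →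
    (∀ g ∈ D.G, ∃ v, jF (vU v) = g (σ (jF u) / jF u)) ∧
    Cu D jF (σ (jF u) / jF u) ≤ (nU F' F).ker ∧
    (∀ c ∈ Cu D jF (σ (jF u) / jF u), c ∈ torsion F → c = 1) ∧
    (Cu D jF (σ (jF u) / jF u)).relIndex (nU F' F).ker ≠ 0 ∧ ∃ k : ℕ,
      (Cu D jF (σ (jF u) / jF u)).relIndex (nU F' F).ker * classNumber F' *
        sm a (GK (jF.comp (algebraMap F' F))) D.G g =
      2 ^ k * (nU F' F).range.index * classNumber F * (∏ w ∈ S, w.asIdeal.inertiaDeg (𝓞 F')) *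
        sm a (GK jF) D.G g

end Vale.Agent.P014X.An
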